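import Vale.Agent.P218N.D6.Atl2
import Vale.Agent.P218N.H.Div

/-! Block D6: existence of an adapted atlas, and the extension of cut-off functions. -/

open Set Filter Topology Metric
open scoped RealInnerProductSpace ContDiff Real

namespace Vale.Agent.P218N.D6

open Vale.Agent.P218.H313 Vale.Agent.P218N.H

set_option maxSynthPendingDepth 3

namespace At

variable {w : E3 → ℝ} (D : EndData w)

/-- the asymptotic cones and cylinders -/
noncomputable def bas : En D → R2 → E3 :=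
  Sum.elim (fun i v => Real.exp v.1 • D.γ i v.2) fun j v => cir (D.Q j) v.2 + v.1 • axis (D.Q j)

/-- their normal fields -/
noncomputable def nor : En D → R2 → E3 :=
  Sum.elim (fun i v => Real.exp v.1 • D.n i v.2) fun j v => cir (D.Q j) v.2

/-- the heights -/
def hgt : En D → R2 → ℝ := Sum.elim D.h D.v

/-- the directions at infinity -/
noncomputable def dir : En D → ℝ → E3 := Sum.elim D.γ fun j _ => axis (D.Q j)

theorem endPt_eq (e : En D) : endPt D e = fun v => bas D e v + hgt D e v • nor D e v := by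
  funext v
  rcases e with i | j
  · simp only [endPt, bas, nor, hgt, Sum.elim_inl, conePt]
    module
  · simp only [endPt, bas, nor, hgt, Sum.elim_inr, cylPt, cir, axis, ← map_smul, ← map_add]
    congr 1
    ext i
    fin_cases i <;> simp <;> ring

theorem hgt_dec : ∀ e : En D, Decays (hgt D e)
  | .inl i => D.hdec i
  | .inr j => D.vdec j

theorem mod_end : ∀ e : En D, ∃ C δ,
    Mod (bas D e) (nor D e) (endSc D e) (endXi D e) (endSg D e) (dir D e) C δ
  | .inl i => mod_cone (D.link i)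
  | .inr j => mod_cyl (D.Q j)

theorem end_mem : ∀ (e : En D) (v : R2), D.s₀ < v.1 → w (endPt D e v) = 0
  | .inl i => D.cone_mem i
  | .inr j => D.cyl_mem j

theorem endPt_smooth (e : En D) : ContDiff ℝ ∞ (endPt D e) := by
  obtain ⟨C, δ, M⟩ := mod_end D e
  rw [endPt_eq]
  exact M.bs.add ((hgt_dec D e).smooth.smul M.Ns)

theorem endPt_per (e : En D) (v : R2) (m : ℤ) :
    endPt D e (v.1, v.2 + m * (2 * π)) = endPt D e v := by
  obtain ⟨C, δ, M⟩ := mod_end D e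
  exact per_int (f := fun θ => endPt D e (v.1, θ))
    (fun θ => by simp only [endPt_eq, M.bp, M.Np, (hgt_dec D e).per]) m v.2

/-- far points of the surface are far points of the ends -/
theorem far (s : ℝ) : ∃ R, 0 ≤ R ∧ ∀ y, w y = 0 → R ≤ ‖y‖ → ∃ e v, s < v.1 ∧ y = endPt D e v := by
  have h : ∀ e : En D, ∃ B, ∀ v ∈ Icc D.s₀ s ×ˢ Icc 0 (2 * π), ‖endPt D e v‖ ≤ B := fun e =>
    (isCompact_Icc.prod isCompact_Icc).exists_bound_of_continuousOn
      (endPt_smooth D e).continuous.continuousOn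
  choose B hB using h
  obtain ⟨R, ⟨h0, h1⟩, h2⟩ := (((eventually_ge_atTop 0).and (eventually_gt_atTop D.R)).and
    (eventually_all.2 fun e => eventually_gt_atTop (B e))).exists
  refine ⟨R, h0, fun y hy h => ?_⟩
  obtain ⟨e, v, h3, rfl⟩ : ∃ e v, D.s₀ < v.1 ∧ y = endPt D e v := by
    rcases D.cover y hy (h1.trans_le h) with ⟨i, h3⟩ | ⟨j, h3⟩
    exacts [⟨.inl i, h3⟩, ⟨.inr j, h3⟩]
  refine ⟨e, v, not_le.1 fun h4 => ?_, rfl⟩
  obtain ⟨m, hm⟩ := red v.2
  have := hB e (v.1, v.2 + m * (2 * π)) ⟨⟨h3.le, h4⟩, Ico_subset_Icc_self hm⟩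
  rw [endPt_per] at this
  linarith [h2 e]

theorem per_sep {d d' : ℝ → E3} (hc : Continuous d) (hc' : Continuous d')
    (hp : ∀ θ, d (θ + 2 * π) = d θ) (hp' : ∀ θ, d' (θ + 2 * π) = d' θ) (h : ∀ θ θ', d θ ≠ d' θ') :
    ∀ᶠ ε in 𝓝[>] (0 : ℝ), ∀ θ θ', ε ≤ ‖d θ - d' θ'‖ := by
  obtain ⟨a, h0, ha⟩ := (isCompact_Icc.prod isCompact_Icc :
    IsCompact (Icc 0 (2 * π) ×ˢ Icc 0 (2 * π))).exists_forall_le'
    (f := fun z => ‖d z.1 - d' z.2‖) (a := 0) (by fun_prop) fun z _ =>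
      norm_pos_iff.2 (sub_ne_zero.2 (h _ _))
  filter_upwards [nhdsWithin_le_nhds (Iic_mem_nhds h0)] with ε (hε : ε ≤ a) θ θ'
  obtain ⟨m, hm⟩ := red θ
  obtain ⟨m', hm'⟩ := red θ'
  rw [← per_int hp m, ← per_int hp' m']
  exact hε.trans (ha (_, _) ⟨Ico_subset_Icc_self hm, Ico_subset_Icc_self hm'⟩)

theorem dir_sep : ∀ᶠ ε in 𝓝[>] (0 : ℝ), ∀ e e' : En D, e ≠ e' → ∀ θ θ',
    ε ≤ ‖dir D e θ - dir D e' θ'‖ := by
  refine eventually_all.2 fun e => eventually_all.2 fun e' => eventually_all.2 fun h => ?_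
  obtain ⟨C, δ, M⟩ := mod_end D e
  obtain ⟨C', δ', M'⟩ := mod_end D e'
  refine per_sep M.dc M'.dc M.dp M'.dp fun θ θ' => ?_
  rcases e with i | j <;> rcases e' with i' | j'
  exacts [D.disj i i' (by simpa using h) _ _, D.off i j' _, (D.off i' j _).symm,
    D.axes j j' (by simpa using h)]

theorem dir_near {ε : ℝ} (hε : 0 < ε) : ∀ᶠ δ in 𝓝[>] (0 : ℝ), ∀ᶠ s in atTop, ∀ (e : En D) (v : R2)
    (τ : ℝ), s ≤ v.1 → |τ| ≤ δ →
    ‖‖bas D e v + τ • nor D e v‖⁻¹ • (bas D e v + τ • nor D e v) - dir D e v.2‖ < ε := by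
  filter_upwards [nhdsWithin_le_nhds (Iic_mem_nhds one_pos),
    nhdsWithin_le_nhds (Iio_mem_nhds (show 0 < ε / 4 by positivity))] with δ (h1 : δ ≤ 1)
    (h2 : δ < ε / 4)
  filter_upwards [eventually_ge_atTop 1, eventually_ge_atTop (16 / ε)] with s h3 h4 e v τ hv hτ
  obtain ⟨C, δ', M⟩ := mod_end D e
  have h5 : 8 / v.1 ≤ ε / 2 := by
    rw [div_le_iff₀ hε] at h4
    rw [div_le_iff₀ (by linarith)]
    nlinarith
  linarith [M.dir v τ (h3.trans hv) (hτ.trans h1)]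

/-- the neighbourhoods of the ends are embedded and disjoint -/
theorem sep : ∀ᶠ δ in 𝓝[>] (0 : ℝ), ∀ᶠ s in atTop, ∀ (e e' : En D) (v v' : R2) (τ τ' : ℝ),
    s ≤ v.1 → s ≤ v'.1 → |τ| ≤ δ → |τ'| ≤ δ →
    bas D e v + τ • nor D e v = bas D e' v' + τ' • nor D e' v' →
    e = e' ∧ v.1 = v'.1 ∧ τ = τ' ∧ ∃ m : ℤ, v'.2 = v.2 + m * (2 * π) := by
  obtain ⟨ε, h1, h0⟩ := ((dir_sep D).and self_mem_nhdsWithin).exists
  choose C δ M using mod_end D
  filter_upwards [dir_near D (half_pos h0), eventually_all.2 fun e =>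
    nhdsWithin_le_nhds (s := Ioi (0 : ℝ)) (Iic_mem_nhds (M e).δ0)] with a h2 h3
  filter_upwards [h2] with s h4 e e' v v' τ τ' hv hv' hτ hτ' h
  obtain rfl : e = e' := by
    by_contra h5
    have h6 := h4 e v τ hv hτ
    rw [h, norm_sub_rev] at h6
    linarith [h1 e e' h5 v.2 v'.2, h4 e' v' τ' hv' hτ', norm_sub_le_norm_sub_add_norm_sub
      (dir D e v.2) (‖bas D e' v' + τ' • nor D e' v'‖⁻¹ • (bas D e' v' + τ' • nor D e' v'))
      (dir D e' v'.2)]
  exact ⟨rfl, (M e).inj v v' τ τ' (hτ.trans (h3 e)) (hτ'.trans (h3 e)) h⟩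

variable {D} {n : E3 → E3} {κ : Type} {ψ : κ → R2 → E3} {U : κ → Set R2} {s1 : ℝ}

theorem geo_n (G : Geo D n ψ U s1) : ∀ e, ∃ σ : ℝ, (σ = 1 ∨ σ = -1) ∧ ∀ v : R2, s1 < v.1 →
    n (endPt D e v) = σ • nor D e v
  | .inl i => (G.ncone i).imp fun _ h => ⟨h.1, fun v hv => (h.2 v hv).trans (mul_smul _ _ _)⟩
  | .inr j => G.ncyl j

theorem geo_ch (G : Geo D n ψ U s1) : ∀ k, IsOpen (chO D U s1 k) ∧
    (∀ v ∈ chO D U s1 k, ContDiffAt ℝ 2 (chφ D ψ k) v) ∧ ∀ v ∈ chO D U s1 k, w (chφ D ψ k v) = 0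
  | .inl e => ⟨isOpen_lt continuous_const continuous_fst, fun v _ => cd2 (endPt_smooth D e) v,
      fun v hv => end_mem D e v (G.s0.trans_lt hv)⟩
  | .inr k => ⟨G.op k, fun _ hv => (G.sm k).contDiffAt ((G.op k).mem_nhds hv), G.mem k⟩

/-- the pieces on the ends -/
theorem ends (hw : Shr w) (G : Geo D n ψ U s1) : ∃ s, s1 ≤ s ∧ 1 ≤ s ∧
    (∀ e, ∃ C C' τ, 0 < τ ∧ Pc w n (endPt D e) {v | s < v.1} {v | s + 1 ≤ v.1}
      {v | s < v.1 ∧ v.2 ∈ Ico 0 (2 * π)} (endSc D e) (endXi D e) C C' τ) ∧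
    (∀ e e' (v v' : R2), s < v.1 → s < v'.1 → endPt D e v = endPt D e' v' →
      e = e' ∧ v.1 = v'.1 ∧ ∃ m : ℤ, v'.2 = v.2 + m * (2 * π)) ∧
    ∀ e (v : R2), s < v.1 →
      endSg D e v.1 ≤ ‖endPt D e v‖ ^ 2 ∧ ‖endPt D e v‖ ^ 2 ≤ 10 * endSg D e v.1 := by
  choose C δ M using mod_end D
  obtain ⟨a, ⟨h1, h2⟩, h3, h4, h0 : 0 < a⟩ := (((sep D).and (eventually_all.2 fun e =>
    nhdsWithin_le_nhds (s := Ioi (0 : ℝ)) (Iic_mem_nhds (M e).δ0))).and
    ((eventually_all.2 fun e => nhdsWithin_le_nhds (s := Ioi (0 : ℝ)) (Iic_mem_nhds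
      (show 0 < 1 / C e ^ 2 by have := (M e).C1; positivity))).and
      (Eventually.and (nhdsWithin_le_nhds (Iic_mem_nhds one_pos)) self_mem_nhdsWithin))).exists
  obtain ⟨s, h5, h6⟩ := (h1.and (eventually_all.2 fun e =>
    jb_dec (hgt_dec D e) (half_pos h0))).exists
  obtain ⟨R, -, hR⟩ := far D s
  obtain ⟨t, ⟨t1, t2⟩, t3, t4⟩ := (((eventually_ge_atTop s1).and (eventually_ge_atTop 1)).and
    ((eventually_ge_atTop s).and (eventually_ge_atTop R))).exists
  have h7 : ∀ e (v : R2), s ≤ v.1 → |hgt D e v| ≤ a := fun e v hv =>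
    (h6 e v hv).b0.trans (by linarith)
  refine ⟨t, t1, t2, fun e => ?_, fun e e' v v' hv hv' h => ?_, fun e v hv => ?_⟩
  · obtain ⟨σ, hσ, hN⟩ := geo_n G e
    refine ⟨_, (pc_end (M e) hw G.nsm G.npos (hgt_dec D e) (endPt_eq D e) hσ t2 (ε := a / 2)
      (by linarith [show a ≤ δ e from h2 e]) ?_ (fun v hv => h6 e v (by linarith))
      (fun v hv => end_mem D e v (by linarith [G.s0])) (fun v hv => hN v (by linarith))
      fun v τ hv hτ h => ?_).imp fun _ h => ⟨_, half_pos h0, h⟩⟩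
    · have := (le_div_iff₀ (by have := (M e).C1; positivity)).1 (show a ≤ 1 / C e ^ 2 from h3 e)
      linarith
    · have h8 := ((M e).sgl v.1 (by linarith)).trans
        ((M e).nrm v τ (by linarith) (by linarith [show a ≤ 1 from h4])).1
      obtain ⟨e', v', h9, h10⟩ := hR _ h
        (by linarith [(abs_le_of_sq_le_sq' h8 (norm_nonneg _)).2])
      obtain ⟨rfl, h11, h12, m, h13⟩ := h5 e e' v v' τ _ (by linarith) h9.le (by linarith)
        (h7 e' v' h9.le) (h10.trans (congrFun (endPt_eq D e') v'))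
      rw [h12, ← per_int (f := fun θ => hgt D e (v.1, θ)) ((hgt_dec D e).per v.1) m v.2, h11, ← h13]
  · rw [endPt_eq, endPt_eq] at h
    have := h5 e e' v v' _ _ (by linarith) (by linarith) (h7 e v (by linarith))
      (h7 e' v' (by linarith)) h
    exact ⟨this.1, this.2.1, this.2.2.2⟩
  · rw [endPt_eq]
    exact (M e).nrm v _ (by linarith) ((h7 e v (by linarith)).trans h4)

end At

open At

theorem atlasStmt : AtlasStmt := by
  classical
  intro w D n κ ψ U s1 hw G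
  obtain ⟨s, s12, s21, he, hsep, hnrm⟩ := ends hw G
  obtain ⟨R, R0, hR⟩ := far D s
  obtain ⟨T, t1, t2⟩ := ((eventually_ge_atTop (R ^ 2)).and
    (eventually_all.2 fun e => eventually_ge_atTop (10 * endSg D e (s + 1)))).exists
  have T0 : 0 ≤ T := (sq_nonneg R).trans t1
  set Z : E3 → ℝ := fun p => Real.smoothTransition (‖p‖ ^ 2 - T) with hZ
  have Zs : ContDiff ℝ ∞ Z :=
    Real.smoothTransition.contDiff.comp ((contDiff_norm_sq ℝ).sub contDiff_const)
  have Z0 : ∀ p, ‖p‖ ^ 2 ≤ T → Z p = 0 := fun p h =>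
    Real.smoothTransition.zero_of_nonpos (by linarith)
  have Z1 : ∀ p, T + 1 ≤ ‖p‖ → Z p = 1 := fun p h =>
    Real.smoothTransition.one_of_one_le (by nlinarith)
  have hK : IsCompact (closedBall (0 : E3) (T + 1) ∩ {p | w p = 0}) :=
    (isCompact_closedBall _ _).inter_right (isClosed_eq hw.smooth.continuous continuous_const)
  choose k x hx hp using fun p : ↥(closedBall (0 : E3) (T + 1) ∩ {p | w p = 0}) =>
    G.cover p p.2.2
  choose r r0 rU hc V Vo Vm hV using fun p => pc_core hw.smooth G.nsm G.npos (geo_ch G (k p)).1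
    (geo_ch G (k p)).2.1 (geo_ch G (k p)).2.2 (hx p) (G.imm _ _ (hx p))
  obtain ⟨t, ht⟩ := hK.elim_finite_subcover V Vo fun p h =>
    mem_iUnion.2 ⟨⟨p, h⟩, (hp ⟨p, h⟩).subst (Vm ⟨p, h⟩)⟩
  obtain ⟨χ, c1, -, c3, c4, -, c5⟩ := exists_pou hK (ι := t) (U := fun p => V p.1)
    (fun p => Vo p.1) fun y hy => by
      obtain ⟨p, h1, h2⟩ := mem_iUnion₂.1 (ht hy)
      exact mem_iUnion.2 ⟨⟨p, h1⟩, h2⟩
  have c6 : ∀ (j : t) p, w p = 0 → (1 - Z p) * χ j p ≠ 0 →
      ∃ v ∈ closedBall (x j.1) (r j.1 / 2), chφ D ψ (k j.1) v = p := fun j p h1 h2 =>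
    hV _ p (c3 j (subset_tsupport _ (right_ne_zero_of_mul h2))) h1
  obtain ⟨𝒜, e1, e2, e3, e4⟩ := atlas_of_pc (w := w) (n := n) (K := En D ⊕ t)
    (Sum.elim (endPt D) fun j => chφ D ψ (k j.1))
    (Sum.elim (fun _ => {v | s < v.1}) fun j => ball (x j.1) (r j.1))
    (Sum.elim (fun _ => {v | s + 1 ≤ v.1}) fun j => closedBall (x j.1) (r j.1 / 2))
    (Sum.elim (fun _ => {v | s < v.1 ∧ v.2 ∈ Ico 0 (2 * π)}) fun j => ball (x j.1) (r j.1))
    (Sum.elim (endSc D) fun _ _ => 1) (Sum.elim (endXi D) fun _ => 0)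
    (Sum.elim (fun e p => if ∃ v : R2, s < v.1 ∧ endPt D e v = p then Z p else 0)
      fun j p => (1 - Z p) * χ j p)
    (Sum.forall.2 ⟨he, fun j => (hc j.1).imp fun _ h => h.imp fun _ h => ⟨_, r0 _, h⟩⟩)
    (Sum.forall.2 ⟨fun e p => ite_nonneg (Real.smoothTransition.nonneg _) le_rfl, fun j p =>
      mul_nonneg (sub_nonneg.2 (Real.smoothTransition.le_one _)) (c4 j p)⟩)
    (Sum.forall.2 ⟨fun e => by
      obtain ⟨C, C', τ, -, h⟩ := he e
      refine (jb_chart Zs Z1 h.C0 h.scle h.jφ).imp fun _ h1 v hv => (h1 v hv).congr ?_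
      exact mem_of_superset (h.op.mem_nhds hv) fun u hu => if_pos ⟨u, hu, rfl⟩, fun j => by
      obtain ⟨C, C', h⟩ := hc j.1
      exact jb_chart ((contDiff_const.sub Zs).mul (c1 j)) (c := 0)
        (fun y hy => by rw [Z1 y hy, sub_self, zero_mul]) h.C0 h.scle h.jφ⟩)
    (Sum.forall.2 ⟨fun e v (hv : s < v.1) (h : ¬s + 1 ≤ v.1) => by
      obtain ⟨C, δ, M⟩ := mod_end D e
      have := M.sgm (show v.1 ∈ Ici 0 from mem_Ici.2 (by linarith))
        (show s + 1 ∈ Ici 0 from mem_Ici.2 (by linarith)) (not_le.1 h).le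
      exact ite_eq_right_iff.2 fun _ => Z0 _ ((hnrm e v hv).2.trans (by linarith [t2 e])),
      fun j v hv h => by
      obtain ⟨C, C', h1⟩ := hc j.1
      by_contra h2
      obtain ⟨u, hu, h3⟩ := c6 j _ (h1.mem v hv) h2
      exact h (h1.Binj (h1.AO hu) hv h3 ▸ hu)⟩)
    (Sum.forall.2 ⟨fun e p _ h => not_not.1 fun h1 => h (if_neg h1), fun j p h1 h2 =>
      (c6 j p h1 h2).imp fun _ h => ⟨closedBall_subset_ball (half_lt_self (r0 _)) h.1, h.2⟩⟩)
    fun p hp => by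
      have a1 : ∑ e, (if ∃ v : R2, s < v.1 ∧ endPt D e v = p then Z p else 0) = Z p := by
        by_cases h : Z p = 0
        · simp [h]
        · obtain ⟨e, v, hv, rfl⟩ := hR p hp (abs_le_of_sq_le_sq'
            (t1.trans (not_le.1 fun h1 => h (Z0 p h1)).le) (norm_nonneg _)).2
          rw [Finset.sum_eq_single e (fun e' _ h1 => if_neg fun ⟨v', hv', h2⟩ =>
            h1 (hsep _ _ _ _ hv' hv h2).1) (by simp), if_pos ⟨v, hv, rfl⟩]
      simp only [Fintype.sum_sum_type, Sum.elim_inl, Sum.elim_inr, a1, ← Finset.mul_sum]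
      by_cases h : ‖p‖ ≤ T + 1
      · rw [(c5 p ⟨mem_closedBall_zero_iff.2 h, hp⟩).self_of_nhds]
        ring
      · rw [Z1 p (not_le.1 h).le]
        ring
  refine ⟨s, 𝒜.C, t, inferInstance, fun j => k j.1, 𝒜, s12, s21, fun e => by rw [e1]; rfl,
    fun e => by rw [e2]; rfl, fun e => by rw [e3]; rfl, fun e => by rw [e4]; rfl,
    fun j => by rw [e1]; rfl, fun j => by rw [e2]; exact rU _, fun j => by rw [e4]; rfl,
    fun j v hv => ?_, hsep, hnrm⟩
  simpa [e4] using 𝒜.radφ _ v hv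

theorem chiStmt : ChiStmt := by
  intro w D j χ s1 hχ h
  obtain ⟨ε, h1, h0 : 0 < ε⟩ := ((dir_sep D).and self_mem_nhdsWithin).exists
  obtain ⟨δ, h2, h3 : 0 < δ⟩ :=
    ((dir_near D (show 0 < ε / 3 by positivity)).and self_mem_nhdsWithin).exists
  obtain ⟨s, h4, h5, h6⟩ := (h2.and ((eventually_all.2 fun e => jb_dec (hgt_dec D e) h3).and
    (eventually_ge_atTop s1))).exists
  obtain ⟨R, R0, hR⟩ := far D s
  let g : ContDiffBump (axis (D.Q j)) := ⟨ε / 3, 2 * ε / 3, by positivity, by linarith⟩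
  let b : ContDiffBump (0 : E3) := ⟨R + 1, R + 2, by positivity, by linarith⟩
  set f : E3 → ℝ := fun y => g (‖y‖⁻¹ • y) with hf
  have f1 : ∀ y, y ≠ 0 → ContDiffAt ℝ 2 f y := fun y hy => (cd2 g.contDiff _).comp y
    (((contDiffAt_norm ℝ hy).inv (norm_ne_zero_iff.2 hy)).smul contDiffAt_id)
  have f2 : ∀ y, ContDiffAt ℝ 2 (fun y => b y * χ y + (1 - b y) * f y) y := fun y => by
    by_cases hy : y = 0
    · refine (cd2 hχ y).congr_of_eventuallyEq ?_
      rw [hy]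
      filter_upwards [b.eventuallyEq_one] with z hz
      simp [hz]
    · exact ((cd2 b.contDiff y).mul (cd2 hχ y)).add
        ((contDiffAt_const.sub (cd2 b.contDiff y)).mul (f1 y hy))
  obtain ⟨a, a1, ha⟩ := jb_cpt (isCompact_sphere (0 : E3) 1) fun y hy => f1 y
    (ne_zero_of_mem_unit_sphere ⟨y, hy⟩)
  obtain ⟨c, c1, hc⟩ := jb_cpt (isCompact_closedBall (0 : E3) (R + 2)) fun y _ => f2 y
  refine ⟨fun y => b y * χ y + (1 - b y) * f y, 4 * a + c * (R + 3) ^ 2, fun p hp => ?_,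
    fun y => ?_⟩
  · by_cases h7 : R ≤ ‖p‖
    · obtain ⟨e, v, hv, rfl⟩ := hR p hp h7
      have h8 := h4 e v _ hv.le (h5 e v hv.le).b0
      rw [← congrFun (endPt_eq D e) v] at h8
      have h9 : f (endPt D e v) = χ (endPt D e v) := by
        rw [h e v (h6.trans_lt hv)]
        split_ifs with h9
        · subst h9
          exact g.one_of_mem_closedBall (mem_closedBall_iff_norm.2 h8.le)
        · refine g.zero_of_le_dist ?_
          have := norm_sub_le_norm_sub_add_norm_sub (dir D e v.2)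
            (‖endPt D e v‖⁻¹ • endPt D e v) (axis (D.Q j))
          rw [norm_sub_rev] at h8
          rw [dist_eq_norm, show g.rOut = 2 * ε / 3 from rfl]
          linarith [show ε ≤ ‖dir D e v.2 - axis (D.Q j)‖ from h1 e _ h9 v.2 0]
      beta_reduce
      rw [h9]
      ring
    · simp [b.one_of_mem_closedBall (mem_closedBall_zero_iff.2 (show ‖p‖ ≤ R + 1 by linarith))]
  have n0 := norm_nonneg y
  have p1 : 0 ≤ c * (R + 3) ^ 2 := by positivity
  by_cases hy : ‖y‖ ≤ R + 2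
  · have k1 : c * (1 + ‖y‖) ^ 2 ≤ c * (R + 3) ^ 2 :=
      mul_le_mul_of_nonneg_left (pow_le_pow_left₀ (by linarith) (by linarith) 2) (by linarith)
    refine (hc y (mem_closedBall_zero_iff.2 hy)).mono ?_ ?_ ?_
    · nlinarith [mul_le_mul_of_nonneg_left (one_le_pow₀ (n := 2)
        (show 1 ≤ 1 + ‖y‖ by linarith)) (zero_le_one.trans c1)]
    · rw [le_div_iff₀ (by positivity)]
      nlinarith [mul_nonneg (mul_nonneg (zero_le_one.trans c1) n0) (show 0 ≤ 1 + ‖y‖ by linarith)]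
    · rw [le_div_iff₀ (by positivity)]
      linarith
  · have k0 : 0 < ‖y‖ := by linarith
    have k1 := (ha (‖y‖⁻¹ • y) (by simp [norm_smul, k0.ne'])).comp
      (f := fun z => ‖y‖⁻¹ • z) ((JB.id' y).cmul _)
    have k2 : |‖y‖⁻¹| * 1 ≤ 2 / (1 + ‖y‖) := by
      rw [abs_inv, abs_norm, mul_one, inv_eq_one_div, div_le_div_iff₀ k0 (by positivity)]
      linarith
    refine (k1.congr ?_).mono (by linarith) ?_ ?_
    · filter_upwards [continuousAt_const.eventually_lt continuous_norm.continuousAt (not_le.1 hy)]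
        with z hz
      have k3 : b z = 0 := b.zero_of_le_dist (by simpa using hz.le)
      simp only [k3, hf, norm_smul, norm_inv, norm_norm, smul_smul, mul_inv, inv_inv, zero_mul,
        zero_add, sub_zero, one_mul]
      rw [mul_right_comm, mul_inv_cancel₀ k0.ne', one_mul]
    · refine (mul_le_mul_of_nonneg_left k2 (by linarith)).trans ?_
      rw [← mul_div_assoc]
      exact div_le_div_of_nonneg_right (by linarith) (by positivity)
    · refine (add_le_add (mul_le_mul_of_nonneg_left (pow_le_pow_left₀ (by positivity) k2 2)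
        (by linarith)) (by simp : _ ≤ (0 : ℝ))).trans ?_
      rw [add_zero, div_pow, ← mul_div_assoc]
      exact div_le_div_of_nonneg_right (by linarith) (by positivity)

end Vale.Agent.P218N.D6
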