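import Vale.Agent.P218N.D6.Ric

/-! Block D6: the area formula over an atlas. -/

open MeasureTheory Set Filter Topology
open scoped RealInnerProductSpace

namespace Vale.Agent.P218N.D6

open Vale.Agent.P218 Vale.Agent.P218N.H Vale.Agent.P218N.G Vale.Agent.P218GA

set_option maxSynthPendingDepth 3

theorem meas_inter {f : R2 → E3} {s : Set R2} (hf : ContinuousOn f s) (hs : MeasurableSet s)
    {T : Set E3} (hT : MeasurableSet T) : MeasurableSet (s ∩ f ⁻¹' T) := by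
  rw [← Subtype.image_preimage_coe]
  exact hs.subtype_image (hf.domRestrict.measurable hT)

namespace Atlas

variable {w : E3 → ℝ} {n : E3 → E3} {K : Type} [Fintype K] (𝒜 : Atlas w n K)

theorem cd1 (k : K) : ContDiffOn ℝ 1 (𝒜.φ k) (𝒜.O k) := fun v hv =>
  (𝒜.jφ k v hv).j1.cd.contDiffWithinAt

theorem C_pos : 0 < 𝒜.C := one_pos.trans_le 𝒜.C1

/-- lower bound for the derivative of a chart -/
theorem low' (k : K) {v : R2} (hv : v ∈ 𝒜.O k) (u : R2) :
    𝒜.sc k v / 𝒜.C * ‖u‖ ≤ ‖fderiv ℝ (𝒜.φ k) v u‖ := by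
  have h := 𝒜.low k v hv u 0
  rw [zero_smul, add_zero, Prod.norm_mk, norm_zero, max_eq_left (norm_nonneg u)] at h
  rwa [div_mul_eq_mul_div, div_le_iff₀' 𝒜.C_pos]

theorem dinj (k : K) : ∀ v ∈ 𝒜.O k, Function.Injective (fderiv ℝ (𝒜.φ k) v) := fun v hv =>
  (injective_iff_map_eq_zero _).2 fun u hu => by
    have h := 𝒜.low' k hv u
    have h1 : 0 < 𝒜.sc k v / 𝒜.C := div_pos (one_pos.trans_le (𝒜.sc1 k v hv)) 𝒜.C_pos
    rw [hu, norm_zero] at h
    exact norm_le_zero_iff.1 (nonpos_of_mul_nonpos_right h h1)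

theorem ar_ge (k : K) {v : R2} (hv : v ∈ 𝒜.O k) : (𝒜.sc k v / 𝒜.C) ^ 2 ≤ ar (𝒜.φ k) v :=
  D6.ar_ge (div_pos (one_pos.trans_le (𝒜.sc1 k v hv)) 𝒜.C_pos).le (𝒜.low' k hv)

theorem cover : ⋃ k, 𝒜.φ k '' 𝒜.B k = {p | w p = 0} := by
  refine Subset.antisymm (iUnion_subset fun k => ?_) fun p hp => ?_
  · rintro _ ⟨v, hv, rfl⟩
    exact 𝒜.mem k v (𝒜.BO k hv)
  · obtain ⟨k, -, hk⟩ := Finset.exists_ne_zero_of_sum_ne_zero
      (by rw [𝒜.βsum p hp]; exact one_ne_zero : ∑ k, 𝒜.β k p ≠ 0)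
    obtain ⟨v, hv, rfl⟩ := 𝒜.βO k p hp hk
    exact mem_iUnion.2 ⟨k, 𝒜.Bim k v hv⟩

/-- disjoint pieces -/
theorem pieces : ∃ B : K → Set R2, (∀ k, MeasurableSet (B k)) ∧ (∀ k, B k ⊆ 𝒜.B k) ∧
    Pairwise (Function.onFun Disjoint fun k => 𝒜.φ k '' B k) ∧
    ⋃ k, 𝒜.φ k '' B k = {p | w p = 0} := by
  let e := Fintype.equivFin K
  have hm : ∀ k, MeasurableSet (𝒜.φ k '' 𝒜.B k) := fun k =>
    measurableSet_image (𝒜.cd1 k).continuousOn (𝒜.Bm k) (𝒜.BO k) (𝒜.Binj k)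
  let T : K → Set E3 := fun k => (⋃ j, ⋃ _ : e j < e k, 𝒜.φ j '' 𝒜.B j)ᶜ
  have key : ∀ j k, e j < e k → Disjoint (𝒜.φ j '' (𝒜.B j ∩ 𝒜.φ j ⁻¹' T j))
      (𝒜.φ k '' (𝒜.B k ∩ 𝒜.φ k ⁻¹' T k)) := fun j k h => by
    rw [image_inter_preimage, image_inter_preimage]
    exact disjoint_left.2 fun p h1 h2 => h2.2 (mem_iUnion₂.2 ⟨j, h, h1.1⟩)
  refine ⟨fun k => 𝒜.B k ∩ 𝒜.φ k ⁻¹' T k, fun k => ?_, fun k => inter_subset_left,
    fun j k hjk => ?_, ?_⟩
  · exact meas_inter ((𝒜.cd1 k).continuousOn.mono (𝒜.BO k)) (𝒜.Bm k)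
      (MeasurableSet.iUnion fun j => MeasurableSet.iUnion fun _ => hm j).compl
  · rcases lt_or_gt_of_ne (e.injective.ne hjk) with h | h
    · exact key j k h
    · exact (key k j h).symm
  · rw [← 𝒜.cover]
    refine Subset.antisymm (iUnion_mono fun k => image_mono inter_subset_left) fun p hp => ?_
    obtain ⟨k, hk, hmin⟩ := exists_min_image {k | p ∈ 𝒜.φ k '' 𝒜.B k} e (toFinite _)
      (mem_iUnion.1 hp)
    refine mem_iUnion.2 ⟨k, ?_⟩
    rw [image_inter_preimage]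
    refine ⟨hk, fun h => ?_⟩
    obtain ⟨j, h1, h2⟩ := mem_iUnion₂.1 h
    exact absurd (hmin j h2) (not_le.2 h1)

include 𝒜 in
theorem measurableSet_zero : MeasurableSet {p | w p = 0} := by
  rw [← 𝒜.cover]
  exact MeasurableSet.iUnion fun k =>
    measurableSet_image (𝒜.cd1 k).continuousOn (𝒜.Bm k) (𝒜.BO k) (𝒜.Binj k)

end Atlas

theorem areaStmt : AreaStmt := by
  intro w n K _ 𝒜
  refine ⟨fun g G hG hg => ?_, fun Z W Jc g hZ hi hd hW hs hJ hI => ?_⟩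
  · rw [sig, Measure.restrict_restrict hG, ← 𝒜.cover, inter_iUnion,
      aestronglyMeasurable_iUnion_iff]
    intro k
    have hc := (𝒜.cd1 k).continuousOn
    have hm := meas_inter (hc.mono (𝒜.BO k)) (𝒜.Bm k) hG
    have he := measurableEmbedding_restrict hc hm (inter_subset_left.trans (𝒜.BO k))
      ((𝒜.Binj k).mono inter_subset_left)
    rw [inter_comm, ← image_inter_preimage, ← range_domRestrict, ← he.map_comap,
      he.aestronglyMeasurable_map_iff]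
    exact (continuousOn_iff_continuous_domRestrict.1 fun v hv =>
      (hg k v (𝒜.BO k hv.1) hv.2).continuousWithinAt).aestronglyMeasurable
  · obtain ⟨B, hm, hB, hdis, hU⟩ := 𝒜.pieces
    have hO : ∀ k, B k ⊆ 𝒜.O k := fun k => (hB k).trans (𝒜.BO k)
    have hinj : ∀ k, InjOn (𝒜.φ k) (B k) := fun k => (𝒜.Binj k).mono (hB k)
    have c1 : ∀ k, ContDiffOn ℝ 1 (fun v => Z (𝒜.φ k v)) (𝒜.O k) := fun k =>
      hZ.comp_contDiffOn (𝒜.cd1 k)
    have i1 : ∀ k, InjOn (fun v => Z (𝒜.φ k v)) (B k) := fun k => hi.comp_injOn (hinj k)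
    have d1 : ∀ k, ∀ v ∈ 𝒜.O k, Function.Injective (fderiv ℝ (fun v => Z (𝒜.φ k v)) v) :=
      fun k v hv => by
        rw [show fderiv ℝ (fun v => Z (𝒜.φ k v)) v = _ from
          ((hZ.differentiable one_ne_zero _).hasFDerivAt.comp v (𝒜.jφ k v hv).has).fderiv]
        exact (hd _).comp (𝒜.dinj k v hv)
    have him : ∀ k, (fun v => Z (𝒜.φ k v)) '' B k = Z '' (𝒜.φ k '' B k) := fun k =>
      (image_image _ _ _).symm
    have hU' : {p | W p = 0} = ⋃ k, (fun v => Z (𝒜.φ k v)) '' B k := by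
      simp only [him]
      rw [← image_iUnion, hU]
      ext p
      obtain ⟨y, rfl⟩ := hs p
      rw [hi.mem_set_image]
      exact hW y
    have e : ∀ k, EqOn (fun v => jac2 (fderiv ℝ (fun v => Z (𝒜.φ k v)) v) • g (Z (𝒜.φ k v)))
        (fun v => jac2 (fderiv ℝ (𝒜.φ k) v) • (g (Z (𝒜.φ k v)) * Jc (𝒜.φ k v))) (B k) :=
      fun k v hv => by
        have h := hJ k v (hO k hv)
        simp only [jac2, smul_eq_mul, ar] at h ⊢
        rw [← h]
        ring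
    simp only [sig, Nat.cast_ofNat] at hI ⊢
    rw [← hU] at hI ⊢
    have hI' : ∀ k, IntegrableOn (fun p => g (Z p) * Jc p) (𝒜.φ k '' B k) μH[2] := fun k =>
      IntegrableOn.mono_set hI (subset_iUnion (fun k => 𝒜.φ k '' B k) k)
    rw [hU', integral_iUnion_fintype
        (fun k => measurableSet_image (𝒜.cd1 k).continuousOn (hm k) (hO k) (hinj k)) hdis hI',
      integral_iUnion_fintype
        (fun k => measurableSet_image (c1 k).continuousOn (hm k) (hO k) (i1 k))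
        (fun j k hjk => by
          simp only [Function.onFun, him]
          exact (disjoint_image_iff hi).2 (hdis hjk))
        fun k => (isJac_prod.integrableOn_image (𝒜.op k) (c1 k) (d1 k) (hm k) (hO k) (i1 k) g).2
          (((isJac_prod.integrableOn_image (𝒜.op k) (𝒜.cd1 k) (𝒜.dinj k) (hm k) (hO k) (hinj k)
            _).1 (hI' k)).congr_fun (e k).symm (hm k))]
    refine Finset.sum_congr rfl fun k _ => ?_
    rw [isJac_prod.integral_image (𝒜.op k) (c1 k) (d1 k) (hm k) (hO k) (i1 k),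
      isJac_prod.integral_image (𝒜.op k) (𝒜.cd1 k) (𝒜.dinj k) (hm k) (hO k) (hinj k)]
    exact setIntegral_congr_fun (hm k) (e k)

end Vale.Agent.P218N.D6
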