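import Vale.Agent.P218N.D6.Defs
import Vale.Agent.P218N.End.GeoA

/-! Block D6: general tools for the construction of the atlas. -/

open Set Filter Topology Metric
open scoped RealInnerProductSpace ContDiff Real

namespace Vale.Agent.P218N.D6.At

open Vale.Agent.P218.H313 Vale.Agent.P218N.H

set_option maxSynthPendingDepth 3

section gen

variable {X Y : Type*} [NormedAddCommGroup X] [NormedSpace ℝ X] [NormedAddCommGroup Y]
  [NormedSpace ℝ Y]

theorem cd2 {f : X → Y} (hf : ContDiff ℝ ∞ f) (x : X) : ContDiffAt ℝ 2 f x :=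
  (hf.of_le (show ((2 : ℕ∞) : WithTop ℕ∞) ≤ ((⊤ : ℕ∞) : WithTop ℕ∞) from
    WithTop.coe_le_coe.2 le_top)).contDiffAt

theorem jb_cpt {f : X → Y} {K : Set X} (hK : IsCompact K) (hf : ∀ x ∈ K, ContDiffAt ℝ 2 f x) :
    ∃ C, 1 ≤ C ∧ ∀ x ∈ K, JB f x C C C := by
  obtain ⟨a, ha⟩ := hK.exists_bound_of_continuousOn (f := f) fun x hx =>
    (hf x hx).continuousAt.continuousWithinAt
  obtain ⟨b, hb⟩ := hK.exists_bound_of_continuousOn (f := fderiv ℝ f) fun x hx =>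
    (JB.of_cd (hf x hx)).d.cd.continuousAt.continuousWithinAt
  obtain ⟨c, hc⟩ := hK.exists_bound_of_continuousOn (f := fderiv ℝ (fderiv ℝ f)) fun x hx =>
    ((JB.of_cd (hf x hx)).d.cd.continuousAt_fderiv one_ne_zero).continuousWithinAt
  exact ⟨max 1 (max a (max b c)), le_max_left _ _, fun x hx => ⟨hf x hx,
    (ha x hx).trans (by simp), (hb x hx).trans (by simp), (hc x hx).trans (by simp)⟩⟩

theorem red (θ : ℝ) : ∃ m : ℤ, θ + m * (2 * π) ∈ Ico 0 (2 * π) := by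
  simpa using (existsUnique_add_zsmul_mem_Ico Real.two_pi_pos θ 0).exists

theorem per_int {α : Type*} {f : ℝ → α} (hp : ∀ θ, f (θ + 2 * π) = f θ) (m : ℤ) (θ : ℝ) :
    f (θ + m * (2 * π)) = f θ := Function.Periodic.int_mul (f := f) hp m θ

theorem jb_per {f : ℝ → Y} (hf : ContDiff ℝ ∞ f) (hp : ∀ θ, f (θ + 2 * π) = f θ) :
    ∃ C, 1 ≤ C ∧ ∀ θ, JB f θ C C C := by
  obtain ⟨C, h1, hC⟩ := jb_cpt (isCompact_Icc (a := 0) (b := 2 * π)) fun x _ => cd2 hf x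
  refine ⟨C, h1, fun θ => ?_⟩
  obtain ⟨m, hm⟩ := red θ
  simpa [per_int hp] using (hC _ (Ico_subset_Icc_self hm)).comp (f := fun y => y + m * (2 * π))
    ((JB.id' θ).add (JB.const _ θ))

theorem jb_dec {h : R2 → ℝ} (hh : Decays h) {ε : ℝ} (hε : 0 < ε) :
    ∀ᶠ s in atTop, ∀ v : R2, s ≤ v.1 → JB h v ε ε ε := by
  obtain ⟨a, ha⟩ := hh.small 0 ε hε
  obtain ⟨b, hb⟩ := hh.small 1 ε hε
  obtain ⟨c, hc⟩ := hh.small 2 ε hε
  filter_upwards [eventually_ge_atTop a, eventually_ge_atTop b, eventually_ge_atTop c]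
    with s h0 h1 h2 v hv
  refine ⟨cd2 hh.smooth v, ?_, ?_, ?_⟩
  · simpa only [norm_iteratedFDeriv_zero] using ha v (h0.trans hv)
  · simpa only [norm_iteratedFDeriv_one] using hb v (h1.trans hv)
  · rw [← norm_iteratedFDeriv_one, norm_iteratedFDeriv_fderiv]
    exact hc v (h2.trans hv)

omit [NormedSpace ℝ X] in
theorem isClosed_of_loc {S : Set X}
    (h : ∀ R, ∃ K, IsCompact K ∧ K ⊆ S ∧ S ∩ ball 0 R ⊆ K) : IsClosed S := by
  refine isClosed_of_closure_subset fun y hy => ?_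
  obtain ⟨K, h1, h2, h3⟩ := h (‖y‖ + 1)
  exact h2 (closure_minimal h3 h1.isClosed (isOpen_ball.closure_inter ⟨hy, by simp⟩))

theorem pos_of_zero {f : ℝ → ℝ} {a τ : ℝ} (hc : Continuous f) (hd : HasDerivAt f a 0)
    (ha : 0 < a) (h0 : f 0 = 0) (hz : ∀ t, |t| < τ → f t = 0 → t = 0) {t : ℝ} (ht : |t| < τ)
    (h : 0 < t) : 0 < f t := by
  have h1 := ((hasDerivAt_iff_tendsto_slope_left_right.1 hd).2.eventually (lt_mem_nhds ha)).and
    (Ioo_mem_nhdsGT h)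
  obtain ⟨s, h2, h3, h4⟩ := h1.exists
  rw [slope_def_field, h0, sub_zero, sub_zero] at h2
  by_contra h5
  obtain ⟨r, h6, h7⟩ := intermediate_value_Icc' h4.le hc.continuousOn
    ⟨not_lt.1 h5, ((div_pos_iff_of_pos_right h3).1 h2).le⟩
  rw [abs_of_pos h] at ht
  have := hz r (by rw [abs_of_pos (h3.trans_le h6.1)]; exact h6.2.trans_lt ht) h7
  linarith [h6.1]

theorem sign_of_zero {w : E3 → ℝ} (hw : ContDiff ℝ ∞ w) {p c : E3} {τ : ℝ} (h0 : w p = 0)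
    (hc : 0 < ⟪c, grad w p⟫) (hz : ∀ t : ℝ, |t| < τ → w (p + t • c) = 0 → t = 0) (t : ℝ)
    (ht : |t| < τ) : (0 < t → 0 < w (p + t • c)) ∧ (t < 0 → w (p + t • c) < 0) := by
  have h1 : Continuous fun t : ℝ => w (p + t • c) := hw.continuous.comp (by fun_prop)
  have h2 : HasDerivAt (fun t : ℝ => w (p + t • c)) ⟪c, grad w p⟫ 0 := by
    rw [inner_grad']
    exact ((hw.differentiable (by simp) p).hasFDerivAt.comp_hasDerivAt_of_eq (0 : ℝ)
      (((hasDerivAt_id (0 : ℝ)).smul_const c).const_add p) (by simp)).congr_deriv (by simp)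
  refine ⟨pos_of_zero h1 h2 hc (by simpa) hz ht, fun h => ?_⟩
  have := pos_of_zero (f := fun t : ℝ => -w (p + (-t) • c)) (τ := τ) (t := -t)
    (h1.comp continuous_neg).neg
    ((h2.comp_of_eq (0 : ℝ) (hasDerivAt_neg (0 : ℝ)) (by simp)).neg.congr_deriv (by simp)) hc
    (by simpa)
    (fun s hs h => neg_eq_zero.1 (hz _ (by simpa) (neg_eq_zero.1 h))) (by simpa) (by simpa)
  simpa using this

theorem exists_low [FiniteDimensional ℝ X] {L : X →L[ℝ] Y} (hL : Function.Injective L) :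
    ∃ C, 1 ≤ C ∧ ∀ u, ‖u‖ ≤ C * ‖L u‖ := by
  obtain ⟨K, -, hK⟩ := (L : X →ₗ[ℝ] Y).exists_antilipschitzWith (LinearMap.ker_eq_bot.2 hL)
  exact ⟨max 1 K, le_max_left _ _, fun u => (ZeroHomClass.bound_of_antilipschitz L hK u).trans
    (mul_le_mul_of_nonneg_right (le_max_right _ _) (norm_nonneg _))⟩

theorem loc_inj [FiniteDimensional ℝ X] {F : X → Y} {L : X →L[ℝ] Y} {x : X}
    (h : HasStrictFDerivAt F L x) (hL : Function.Injective L) : ∃ U ∈ 𝓝 x, InjOn F U := by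
  obtain ⟨C, h1, hC⟩ := exists_low hL
  have h2 := h.isLittleO.def (c := 1 / (2 * C)) (by positivity)
  rw [nhds_prod_eq] at h2
  obtain ⟨U, hU, h3⟩ := Filter.mem_prod_self_iff.1 h2
  refine ⟨U, hU, fun a ha b hb e => ?_⟩
  have h4 : ‖F a - F b - L (a - b)‖ ≤ 1 / (2 * C) * ‖a - b‖ := h3 (mk_mem_prod ha hb)
  rw [e, sub_self, zero_sub, norm_neg, div_mul_eq_mul_div, le_div_iff₀ (by positivity)] at h4
  have := hC (a - b)
  exact sub_eq_zero.1 (norm_le_zero_iff.1 (by nlinarith))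

/-- a function which is constant outside a ball has bounded jets in a chart -/
theorem jb_chart {g : Y → ℝ} [FiniteDimensional ℝ Y] (hg : ContDiff ℝ ∞ g) {R c : ℝ}
    (hc : ∀ y, R ≤ ‖y‖ → g y = c) {φ : X → Y} {O : Set X} {sc : X → ℝ} {C : ℝ} (h0 : 0 ≤ C)
    (h1 : ∀ v ∈ O, sc v ≤ C * (1 + ‖φ v‖))
    (h2 : ∀ v ∈ O, JB φ v ‖φ v‖ (C * sc v) (C * sc v)) :
    ∃ C', ∀ v ∈ O, JB (fun v => g (φ v)) v C' C' C' := by
  have := FiniteDimensional.proper_real Y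
  obtain ⟨M, hM, h3⟩ := jb_cpt (isCompact_closedBall (0 : Y) R) fun x _ => cd2 hg x
  set b := C * (C * (1 + |R|)) with hb
  have hb0 : 0 ≤ b := by positivity
  refine ⟨|c| + M + M * b + M * b ^ 2, fun v hv => ?_⟩
  have h4 : 0 ≤ M * b := by positivity
  have h5 : 0 ≤ M * b ^ 2 := by positivity
  have h6 := abs_nonneg c
  by_cases h : ‖φ v‖ ≤ R
  · have h7 : C * sc v ≤ b := mul_le_mul_of_nonneg_left ((h1 v hv).trans
      (mul_le_mul_of_nonneg_left (by linarith [le_abs_self R]) h0)) h0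
    exact ((h3 _ (mem_closedBall_zero_iff.2 h)).comp ((h2 v hv).mono le_rfl h7 h7)).mono
      (by linarith) (by linarith) (by linarith)
  · refine ((JB.const c v).congr ?_).mono (by simp only [Real.norm_eq_abs]; linarith)
      (by linarith) (by linarith)
    exact (continuousAt_const.eventually_lt (h2 v hv).cd.continuousAt.norm (not_le.1 h)).mono
      fun u hu => hc _ hu.le

end gen

/-- the linear map `(u, t) ↦ A u + t c` -/
noncomputable def tL (A : R2 →L[ℝ] E3) (c : E3) : R2 × ℝ →L[ℝ] E3 :=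
  A.coprod (ContinuousLinearMap.toSpanSingleton ℝ c)

@[simp] theorem tL_apply (A : R2 →L[ℝ] E3) (c : E3) (z : R2 × ℝ) :
    tL A c z = A z.1 + z.2 • c := by simp [tL]

theorem tube_strict {φ N : R2 → E3} {v : R2} (hφ : ContDiffAt ℝ 2 φ v) (hN : ContDiffAt ℝ 2 N v) :
    HasStrictFDerivAt (fun z : R2 × ℝ => φ z.1 + z.2 • N z.1) (tL (fderiv ℝ φ v) (N v)) (v, 0) := by
  refine ((HasStrictFDerivAt.comp (f := Prod.fst) (v, (0 : ℝ)) (hφ.hasStrictFDerivAt two_ne_zero)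
    hasStrictFDerivAt_fst).add (hasStrictFDerivAt_snd.smul (HasStrictFDerivAt.comp (f := Prod.fst)
      (v, (0 : ℝ)) (hN.hasStrictFDerivAt two_ne_zero) hasStrictFDerivAt_fst))).congr_fderiv ?_
  ext <;> simp

theorem tL_surj {A : R2 →L[ℝ] E3} {c : E3} (h : Function.Injective (tL A c)) :
    Function.Surjective (tL A c) :=
  (LinearMap.injective_iff_surjective_of_finrank_eq_finrank (by simp)
    (f := (tL A c : R2 × ℝ →ₗ[ℝ] E3))).1 h

theorem tL_inj {A : R2 →L[ℝ] E3} {c : E3} {s C : ℝ} (hs : 0 < s)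
    (h : ∀ (u : R2) (t : ℝ), s * ‖(u, t)‖ ≤ C * ‖A u + t • c‖) : Function.Injective (tL A c) :=
  (injective_iff_map_eq_zero _).2 fun z hz => by
    have := h z.1 z.2
    rw [← tL_apply, hz, norm_zero, mul_zero] at this
    exact norm_le_zero_iff.1 (by nlinarith [norm_nonneg z])

/-- the radial bound from the shrinker equation -/
theorem rad_of {w : E3 → ℝ} (hw : Shr w) {φ : R2 → E3} {v ξ : R2} {N F : E3} {s C C' a c0 : ℝ}
    (h0 : ∀ᶠ q in 𝓝 v, w (φ q) = 0) (hs : 1 ≤ s) (hC : 0 ≤ C) (hj : JB φ v c0 (C * s) (C * s))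
    (hN : ‖N‖ ≤ C * s) (hl : ∀ (u : R2) (t : ℝ), s * ‖(u, t)‖ ≤ C * ‖fderiv ℝ φ v u + t • N‖)
    (he : φ v - fderiv ℝ φ v ξ = F + a • N) (hF : ‖F‖ ≤ C') :
    ‖φ v - fderiv ℝ φ v ξ‖ ≤ C' + C ^ 2 * (6 * C ^ 3 + C') := by
  have hne := hw.ne _ h0.self_of_nhds
  have hsu := tL_surj (tL_inj (by linarith) hl)
  have hν := norm_nuW hne
  have hd := End.inner_nuW_d1 hw.smooth hj.cd h0
  obtain ⟨⟨u, t⟩, h1⟩ := hsu (nuW w (φ v))
  have h2 := hl u t
  have h3 := congrArg (fun y => ⟪nuW w (φ v), y⟫) h1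
  simp only [tL_apply] at h1 h3
  rw [inner_add_right, hd, real_inner_smul_right, real_inner_self_eq_norm_sq, hν] at h3
  rw [h1, hν] at h2
  have h4 : s * |t| ≤ C := by nlinarith [norm_snd_le (u, t), Real.norm_eq_abs t]
  have h5 : ∀ y, ∃ b : R2, PW w (φ v) y = fderiv ℝ φ v b ∧ s * ‖b‖ ≤ C * ‖y‖ := fun y => by
    obtain ⟨⟨b, r⟩, e⟩ := hsu (PW w (φ v) y)
    have e1 := congrArg (fun y => ⟪nuW w (φ v), y⟫) e
    have e2 := hl b r
    simp only [tL_apply] at e e1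
    rw [inner_add_right, hd, real_inner_smul_right, PW, inner_perp hν] at e1
    have e3 : r = 0 := by linear_combination t * e1 - r * h3
    rw [e] at e2
    refine ⟨b, by rw [← e, e3, zero_smul, add_zero], ?_⟩
    exact ((mul_le_mul_of_nonneg_left (norm_fst_le (b, r)) (by linarith)).trans e2).trans
      (mul_le_mul_of_nonneg_left (norm_perp_apply_le hν y) hC)
  have h6 : ‖AW w (φ v)‖ ≤ C ^ 3 := by
    refine ContinuousLinearMap.opNorm_le_bound _ (by positivity) fun y => ?_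
    obtain ⟨b, e1, e2⟩ := h5 y
    obtain ⟨b', e3, e4⟩ := h5 (AW w (φ v) y)
    have e5 := End.inner_nuW_d2 hw.smooth hj.cd h0 b b'
    rw [← e1, ← e3, AW_PW hne, PW_AW hne, real_inner_self_eq_norm_sq] at e5
    have e6 := (abs_real_inner_le_norm _ _).trans (mul_le_mul_of_nonneg_right
      (((fderiv ℝ (fderiv ℝ φ) v).le_opNorm₂ b b').trans (mul_le_mul_of_nonneg_right
        (mul_le_mul_of_nonneg_right hj.b2 (norm_nonneg _)) (norm_nonneg _)))
      (norm_nonneg (nuW w (φ v))))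
    rw [e5, hν, abs_neg, abs_sq, mul_one] at e6
    have e7 : ‖b'‖ ≤ C * ‖AW w (φ v) y‖ := by nlinarith [norm_nonneg b']
    have e8 := mul_le_mul (mul_le_mul_of_nonneg_left e2 hC) e7 (norm_nonneg _) (by positivity)
    by_cases e9 : ‖AW w (φ v) y‖ = 0
    · rw [e9]; positivity
    · exact le_of_mul_le_mul_right (by nlinarith) (lt_of_le_of_ne (norm_nonneg _) (Ne.symm e9))
  have h7 := abs_tr_le (AW w (φ v))
  rw [hw.eq _ h0.self_of_nhds, finrank_euclideanSpace_fin, abs_div, abs_two, real_inner_comm] at h7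
  have h8 := congrArg (fun y => ⟪nuW w (φ v), y⟫) he
  simp only [inner_add_right, inner_sub_right, hd, real_inner_smul_right, sub_zero] at h8
  have h9 := abs_real_inner_le_norm (nuW w (φ v)) F
  have h10 : a = t * (⟪nuW w (φ v), φ v⟫ - ⟪nuW w (φ v), F⟫) := by
    linear_combination -t * h8 - a * h3
  have h11 : |a| ≤ |t| * (6 * C ^ 3 + C') := by
    rw [h10, abs_mul]
    refine mul_le_mul_of_nonneg_left ((abs_sub _ _).trans ?_) (abs_nonneg _)
    rw [hν] at h9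
    push_cast at h7
    linarith
  rw [he]
  refine (norm_add_le _ _).trans (add_le_add hF ?_)
  rw [norm_smul, Real.norm_eq_abs]
  have h12 : 0 ≤ 6 * C ^ 3 + C' := by have := (norm_nonneg _).trans hF; positivity
  refine (mul_le_mul h11 hN (norm_nonneg _) (by positivity)).trans ?_
  nlinarith [mul_le_mul_of_nonneg_right h4 (mul_nonneg hC h12)]

/-- one piece of an atlas -/
structure Pc (w : E3 → ℝ) (n : E3 → E3) (φ : R2 → E3) (O A B : Set R2) (sc : R2 → ℝ)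
    (xi : R2 → R2) (C C' τ : ℝ) : Prop where
  C0 : 0 ≤ C
  op : IsOpen O
  AO : A ⊆ O
  mem : ∀ v ∈ O, w (φ v) = 0
  sc1 : ∀ v ∈ O, 1 ≤ sc v
  scle : ∀ v ∈ O, sc v ≤ C * (1 + ‖φ v‖)
  sceq : ∀ v ∈ O, ∀ v' ∈ O, φ v = φ v' → sc v = sc v'
  jsc : ∀ v ∈ O, JB sc v (C * sc v) (C * sc v) (C * sc v)
  jφ : ∀ v ∈ O, JB φ v ‖φ v‖ (C * sc v) (C * sc v)
  jn : ∀ v ∈ O, JB (fun v => n (φ v)) v (C * sc v) (C * sc v) (C * sc v)
  low : ∀ v ∈ O, ∀ (u : R2) (t : ℝ), sc v * ‖(u, t)‖ ≤ C * ‖fderiv ℝ φ v u + t • n (φ v)‖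
  sign : ∀ v ∈ O, ∀ t : ℝ, |t| < τ →
    (0 < t → 0 < w (φ v + t • n (φ v))) ∧ (t < 0 → w (φ v + t • n (φ v)) < 0)
  inj : ∀ v ∈ O, ∀ v' ∈ O, ∀ t t' : ℝ, |t| < τ → |t'| < τ →
    φ v + t • n (φ v) = φ v' + t' • n (φ v') → φ v = φ v'
  closed : ∀ τ' < τ, IsClosed {y | ∃ v ∈ A, ∃ t : ℝ, |t| ≤ τ' ∧ y = φ v + t • n (φ v)}
  Bm : MeasurableSet B
  BO : B ⊆ O
  Binj : InjOn φ B
  Bim : ∀ v ∈ O, ∃ v' ∈ B, φ v' = φ v
  radφ : ∀ v ∈ O, ‖φ v - fderiv ℝ φ v (xi v)‖ ≤ C'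
  radn : ∀ v ∈ O, ‖n (φ v) - fderiv ℝ (fun v => n (φ v)) v (xi v)‖ ≤ C'

theorem atlas_of_pc {w : E3 → ℝ} {n : E3 → E3} {K : Type} [Fintype K] (φ : K → R2 → E3)
    (O A B : K → Set R2) (sc : K → R2 → ℝ) (xi : K → R2 → R2) (β : K → E3 → ℝ)
    (h : ∀ k, ∃ C C' τ, 0 < τ ∧ Pc w n (φ k) (O k) (A k) (B k) (sc k) (xi k) C C' τ)
    (β0 : ∀ k p, 0 ≤ β k p) (jβ : ∀ k, ∃ C, ∀ v ∈ O k, JB (fun v => β k (φ k v)) v C C C)
    (βA : ∀ k, ∀ v ∈ O k, v ∉ A k → β k (φ k v) = 0)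
    (βO : ∀ k p, w p = 0 → β k p ≠ 0 → ∃ v ∈ O k, φ k v = p)
    (βsum : ∀ p, w p = 0 → ∑ k, β k p = 1) :
    ∃ 𝒜 : Atlas w n K, 𝒜.φ = φ ∧ 𝒜.O = O ∧ 𝒜.sc = sc ∧ 𝒜.xi = xi := by
  choose C C'' τ hτ h using h
  choose C' jβ using jβ
  obtain ⟨M, ⟨h1, h2⟩, h3, h7⟩ := (((eventually_ge_atTop 1).and (eventually_all.2 fun k =>
    eventually_ge_atTop (C k))).and ((eventually_all.2 fun k => eventually_ge_atTop (C' k)).and
      (eventually_all.2 fun k => eventually_ge_atTop (C'' k)))).exists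
  obtain ⟨t, h4, h5⟩ := ((eventually_all.2 fun k => nhdsWithin_le_nhds (s := Ioi (0 : ℝ))
    (Iio_mem_nhds (hτ k))).and self_mem_nhdsWithin).exists
  have h6 : ∀ k, ∀ v ∈ O k, C k * sc k v ≤ M * sc k v := fun k v hv =>
    mul_le_mul_of_nonneg_right (h2 k) (zero_le_one.trans ((h k).sc1 v hv))
  exact ⟨⟨φ, O, A, B, sc, xi, β, M, t, h1, h5, fun k => (h k).op, fun k => (h k).AO,
    fun k => (h k).mem, fun k => (h k).sc1,
    fun k v hv => ((h k).scle v hv).trans (mul_le_mul_of_nonneg_right (h2 k) (by positivity)),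
    fun k => (h k).sceq, fun k v hv => ((h k).jsc v hv).mono (h6 k v hv) (h6 k v hv) (h6 k v hv),
    fun k v hv => ((h k).jφ v hv).mono le_rfl (h6 k v hv) (h6 k v hv),
    fun k v hv => ((h k).jn v hv).mono (h6 k v hv) (h6 k v hv) (h6 k v hv),
    fun k v hv u r => ((h k).low v hv u r).trans
      (mul_le_mul_of_nonneg_right (h2 k) (norm_nonneg _)),
    fun k v hv r hr => (h k).sign v hv r (hr.trans (h4 k)),
    fun k v hv v' hv' r r' hr hr' => (h k).inj v hv v' hv' r r' (hr.trans (h4 k)) (hr'.trans (h4 k)),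
    fun k r hr => (h k).closed r (hr.trans (h4 k)), β0,
    fun k v hv => (jβ k v hv).mono (h3 k) (h3 k) (h3 k), βA, βO, βsum, fun k => (h k).Bm,
    fun k => (h k).BO, fun k => (h k).Binj, fun k => (h k).Bim,
    fun k v hv => ((h k).radφ v hv).trans (h7 k), fun k v hv => ((h k).radn v hv).trans (h7 k)⟩,
    rfl, rfl, rfl, rfl⟩

end Vale.Agent.P218N.D6.At
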