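import Vale.Agent.P218.H313.Basic

/-! Families of level sets: the foot point and the signed distance in a uniform tube. -/

open Set Filter Topology Metric
open scoped RealInnerProductSpace

namespace Vale.Agent.P218N.D6

open Vale.Agent.P218.H313

set_option linter.unusedSectionVars false
set_option maxSynthPendingDepth 3

theorem ift1 {X : Type*} [NormedAddCommGroup X] [NormedSpace ℝ X] [FiniteDimensional ℝ X]
    {Φ : X → X} {x : X} {n : WithTop ℕ∞} (h : ContDiffAt ℝ n Φ x) (hn : n ≠ 0)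
    (hi : Function.Injective (fderiv ℝ Φ x)) :
    ∃ Ψ : X → X, ContDiffAt ℝ n Ψ (Φ x) ∧ Ψ (Φ x) = x ∧ (∀ᶠ y in 𝓝 (Φ x), Φ (Ψ y) = y) ∧
      ∀ᶠ x' in 𝓝 x, Ψ (Φ x') = x' := by
  have := FiniteDimensional.complete ℝ X
  have hb : Function.Surjective (fderiv ℝ Φ x) :=
    (LinearMap.injective_iff_surjective (f := (fderiv ℝ Φ x).toLinearMap)).1 hi
  set A : X ≃L[ℝ] X := ContinuousLinearEquiv.ofBijective (fderiv ℝ Φ x)
    (LinearMap.ker_eq_bot.2 hi) (LinearMap.range_eq_top.2 hb)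
  have hd : HasFDerivAt Φ (A : X →L[ℝ] X) x := (h.differentiableAt hn).hasFDerivAt
  exact ⟨h.localInverse hd hn, h.to_localInverse hd hn, h.localInverse_apply_image hd hn,
    (h.hasStrictFDerivAt' hd hn).eventually_right_inverse,
    (h.hasStrictFDerivAt' hd hn).eventually_left_inverse⟩

variable {P E : Type*} [NormedAddCommGroup P] [NormedSpace ℝ P] [FiniteDimensional ℝ P]
  [NormedAddCommGroup E] [InnerProductSpace ℝ E] [FiniteDimensional ℝ E]

variable (P E) in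
/-- the gradient in the second variable of a linear form -/
noncomputable def gL : (P × E →L[ℝ] ℝ) →L[ℝ] E :=
  (riesz E).comp ((ContinuousLinearMap.compL ℝ E (P × E) ℝ).flip (ContinuousLinearMap.inr ℝ P E))

theorem inner_gL (l : P × E →L[ℝ] ℝ) (v : E) : ⟪gL P E l, v⟫ = l (0, v) := by
  simp [gL, inner_riesz]

theorem norm_gL_le (l : P × E →L[ℝ] ℝ) : ‖gL P E l‖ ≤ ‖l‖ := by
  have h1 := inner_gL l (gL P E l)
  have h2 := l.le_opNorm (0, gL P E l)
  rw [real_inner_self_eq_norm_sq] at h1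
  rw [← h1, Prod.norm_mk, norm_zero, max_eq_right (norm_nonneg (gL P E l)), norm_pow,
    norm_norm] at h2
  by_cases h : ‖gL P E l‖ = 0
  · rw [h]
    exact norm_nonneg _
  · exact le_of_mul_le_mul_right (by nlinarith) (lt_of_le_of_ne (norm_nonneg _) (Ne.symm h))

theorem opNorm_gL_le : ‖gL P E‖ ≤ 1 :=
  ContinuousLinearMap.opNorm_le_bound _ zero_le_one fun l => by simpa using norm_gL_le l

/-- the gradient in the space variable -/
noncomputable def gy (f : P × E → ℝ) (z : P × E) : E := gL P E (fderiv ℝ f z)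

/-- the normalised differential -/
noncomputable def nd (f : P × E → ℝ) (z : P × E) : P × E →L[ℝ] ℝ := ‖gy f z‖⁻¹ • fderiv ℝ f z

/-- the unit normal -/
noncomputable def nn (f : P × E → ℝ) (z : P × E) : E := gL P E (nd f z)

theorem nn_eq (f : P × E → ℝ) (z : P × E) : nn f z = ‖gy f z‖⁻¹ • gy f z := map_smul _ _ _

theorem hasFDerivAt_slice {F : Type*} [NormedAddCommGroup F] [NormedSpace ℝ F] {f : P × E → F}
    {a : P} {y : E} (h : DifferentiableAt ℝ f (a, y)) :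
    HasFDerivAt (fun y => f (a, y)) ((fderiv ℝ f (a, y)).comp (ContinuousLinearMap.inr ℝ P E)) y :=
  h.hasFDerivAt.comp y (hasFDerivAt_prodMk_right a y)

theorem grad_slice {f : P × E → ℝ} {a : P} {y : E} (h : DifferentiableAt ℝ f (a, y)) :
    grad (fun y => f (a, y)) y = gy f (a, y) :=
  grad_unique fun v => by
    rw [(hasFDerivAt_slice h).fderiv, gy, inner_gL]
    rfl

/-- A family of level sets `{f (a, ·) = 0}` with uniform geometry. -/
structure Lev (f : P × E → ℝ) (M : ℝ) (q : ℕ) : Prop where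
  cd : ContDiff ℝ 2 f
  one_le : 1 ≤ M
  low : ∀ z, f z = 0 → 1 ≤ ‖gy f z‖
  lip : ∀ a y y', ‖gy f (a, y) - gy f (a, y')‖ ≤ M * ‖y - y'‖
  d1 : ∀ z, f z = 0 → ‖fderiv ℝ f z‖ ≤ M * (1 + ‖z.2‖) ^ q
  d2 : ∀ z, f z = 0 → ‖fderiv ℝ (fderiv ℝ f) z‖ ≤ M * (1 + ‖z.2‖) ^ q
  rad : ∀ z, f z = 0 → |⟪z.2, nn f z⟫| ≤ M

/-- `v.1` is a foot point of `z.2` at the signed distance `v.2` -/
def Foot (f : P × E → ℝ) (M : ℝ) (z : P × E) (v : E × ℝ) : Prop :=
  f (z.1, v.1) = 0 ∧ |v.2| < 1 / (4 * M) ∧ z.2 = v.1 + v.2 • nn f (z.1, v.1)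

theorem norm_unit_sub_le (u v : E) (hu : u ≠ 0) : ‖‖v‖⁻¹ • v - ‖u‖⁻¹ • u‖ ≤ 2 * ‖v - u‖ / ‖u‖ := by
  have h0 : 0 < ‖u‖ := norm_pos_iff.2 hu
  have h1 : ‖v‖⁻¹ • v - ‖u‖⁻¹ • u = ‖u‖⁻¹ • (v - u) + (‖v‖⁻¹ - ‖u‖⁻¹) • v := by
    rw [smul_sub, sub_smul]
    abel
  have h2 : ‖(‖v‖⁻¹ - ‖u‖⁻¹) • v‖ ≤ ‖v - u‖ / ‖u‖ := by
    by_cases hv : v = 0
    · simp [hv, div_self h0.ne']
    · have h3 : 0 < ‖v‖ := norm_pos_iff.2 hv
      rw [norm_smul, Real.norm_eq_abs, ← abs_of_pos h3, ← abs_mul, abs_of_pos h3,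
        show (‖v‖⁻¹ - ‖u‖⁻¹) * ‖v‖ = (‖u‖ - ‖v‖) / ‖u‖ by field_simp, abs_div, abs_of_pos h0,
        abs_sub_comm]
      exact div_le_div_of_nonneg_right (abs_norm_sub_norm_le _ _) h0.le
  rw [h1]
  refine (norm_add_le _ _).trans ?_
  rw [norm_smul, norm_inv, norm_norm, inv_mul_eq_div, two_mul, add_div]
  linarith

namespace Lev

variable {f : P × E → ℝ} {M : ℝ} {q : ℕ} (h : Lev f M q)
include h

theorem pos : 0 < M := lt_of_lt_of_le one_pos h.one_le

theorem diff (z : P × E) : DifferentiableAt ℝ f z := h.cd.differentiable (by simp) z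

theorem cd_fderiv : ContDiff ℝ 1 (fderiv ℝ f) := h.cd.fderiv_right (by norm_num)

theorem cd_gy : ContDiff ℝ 1 (gy f) := (gL P E).contDiff.comp h.cd_fderiv

theorem gy_ne {z : P × E} (hz : f z = 0) : gy f z ≠ 0 := fun h0 => by
  have := h.low z hz
  rw [h0, norm_zero] at this
  linarith

theorem cd_nd {z : P × E} (hz : f z = 0) : ContDiffAt ℝ 1 (nd f) z :=
  ((h.cd_gy.contDiffAt.norm ℝ (h.gy_ne hz)).inv (norm_ne_zero_iff.2 (h.gy_ne hz))).smul
    h.cd_fderiv.contDiffAt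

theorem cd_nn {z : P × E} (hz : f z = 0) : ContDiffAt ℝ 1 (nn f) z :=
  (gL P E).contDiff.contDiffAt.comp z (h.cd_nd hz)

theorem norm_nn {z : P × E} (hz : f z = 0) : ‖nn f z‖ = 1 := by
  rw [nn_eq, norm_smul, norm_inv, norm_norm, inv_mul_cancel₀ (norm_ne_zero_iff.2 (h.gy_ne hz))]

theorem gy_eq {z : P × E} (hz : f z = 0) : gy f z = ‖gy f z‖ • nn f z := by
  rw [nn_eq, smul_smul, mul_inv_cancel₀ (norm_ne_zero_iff.2 (h.gy_ne hz)), one_smul]

theorem taylor (a : P) (y y' : E) :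
    |f (a, y') - f (a, y) - ⟪gy f (a, y), y' - y⟫| ≤ M * ‖y' - y‖ ^ 2 := by
  have h1 := (convex_closedBall y ‖y' - y‖).norm_image_sub_le_of_norm_hasFDerivWithin_le'
    (f := fun y => f (a, y)) (C := M * ‖y' - y‖) (φ := innerSL ℝ (gy f (a, y)))
    (f' := fun y => innerSL ℝ (gy f (a, y)))
    (fun x _ => by
      refine ((hasFDerivAt_slice (h.diff (a, x))).congr_fderiv ?_).hasFDerivWithinAt
      ext v
      simp [gy, inner_gL])
    (fun x hx => by
      rw [← map_sub, innerSL_apply_norm]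
      exact (h.lip a x y).trans (mul_le_mul_of_nonneg_left (mem_closedBall_iff_norm.1 hx) h.pos.le))
    (mem_closedBall_self (norm_nonneg _)) (mem_closedBall_iff_norm.2 le_rfl)
  rw [sq, ← mul_assoc]
  exact h1

theorem two_point {a : P} {y y' : E} (hy : f (a, y) = 0) (hy' : f (a, y') = 0) :
    |⟪nn f (a, y), y' - y⟫| ≤ M * ‖y' - y‖ ^ 2 := by
  have h1 := h.taylor a y y'
  rw [hy, hy', sub_self, zero_sub, abs_neg, h.gy_eq hy, real_inner_smul_left, abs_mul,
    abs_norm] at h1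
  nlinarith [h.low _ hy, abs_nonneg ⟪nn f (a, y), y' - y⟫]

theorem foot_unique {z : P × E} {v v' : E × ℝ} (hv : Foot f M z v) (hv' : Foot f M z v') :
    v = v' := by
  obtain ⟨h1, h2, h3⟩ := hv
  obtain ⟨h4, h5, h6⟩ := hv'
  have e : v.1 - v'.1 = v'.2 • nn f (z.1, v'.1) - v.2 • nn f (z.1, v.1) := by
    rw [sub_eq_sub_iff_add_eq_add, ← h3, h6, add_comm]
  have a1 := h.two_point h1 h4
  have a2 := h.two_point h4 h1
  rw [norm_sub_rev, ← neg_sub, inner_neg_right, abs_neg] at a1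
  have a3 : ‖v.1 - v'.1‖ ^ 2 = v'.2 * ⟪nn f (z.1, v'.1), v.1 - v'.1⟫
      - v.2 * ⟪nn f (z.1, v.1), v.1 - v'.1⟫ := by
    rw [← real_inner_self_eq_norm_sq]
    conv_lhs => rw [e, inner_sub_left, ← e, real_inner_smul_left, real_inner_smul_left]
  have hM := h.pos
  rw [lt_div_iff₀ (by positivity)] at h2 h5
  have a4 := le_abs_self (v'.2 * ⟪nn f (z.1, v'.1), v.1 - v'.1⟫)
  have a5 := neg_abs_le (v.2 * ⟪nn f (z.1, v.1), v.1 - v'.1⟫)
  rw [abs_mul] at a4 a5
  have a6 := mul_le_mul_of_nonneg_left a1 (abs_nonneg v.2)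
  have a7 := mul_le_mul_of_nonneg_left a2 (abs_nonneg v'.2)
  have a8 : ‖v.1 - v'.1‖ ^ 2 ≤ 0 := by nlinarith [sq_nonneg ‖v.1 - v'.1‖]
  have a9 : v.1 = v'.1 := by
    rwa [sq_nonpos_iff, norm_eq_zero, sub_eq_zero] at a8
  refine Prod.ext a9 ?_
  rw [a9, sub_self, ← sub_smul, eq_comm, smul_eq_zero, sub_eq_zero] at e
  refine (e.resolve_right fun h0 => ?_).symm
  have := h.norm_nn h4
  rw [h0, norm_zero] at this
  exact zero_ne_one this

theorem foot_sign {z : P × E} {v : E × ℝ} (hv : Foot f M z v) :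
    (0 < v.2 → 0 < f z) ∧ (v.2 < 0 → f z < 0) ∧ (v.2 = 0 → f z = 0) := by
  obtain ⟨h1, h2, h3⟩ := hv
  have h4 := h.taylor z.1 v.1 z.2
  have h5 : z.2 - v.1 = v.2 • nn f (z.1, v.1) := by rw [h3, add_sub_cancel_left]
  rw [h1, h5, sub_zero, h.gy_eq h1, real_inner_smul_left, real_inner_smul_right,
    real_inner_self_eq_norm_sq, norm_smul, h.norm_nn h1, Real.norm_eq_abs] at h4
  have h6 := h.low _ h1
  have hM := h.pos
  rw [lt_div_iff₀ (by positivity)] at h2
  obtain ⟨h7, h8⟩ := abs_le.1 h4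
  simp only [Prod.mk.eta, one_pow, mul_one] at h7 h8
  refine ⟨fun h0 => ?_, fun h0 => ?_, fun h0 => ?_⟩
  · rw [abs_of_pos h0] at h7 h2
    nlinarith [mul_pos h0 h0]
  · rw [abs_of_neg h0] at h8 h2
    nlinarith [mul_pos_of_neg_of_neg h0 h0]
  · rw [h0] at h7 h8
    simp only [mul_zero, sub_zero, abs_zero] at h7 h8
    nlinarith

theorem norm_dnn {z : P × E} (hz : f z = 0) (v : E) :
    ‖fderiv ℝ (nn f) z (0, v)‖ ≤ 2 * M * ‖v‖ := by
  have h1 := (hasFDerivAt_slice (a := z.1) (y := z.2)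
    ((h.cd_nn hz).differentiableAt (by simp))).le_of_lip' (C := 2 * M) (by linarith [h.pos])
    (Eventually.of_forall fun y => by
      rw [nn_eq, nn_eq]
      refine (norm_unit_sub_le _ _ (h.gy_ne hz)).trans ?_
      have h2 := h.lip z.1 y z.2
      have h3 := h.low _ hz
      rw [div_le_iff₀ (by simpa using lt_of_lt_of_le one_pos h3)]
      have h4 : 0 ≤ M * ‖y - z.2‖ := mul_nonneg h.pos.le (norm_nonneg _)
      simp only [Prod.mk.eta] at h2 ⊢
      nlinarith)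
  exact (ContinuousLinearMap.le_opNorm _ v).trans (mul_le_mul_of_nonneg_right h1 (norm_nonneg _))

theorem inner_dnn {z : P × E} (hz : f z = 0) (u : P × E) : ⟪nn f z, fderiv ℝ (nn f) z u⟫ = 0 := by
  have hd := ((h.cd_nn hz).differentiableAt (by simp)).hasFDerivAt
  have h1 : (fun z => ⟪nn f z, nn f z⟫) =ᶠ[𝓝 z] fun _ => (1 : ℝ) := by
    filter_upwards [h.cd_gy.continuous.continuousAt.eventually_ne (h.gy_ne hz)] with y hy
    rw [real_inner_self_eq_norm_sq, nn_eq, norm_smul, norm_inv, norm_norm,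
      inv_mul_cancel₀ (norm_ne_zero_iff.2 hy), one_pow]
  have h2 := ((hd.inner ℝ hd).congr_of_eventuallyEq h1.symm).unique (hasFDerivAt_const _ _)
  have h3 := congrArg (fun L : P × E →L[ℝ] ℝ => L u) h2
  simp only [ContinuousLinearMap.comp_apply, ContinuousLinearMap.prod_apply,
    fderivInnerCLM_apply, zero_apply] at h3
  rw [real_inner_comm (nn f z)] at h3
  linarith

theorem foot_local {z : P × E} {v : E × ℝ} (hv : Foot f M z v) :
    ∃ G : P × E → E × ℝ, ContDiffAt ℝ 1 G z ∧ ∀ᶠ y in 𝓝 z, Foot f M y (G y) := by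
  obtain ⟨h1, h2, h3⟩ := hv
  let Φ : (P × E) × ℝ → (P × E) × ℝ := fun x => ((x.1.1, x.1.2 + x.2 • nn f x.1), f x.1)
  have hn : ContDiffAt ℝ 1 (fun x : (P × E) × ℝ => nn f x.1) ((z.1, v.1), v.2) :=
    ContDiffAt.comp (g := nn f) (f := Prod.fst) _ (h.cd_nn h1) contDiffAt_fst
  have hΦ : ContDiffAt ℝ 1 Φ ((z.1, v.1), v.2) :=
    (contDiffAt_fst.fst.prodMk (contDiffAt_fst.snd.add (contDiffAt_snd.smul hn))).prodMk
      ((h.cd.of_le (by norm_num)).contDiffAt.comp _ contDiffAt_fst)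
  have hd : HasFDerivAt Φ _ ((z.1, v.1), v.2) :=
    ((hasFDerivAt_fst.fst).prodMk ((hasFDerivAt_fst.snd).add (hasFDerivAt_snd.smul
      (HasFDerivAt.comp (g := nn f) (f := Prod.fst) _
        ((h.cd_nn h1).differentiableAt (by simp)).hasFDerivAt hasFDerivAt_fst)))).prodMk
      (HasFDerivAt.comp (g := f) (f := Prod.fst) _ (h.diff _).hasFDerivAt hasFDerivAt_fst)
  have hi : Function.Injective (fderiv ℝ Φ ((z.1, v.1), v.2)) := by
    rw [hd.fderiv, injective_iff_map_eq_zero]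
    rintro ⟨⟨b, u⟩, s⟩ hx
    simp only [ContinuousLinearMap.prod_apply, ContinuousLinearMap.comp_apply, Prod.mk_eq_zero,
      ContinuousLinearMap.coe_fst', ContinuousLinearMap.coe_snd', add_apply, smul_apply,
      ContinuousLinearMap.smulRight_apply, Function.comp] at hx
    obtain ⟨⟨rfl, h4⟩, h5⟩ := hx
    have h6 : ⟪nn f (z.1, v.1), u⟫ = 0 := by
      rw [nn_eq, real_inner_smul_left, gy, inner_gL, h5, mul_zero]
    have h7 := congrArg (fun x => ⟪nn f (z.1, v.1), x⟫) h4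
    simp only [inner_add_right, real_inner_smul_right, h6, h.inner_dnn h1, inner_zero_right,
      real_inner_self_eq_norm_sq, h.norm_nn h1] at h7
    have h8 : s = 0 := by linarith
    rw [h8, zero_smul, add_zero, add_eq_zero_iff_eq_neg] at h4
    have h9 := congrArg norm h4
    rw [norm_neg, norm_smul, Real.norm_eq_abs] at h9
    have h10 := mul_le_mul_of_nonneg_left (h.norm_dnn h1 u) (abs_nonneg v.2)
    have hM := h.pos
    rw [lt_div_iff₀ (by positivity)] at h2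
    have h11 : ‖u‖ ≤ 0 := by nlinarith [norm_nonneg u]
    rw [norm_le_zero_iff.1 h11, h8]
    rfl
  obtain ⟨Ψ, h4, h5, h6, -⟩ := ift1 hΦ one_ne_zero hi
  have h7 : Φ ((z.1, v.1), v.2) = (z, 0) := by simp only [Φ, ← h3, h1]
  rw [h7] at h4 h5 h6
  have h8 : ContDiffAt ℝ 1 (fun y : P × E => Ψ (y, 0)) z :=
    h4.comp z (contDiffAt_id.prodMk contDiffAt_const)
  refine ⟨fun y => ((Ψ (y, 0)).1.2, (Ψ (y, 0)).2), h8.fst.snd.prodMk h8.snd, ?_⟩
  have h9 : Tendsto (fun y : P × E => (y, (0 : ℝ))) (𝓝 z) (𝓝 (z, 0)) :=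
    (continuous_id.prodMk continuous_const).tendsto z
  have h10 : ∀ᶠ y in 𝓝 z, |(Ψ (y, 0)).2| < 1 / (4 * M) :=
    h8.snd.continuousAt.abs.eventually_lt continuousAt_const (by simpa only [h5] using h2)
  filter_upwards [h9.eventually h6, h10] with y hy hy'
  simp only [Φ, Prod.ext_iff] at hy
  obtain ⟨⟨e1, e2⟩, e3⟩ := hy
  have e4 : (y.1, (Ψ (y, 0)).1.2) = (Ψ (y, 0)).1 := Prod.ext e1.symm rfl
  exact ⟨(congrArg f e4).trans e3, hy', by simpa only [e4] using e2.symm⟩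

end Lev

open Classical in
/-- the foot point and the signed distance; outside the tube only the sign matters -/
noncomputable def ft (f : P × E → ℝ) (M : ℝ) (z : P × E) : E × ℝ :=
  if h : ∃ v, Foot f M z v then h.choose else (z.2, if 0 < f z then 1 else -1)

/-- the tube -/
def tub (f : P × E → ℝ) (M : ℝ) : Set (P × E) := {z | ∃ v, Foot f M z v}

namespace Lev

variable {f : P × E → ℝ} {M : ℝ} {q : ℕ} (h : Lev f M q)
include h

omit h in
theorem ft_foot {z : P × E} (hz : z ∈ tub f M) : Foot f M z (ft f M z) := by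
  have hz' : ∃ v, Foot f M z v := hz
  rw [ft, dif_pos hz']
  exact hz'.choose_spec

theorem ft_eq {z : P × E} {v : E × ℝ} (hv : Foot f M z v) : ft f M z = v :=
  h.foot_unique (ft_foot ⟨v, hv⟩) hv

theorem foot_self {z : P × E} (hz : f z = 0) : Foot f M z (z.2, 0) :=
  ⟨hz, by simpa using h.pos, by simp⟩

theorem tub_nhds {z : P × E} (hz : z ∈ tub f M) : ∀ᶠ y in 𝓝 z, y ∈ tub f M := by
  obtain ⟨G, -, h1⟩ := h.foot_local (ft_foot hz)
  exact h1.mono fun y hy => ⟨_, hy⟩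

theorem cd_ft {z : P × E} (hz : z ∈ tub f M) : ContDiffAt ℝ 1 (ft f M) z := by
  obtain ⟨G, h0, h1⟩ := h.foot_local (ft_foot hz)
  exact h0.congr_of_eventuallyEq (h1.mono fun y hy => h.ft_eq hy)

/-- the derivatives of the foot point and of the signed distance -/
theorem dft {z : P × E} (hz : z ∈ tub f M) (u : P × E) :
    (fderiv ℝ (ft f M) z u).2 = nd f (z.1, (ft f M z).1) u ∧
    u.2 = (fderiv ℝ (ft f M) z u).1 + (fderiv ℝ (ft f M) z u).2 • nn f (z.1, (ft f M z).1) +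
      (ft f M z).2 • fderiv ℝ (nn f) (z.1, (ft f M z).1) (u.1, (fderiv ℝ (ft f M) z u).1) := by
  have h0 := (ft_foot hz).1
  have hd := ((h.cd_ft hz).differentiableAt (by simp)).hasFDerivAt
  have hQ := (hasFDerivAt_fst (𝕜 := ℝ) (p := z)).prodMk hd.fst
  have h1 := (((h.diff _).hasFDerivAt.comp z hQ).congr_of_eventuallyEq
    (f₁ := fun _ => (0 : ℝ)) ((h.tub_nhds hz).mono fun y hy => (ft_foot hy).1.symm)).unique
    (hasFDerivAt_const _ _)
  have h2 := ((hd.fst.add (hd.snd.smul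
    (((h.cd_nn h0).differentiableAt (by simp)).hasFDerivAt.comp z hQ))).congr_of_eventuallyEq
    (f₁ := fun y => y.2) ((h.tub_nhds hz).mono fun y hy => (ft_foot hy).2.2)).unique
    hasFDerivAt_snd
  have h3 := congrArg (fun L : P × E →L[ℝ] ℝ => L u) h1
  have h4 := congrArg (fun L : P × E →L[ℝ] E => L u) h2
  simp only [ContinuousLinearMap.prod_apply, ContinuousLinearMap.comp_apply,
    ContinuousLinearMap.coe_fst', ContinuousLinearMap.coe_snd', add_apply, smul_apply,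
    ContinuousLinearMap.smulRight_apply, Function.comp, zero_apply] at h3 h4
  refine ⟨?_, by rw [← h4]; abel⟩
  have h5 := congrArg (fun x => ⟪nn f (z.1, (ft f M z).1), x⟫) h4
  simp only [inner_add_right, real_inner_smul_right, h.inner_dnn h0,
    real_inner_self_eq_norm_sq, h.norm_nn h0] at h5
  have h6 : ∀ v, ⟪nn f (z.1, (ft f M z).1), v⟫ = nd f (z.1, (ft f M z).1) (0, v) := fun v =>
    inner_gL _ v
  have h7 : nd f (z.1, (ft f M z).1) (u.1, (fderiv ℝ (ft f M) z u).1) = 0 := by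
    rw [nd, smul_apply, h3, smul_zero]
  have h8 : u = (u.1, (fderiv ℝ (ft f M) z u).1) + (0, u.2) - (0, (fderiv ℝ (ft f M) z u).1) := by
    simp
  rw [h6, h6] at h5
  conv_rhs => rw [h8, map_sub, map_add, h7]
  linarith

end Lev

end Vale.Agent.P218N.D6
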