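import Vale.Agent.P218N.D6.Atl0
import Vale.Agent.P218N.D6.Foot

/-! Block D6: the models of the ends. -/

open Set Filter Topology Metric
open scoped RealInnerProductSpace ContDiff Real

namespace Vale.Agent.P218N.D6.At

open Vale.Agent.P218.H313 Vale.Agent.P218N.H

set_option maxSynthPendingDepth 3

/-- the model `(v, τ) ↦ b v + τ N v` of a neighbourhood of an end -/
structure Mod (b N : R2 → E3) (sc : R2 → ℝ) (xi : R2 → R2) (sg : ℝ → ℝ) (d : ℝ → E3)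
    (C δ : ℝ) : Prop where
  C1 : 1 ≤ C
  δ0 : 0 < δ
  bs : ContDiff ℝ ∞ b
  Ns : ContDiff ℝ ∞ N
  bp : ∀ s θ, b (s, θ + 2 * π) = b (s, θ)
  Np : ∀ s θ, N (s, θ + 2 * π) = N (s, θ)
  sc1 : ∀ v : R2, 0 ≤ v.1 → 1 ≤ sc v
  sceq : ∀ v v' : R2, v.1 = v'.1 → sc v = sc v'
  jsc : ∀ v, JB sc v (sc v) (sc v) (sc v)
  scle : ∀ v : R2, 1 ≤ v.1 → sc v ^ 2 ≤ sg v.1
  sgl : ∀ s, 0 ≤ s → s ^ 2 ≤ sg s
  sgm : MonotoneOn sg (Ici 0)
  jb : ∀ v, JB b v ‖b v‖ (C * sc v) (C * sc v)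
  jN : ∀ v, JB N v (C * sc v) (C * sc v) (C * sc v)
  low : ∀ v (u : R2) (t : ℝ), sc v * ‖(u, t)‖ ≤ C * ‖fderiv ℝ b v u + t • N v‖
  nrm : ∀ (v : R2) (τ : ℝ), 1 ≤ v.1 → |τ| ≤ 1 →
    sg v.1 ≤ ‖b v + τ • N v‖ ^ 2 ∧ ‖b v + τ • N v‖ ^ 2 ≤ 10 * sg v.1
  radb : ∀ v, ‖b v - fderiv ℝ b v (xi v)‖ ≤ C
  radN : ∀ v, ‖N v - fderiv ℝ N v (xi v)‖ ≤ C
  dc : Continuous d
  dp : ∀ θ, d (θ + 2 * π) = d θ
  dir : ∀ (v : R2) (τ : ℝ), 1 ≤ v.1 → |τ| ≤ 1 →
    ‖‖b v + τ • N v‖⁻¹ • (b v + τ • N v) - d v.2‖ ≤ 2 * |τ| + 8 / v.1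
  inj : ∀ (v v' : R2) (τ τ' : ℝ), |τ| ≤ δ → |τ'| ≤ δ → b v + τ • N v = b v' + τ' • N v' →
    v.1 = v'.1 ∧ τ = τ' ∧ ∃ m : ℤ, v'.2 = v.2 + m * (2 * π)

theorem norm_sq2 {a b : E3} (h : ⟪a, b⟫ = 0) (s t : ℝ) :
    ‖s • a + t • b‖ ^ 2 = s ^ 2 * ‖a‖ ^ 2 + t ^ 2 * ‖b‖ ^ 2 := by
  rw [norm_add_sq_real, real_inner_smul_left, real_inner_smul_right, h, norm_smul, norm_smul,
    Real.norm_eq_abs, Real.norm_eq_abs, mul_pow, mul_pow, sq_abs, sq_abs]
  ring

theorem low3 {a b c : E3} {m : ℝ} (hab : ⟪a, b⟫ = 0) (hca : ⟪c, a⟫ = 0) (hcb : ⟪c, b⟫ = 0)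
    (hm : 0 ≤ m) (ha : m ≤ ‖a‖) (hb : m ≤ ‖b‖) (hc : m ≤ ‖c‖) (u : R2) (t : ℝ) :
    m * ‖(u, t)‖ ≤ ‖u.1 • a + u.2 • b + t • c‖ := by
  have h1 := norm_sq2 (a := u.1 • a + u.2 • b) (b := c) (by
    rw [real_inner_comm, inner_add_right, real_inner_smul_right, real_inner_smul_right, hca, hcb]
    ring) 1 t
  rw [norm_sq2 hab, one_smul] at h1
  have h2 : ∀ (s : ℝ) (y : E3), m ≤ ‖y‖ → s ^ 2 * ‖y‖ ^ 2 ≤ ‖u.1 • a + u.2 • b + t • c‖ ^ 2 →
      m * ‖s‖ ≤ ‖u.1 • a + u.2 • b + t • c‖ := fun s y h h' => by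
    refine (mul_le_mul_of_nonneg_right h (norm_nonneg _)).trans
      (abs_le_of_sq_le_sq' ?_ (norm_nonneg _)).2
    rwa [mul_pow, Real.norm_eq_abs, sq_abs, mul_comm]
  have h3 : 0 ≤ u.1 ^ 2 * ‖a‖ ^ 2 := by positivity
  have h4 : 0 ≤ u.2 ^ 2 * ‖b‖ ^ 2 := by positivity
  have h5 : 0 ≤ t ^ 2 * ‖c‖ ^ 2 := by positivity
  rw [Prod.norm_def, Prod.norm_def, mul_max_of_nonneg _ _ hm, mul_max_of_nonneg _ _ hm]
  exact max_le (max_le (h2 _ a ha (by linarith)) (h2 _ b hb (by linarith)))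
    (h2 _ c hc (by linarith))

theorem fderiv_snd' {f : ℝ → E3} (hf : ContDiff ℝ ∞ f) (v : R2) :
    HasFDerivAt (fun v : R2 => f v.2) ((ContinuousLinearMap.snd ℝ ℝ ℝ).smulRight (deriv f v.2)) v :=
  ((hf.differentiable (by simp) v.2).hasDerivAt.hasFDerivAt.comp v hasFDerivAt_snd).congr_fderiv
    (by ext <;> simp)

theorem fderiv_cone {f : ℝ → E3} (hf : ContDiff ℝ ∞ f) (v u : R2) :
    fderiv ℝ (fun v : R2 => Real.exp v.1 • f v.2) v u =
      Real.exp v.1 • (u.1 • f v.2 + u.2 • deriv f v.2) := by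
  rw [((hasFDerivAt_fst (p := v)).exp.fun_smul (fderiv_snd' hf v)).fderiv]
  simp [smul_smul, add_comm]

theorem jb_exp (v : R2) :
    JB (fun v : R2 => Real.exp v.1) v (Real.exp v.1) (Real.exp v.1) (Real.exp v.1) := by
  have h : ∀ s, HasFDerivAt Real.exp (Real.exp s • ContinuousLinearMap.id ℝ ℝ) s := fun s =>
    (Real.hasDerivAt_exp s).hasFDerivAt.congr_fderiv (by ext; simp)
  have h1 : J1 Real.exp v.1 (Real.exp v.1) (Real.exp v.1) :=
    ⟨Real.contDiff_exp.contDiffAt, by simp, by simp [(h _).fderiv, norm_smul]⟩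
  refine JB.comp_fst (JB.of_d (by simp) (Eventually.of_forall h) ?_)
  simpa using J1.bilin (ContinuousLinearMap.lsmul ℝ ℝ) ContinuousLinearMap.opNorm_lsmul_le h1
    (JB.const (ContinuousLinearMap.id ℝ ℝ) v.1).j1

theorem jb_cone {f : ℝ → E3} {C : ℝ} (h : ∀ θ, JB f θ C C C) (v : R2) :
    JB (fun v : R2 => Real.exp v.1 • f v.2) v (4 * C * Real.exp v.1) (4 * C * Real.exp v.1)
      (4 * C * Real.exp v.1) := by
  have := mul_nonneg (h 0).n0 (Real.exp_pos v.1).le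
  exact ((jb_exp v).smul (h v.2).comp_snd).mono (by linarith) (by linarith) (by linarith)

/-- injectivity near an embedded closed curve -/
theorem tube {F : R2 × ℝ → E3} (hc : Continuous F)
    (hp : ∀ s τ θ, F ((s, θ + 2 * π), τ) = F ((s, θ), τ))
    (hl : ∀ θ, ∃ U ∈ 𝓝 ((((0 : ℝ), θ), (0 : ℝ)) : R2 × ℝ), InjOn F U)
    (hi : InjOn (fun θ => F ((0, θ), 0)) (Ico 0 (2 * π))) :
    ∃ δ > 0, ∀ a θ θ' τ τ' : ℝ, |a| ≤ δ → |τ| ≤ δ → |τ'| ≤ δ → F ((a, θ), τ) = F ((0, θ'), τ') →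
      a = 0 ∧ τ = τ' ∧ ∃ m : ℤ, θ' = θ + m * (2 * π) := by
  have hp' : ∀ s τ θ (m : ℤ), F ((s, θ + m * (2 * π)), τ) = F ((s, θ), τ) := fun s τ θ m =>
    per_int (f := fun θ => F ((s, θ), τ)) (hp s τ) m θ
  have h := (isCompact_Icc.prod isCompact_Icc :
    IsCompact (Icc 0 (2 * π) ×ˢ Icc 0 (2 * π))).eventually_forall_of_forall_eventually
    (x₀ := (0 : ℝ × ℝ × ℝ)) (P := fun x y => F ((x.1, y.1), x.2.1) = F ((0, y.2), x.2.2) →
      x.1 = 0 ∧ x.2.1 = x.2.2 ∧ ∃ m : ℤ, y.2 = y.1 + m * (2 * π)) fun y _ => ?_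
  · obtain ⟨δ, h0, h⟩ := Metric.eventually_nhds_iff.1 h
    refine ⟨δ / 2, by positivity, fun a θ θ' τ τ' h1 h2 h3 e => ?_⟩
    obtain ⟨m, hm⟩ := red θ
    obtain ⟨m', hm'⟩ := red θ'
    obtain ⟨e1, e2, k, e3⟩ := h (y := (a, τ, τ')) (by
      simp only [dist_zero_right, Prod.norm_def, Real.norm_eq_abs, max_lt_iff]
      exact ⟨by linarith, by linarith, by linarith⟩) (_, _)
      ⟨Ico_subset_Icc_self hm, Ico_subset_Icc_self hm'⟩ (by simpa only [hp'] using e)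
    exact ⟨e1, e2, m + k - m', by push_cast; linarith⟩
  · by_cases e : F ((0, y.1), 0) = F ((0, y.2), 0)
    · obtain ⟨m, hm⟩ := red y.1
      obtain ⟨m', hm'⟩ := red y.2
      have e1 := hi hm hm' (by simpa only [hp'] using e)
      obtain ⟨U, hU, h⟩ := hl y.1
      have c1 : Continuous fun z : (ℝ × ℝ × ℝ) × ℝ × ℝ => ((z.1.1, z.2.1), z.1.2.1) := by fun_prop
      have c2 : Continuous fun z : (ℝ × ℝ × ℝ) × ℝ × ℝ =>
        (((0 : ℝ), z.2.2 + (m' - m : ℤ) * (2 * π)), z.1.2.2) := by fun_prop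
      have e2 : y.2 + (m' - m : ℤ) * (2 * π) = y.1 := by push_cast; linarith
      filter_upwards [(c1.tendsto (0, y)).eventually hU,
        (c2.tendsto (0, y)).eventually (p := (· ∈ U)) (by simp only [e2]; exact hU)] with z h1 h2 h3
      have := h h1 h2 (h3.trans (hp' _ _ _ _).symm)
      simp only [Prod.mk.injEq] at this
      exact ⟨this.1.1, this.2, m - m', by push_cast at this ⊢; linarith [this.1.2]⟩
    · have c1 : Continuous fun z : (ℝ × ℝ × ℝ) × ℝ × ℝ =>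
        F ((z.1.1, z.2.1), z.1.2.1) - F ((0, z.2.2), z.1.2.2) := by fun_prop
      exact ((c1.tendsto (0, y)).eventually_ne (sub_ne_zero.2 e)).mono fun z h1 h2 =>
        (h1 (sub_eq_zero.2 h2)).elim

theorem mod_cone {γ n : ℝ → E3} {l : ℝ} (h : Link γ n l) : ∃ C δ,
    Mod (fun v => Real.exp v.1 • γ v.2) (fun v => Real.exp v.1 • n v.2) (fun v => Real.exp v.1)
      (fun _ => (1, 0)) (fun s => Real.exp (2 * s)) γ C δ := by
  obtain ⟨a, ha1, ha⟩ := jb_per h.smooth h.per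
  obtain ⟨b, hb1, hb⟩ := jb_per h.nsmooth h.nper
  have hl := h.pos
  have s1 : ∀ {f : ℝ → E3}, ContDiff ℝ ∞ f → ContDiff ℝ ∞ fun v : R2 => Real.exp v.1 • f v.2 :=
    fun hf => contDiff_fst.exp.smul (hf.comp contDiff_snd)
  have o1 : ∀ θ, ⟪γ θ, deriv γ θ⟫ = 0 := fun θ => by
    have h1 := (h.smooth.differentiable (by simp) θ).hasDerivAt.norm_sq
    simp only [h.norm] at h1
    linarith [h1.unique (hasDerivAt_const _ _)]
  have e0 : ∀ (v : R2) (τ : ℝ), Real.exp v.1 • γ v.2 + τ • Real.exp v.1 • n v.2 =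
      Real.exp v.1 • (γ v.2 + τ • n v.2) := fun v τ => by rw [smul_add, smul_comm τ]
  have e1 : ∀ (v : R2) (τ : ℝ), ‖Real.exp v.1 • γ v.2 + τ • Real.exp v.1 • n v.2‖ ^ 2 =
      Real.exp (2 * v.1) * (1 + τ ^ 2) := fun v τ => by
    rw [smul_smul, norm_sq2 (by rw [real_inner_comm, h.orth]), h.norm, h.nnorm, two_mul,
      Real.exp_add]
    ring
  set C := 4 * (a + b + 1 / min 1 l) with hC
  have hm : 0 < min 1 l := lt_min one_pos hl
  have hm' : 0 < 1 / min 1 l := by positivity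
  have lo : ∀ v (u : R2) (t : ℝ), Real.exp v.1 * ‖(u, t)‖ ≤
      C * ‖fderiv ℝ (fun v : R2 => Real.exp v.1 • γ v.2) v u + t • Real.exp v.1 • n v.2‖ := by
    intro v u t
    have h1 := low3 (o1 v.2) (h.orth _) (h.orth' _) hm.le ((min_le_left _ _).trans_eq (h.norm _).symm)
      ((min_le_right _ _).trans_eq (h.speed _).symm) ((min_le_left _ _).trans_eq (h.nnorm _).symm) u t
    rw [fderiv_cone h.smooth, smul_comm t, ← smul_add, norm_smul, Real.norm_eq_abs, Real.abs_exp,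
      mul_left_comm]
    refine mul_le_mul_of_nonneg_left ?_ (Real.exp_pos _).le
    rw [← le_div_iff₀' hm, div_eq_mul_one_div, mul_comm] at h1
    exact h1.trans (mul_le_mul_of_nonneg_right (by linarith) (norm_nonneg _))
  obtain ⟨δ, h0, hδ⟩ := tube (F := fun z => Real.exp z.1.1 • γ z.1.2 + z.2 • Real.exp z.1.1 • n z.1.2)
    (((s1 h.smooth).continuous.comp continuous_fst).add
      (continuous_snd.smul ((s1 h.nsmooth).continuous.comp continuous_fst)))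
    (fun s τ θ => by simp only [h.per, h.nper])
    (fun θ => loc_inj (tube_strict (cd2 (s1 h.smooth) _) (cd2 (s1 h.nsmooth) _))
      (tL_inj (Real.exp_pos _) (lo _))) (by simpa using h.inj)
  have hx : ∀ s : ℝ, 4 * a * Real.exp s ≤ C * Real.exp s ∧ 4 * b * Real.exp s ≤ C * Real.exp s :=
    fun s => ⟨mul_le_mul_of_nonneg_right (by linarith) (Real.exp_pos _).le,
      mul_le_mul_of_nonneg_right (by linarith) (Real.exp_pos _).le⟩
  refine ⟨C, min δ 1, by linarith, lt_min h0 one_pos, s1 h.smooth, s1 h.nsmooth,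
    fun s θ => by simp only [h.per], fun s θ => by simp only [h.nper],
    fun v hv => Real.one_le_exp hv, fun v v' e => by rw [e], jb_exp,
    fun v _ => by rw [two_mul, Real.exp_add, sq], fun s hs => ?_,
    fun s _ s' _ e => Real.exp_le_exp.2 (by linarith),
    fun v => ((jb_cone ha v).val le_rfl).mono le_rfl (hx _).1 (hx _).1,
    fun v => (jb_cone hb v).mono (hx _).2 (hx _).2 (hx _).2, lo, fun v τ _ hτ => ?_,
    fun v => by simp only [fderiv_cone h.smooth]; simp; linarith,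
    fun v => by simp only [fderiv_cone h.nsmooth]; simp; linarith, h.smooth.continuous, h.per,
    fun v τ hv hτ => ?_, fun v v' τ τ' h1 h2 e => ?_⟩
  · rw [two_mul, Real.exp_add, sq]
    exact mul_self_le_mul_self hs (by linarith [Real.add_one_le_exp s])
  · have := Real.exp_pos (2 * v.1)
    have h1 : τ ^ 2 ≤ 1 := (sq_le_one_iff_abs_le_one τ).2 hτ
    rw [e1]
    exact ⟨by nlinarith [sq_nonneg τ], by nlinarith⟩
  · have h1 := Real.exp_pos v.1
    have h2 : ‖Real.exp v.1 • γ v.2‖ = Real.exp v.1 := by simp [norm_smul, h.norm]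
    have h3 := norm_unit_sub_le (Real.exp v.1 • γ v.2)
      (Real.exp v.1 • γ v.2 + τ • Real.exp v.1 • n v.2) (norm_ne_zero_iff.1 (h2.symm ▸ h1.ne'))
    rw [h2, inv_smul_smul₀ h1.ne', add_sub_cancel_left, norm_smul τ, norm_smul (Real.exp v.1) (n _),
      h.nnorm, Real.norm_eq_abs, Real.norm_eq_abs, Real.abs_exp, mul_one, ← mul_assoc,
      mul_div_cancel_right₀ _ h1.ne'] at h3
    exact h3.trans (le_add_of_nonneg_right (by positivity))
  · have h3 := e1 v τ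
    rw [e, e1] at h3
    have h4 : ∀ s s' t t' : ℝ, |t'| ≤ min δ 1 → Real.exp (2 * s') * (1 + t' ^ 2) =
        Real.exp (2 * s) * (1 + t ^ 2) → s - s' ≤ δ := fun s s' t t' k1 k2 => by
      have k3 := Real.add_one_le_exp (2 * s - 2 * s')
      rw [Real.exp_sub, le_div_iff₀ (Real.exp_pos _)] at k3
      obtain ⟨k4, k5⟩ := le_min_iff.1 k1
      have k6 : 2 * s - 2 * s' ≤ t' ^ 2 := le_of_mul_le_mul_right
        (by nlinarith [mul_nonneg (Real.exp_pos (2 * s)).le (sq_nonneg t)]) (Real.exp_pos (2 * s'))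
      nlinarith [abs_nonneg t', sq_abs t']
    obtain ⟨e2, e3⟩ := hδ (v.1 - v'.1) v.2 v'.2 τ τ'
      (abs_sub_le_iff.2 ⟨h4 _ _ _ _ h2 h3, h4 _ _ _ _ h1 h3.symm⟩) (h1.trans (min_le_left _ _))
      (h2.trans (min_le_left _ _)) (by
        rw [e0, e0] at e
        have := congrArg (fun y => Real.exp (-v'.1) • y) e
        simp only [smul_smul, ← Real.exp_add] at this
        simpa [e0 (_, _), sub_eq_neg_add] using this)
    exact ⟨sub_eq_zero.1 e2, e3⟩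

/-- the circle of radius `√2` -/
noncomputable def cir (Q : E3 ≃ₗᵢ[ℝ] E3) (θ : ℝ) : E3 := Q !₂[√2 * Real.cos θ, √2 * Real.sin θ, 0]

theorem cir_eq (Q : E3 ≃ₗᵢ[ℝ] E3) : cir Q = fun θ =>
    (√2 * Real.cos θ) • Q !₂[1, 0, 0] + (√2 * Real.sin θ) • Q !₂[0, 1, 0] := by
  funext θ
  rw [cir, ← map_smul, ← map_smul, ← map_add]
  congr 1
  ext i
  fin_cases i <;> simp

theorem mod_cyl (Q : E3 ≃ₗᵢ[ℝ] E3) : ∃ C δ, Mod (fun v => cir Q v.2 + v.1 • axis Q)
    (fun v => cir Q v.2) (fun _ => 1) (fun v => (v.1, 0)) (fun s => s ^ 2) (fun _ => axis Q) C δ := by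
  have s1 : ContDiff ℝ ∞ (cir Q) := by rw [cir_eq]; fun_prop
  have p1 : ∀ θ, cir Q (θ + 2 * π) = cir Q θ := fun θ => by simp [cir]
  obtain ⟨a, ha1, ha⟩ := jb_per s1 p1
  have q2 : √2 ^ 2 = 2 := Real.sq_sqrt zero_le_two
  have d1 : ∀ θ, deriv (cir Q) θ = cir Q (θ + π / 2) := fun θ => by
    rw [cir_eq, ((((Real.hasDerivAt_cos θ).const_mul _).smul_const _).fun_add
      (((Real.hasDerivAt_sin θ).const_mul _).smul_const _)).deriv]
    simp [Real.cos_add_pi_div_two, Real.sin_add_pi_div_two]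
  have n1 : ∀ θ, ‖cir Q θ‖ ^ 2 = 2 := fun θ => by
    rw [← real_inner_self_eq_norm_sq, cir, Q.inner_map_map, End.inner3]
    simp only [Matrix.cons_val]
    linear_combination (Real.cos θ ^ 2 + Real.sin θ ^ 2) * q2 + 2 * Real.cos_sq_add_sin_sq θ
  have n2 : ∀ θ, 1 ≤ ‖cir Q θ‖ ∧ ‖cir Q θ‖ ≤ 2 := fun θ =>
    ⟨by nlinarith [n1 θ, norm_nonneg (cir Q θ)], by nlinarith [n1 θ, norm_nonneg (cir Q θ)]⟩
  have n3 : ‖axis Q‖ = 1 := by
    rw [← sq_eq_sq₀ (norm_nonneg _) zero_le_one, ← real_inner_self_eq_norm_sq, axis,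
      Q.inner_map_map, End.inner3]
    simp
  have o1 : ∀ θ, ⟪cir Q θ, axis Q⟫ = 0 := fun θ => by
    rw [cir, axis, Q.inner_map_map, End.inner3]
    simp
  have o2 : ∀ θ, ⟪cir Q θ, cir Q (θ + π / 2)⟫ = 0 := fun θ => by
    rw [cir, cir, Q.inner_map_map, End.inner3]
    simp only [Matrix.cons_val, Real.cos_add_pi_div_two, Real.sin_add_pi_div_two]
    ring
  have d2 : ∀ v u : R2, fderiv ℝ (fun v : R2 => cir Q v.2 + v.1 • axis Q) v u =
      u.1 • axis Q + u.2 • cir Q (v.2 + π / 2) := fun v u => by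
    rw [((fderiv_snd' s1 v).fun_add ((hasFDerivAt_fst (p := v)).smul_const _)).fderiv, d1]
    simp [add_comm]
  have e0 : ∀ (v : R2) (τ : ℝ), cir Q v.2 + v.1 • axis Q + τ • cir Q v.2 =
      (1 + τ) • cir Q v.2 + v.1 • axis Q := fun v τ => by module
  refine ⟨a + 2, 1 / 2, by linarith, by norm_num, by fun_prop, by fun_prop,
    fun s θ => by simp only [p1], fun s θ => by simp only [p1], fun _ _ => le_rfl,
    fun _ _ _ => rfl, fun v => (JB.const 1 v).mono (by simp) zero_le_one zero_le_one,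
    fun v hv => by nlinarith, fun _ _ => le_rfl, fun s hs s' _ e => pow_le_pow_left₀ hs e 2,
    fun v => (((ha v.2).comp_snd.add ((JB.fst v).smul (JB.const _ v))).val le_rfl).mono le_rfl
      (by rw [n3]; linarith) (by linarith),
    fun v => (ha v.2).comp_snd.mono (by linarith) (by linarith) (by linarith), fun v u t => ?_,
    fun v τ hv hτ => ?_, fun v => ?_, fun v => ?_, continuous_const, fun _ => rfl,
    fun v τ hv hτ => ?_, fun v v' τ τ' h1 h2 e => ?_⟩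
  · rw [d2]
    exact (low3 (by rw [real_inner_comm, o1]) (o1 _) (o2 _) zero_le_one n3.ge (n2 _).1 (n2 _).1
      u t).trans (le_mul_of_one_le_left (norm_nonneg _) (by linarith))
  · obtain ⟨h1, h2⟩ := abs_le.1 hτ
    rw [e0, norm_sq2 (o1 _), n1, n3]
    exact ⟨by nlinarith [sq_nonneg (1 + τ)], by nlinarith⟩
  · simp only [d2, zero_smul, add_zero, add_sub_cancel_right]
    linarith [(n2 v.2).2]
  · simp only [(fderiv_snd' s1 v).fderiv]
    simp
    linarith [(n2 v.2).2]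
  · have h1 : 0 < v.1 := by linarith
    have h2 : ‖v.1 • axis Q‖ = v.1 := by simp [norm_smul, n3, abs_of_pos h1]
    have h3 := norm_unit_sub_le (v.1 • axis Q) ((1 + τ) • cir Q v.2 + v.1 • axis Q)
      (norm_ne_zero_iff.1 (h2.symm ▸ h1.ne'))
    rw [h2, inv_smul_smul₀ h1.ne', add_sub_cancel_right, norm_smul (1 + τ), Real.norm_eq_abs] at h3
    rw [e0]
    refine h3.trans (le_add_of_nonneg_of_le (by positivity) (div_le_div_of_nonneg_right ?_ h1.le))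
    have := mul_le_mul ((abs_add_le 1 τ).trans (add_le_add abs_one.le hτ)) (n2 v.2).2
      (norm_nonneg _) (by norm_num)
    linarith
  · rw [e0, e0] at e
    have e1 := congrArg (fun y => ⟪y, axis Q⟫) e
    simp only [inner_add_left, real_inner_smul_left, o1, real_inner_self_eq_norm_sq, n3] at e1
    have e2 : v.1 = v'.1 := by linarith
    rw [e2, add_left_inj] at e
    have e3 := congrArg (fun y => ‖y‖ ^ 2) e
    simp only [norm_smul, mul_pow, n1, Real.norm_eq_abs, sq_abs] at e3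
    obtain ⟨h3, -⟩ := abs_le.1 h1
    obtain ⟨h4, -⟩ := abs_le.1 h2
    have e4 : τ = τ' := by
      have := (sq_eq_sq₀ (a := 1 + τ) (b := 1 + τ') (by linarith) (by linarith)).1 (by linarith)
      linarith
    rw [e4] at e
    have e5 := Q.injective (smul_right_injective E3 (r := 1 + τ') (by linarith) e)
    have q3 : √2 ≠ 0 := by positivity
    obtain ⟨m, hm⟩ := Real.Angle.angle_eq_iff_two_pi_dvd_sub.1 (Real.Angle.cos_sin_inj
      (mul_left_cancel₀ q3 (by simpa using congrArg (fun y : E3 => y 0) e5.symm))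
      (mul_left_cancel₀ q3 (by simpa using congrArg (fun y : E3 => y 1) e5.symm)))
    exact ⟨e2, e4, m, by linarith⟩

end Vale.Agent.P218N.D6.At
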