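import Vale.Agent.P218N.D6.Atl1

/-! Block D6: the pieces of the atlas. -/

open Set Filter Topology Metric
open scoped RealInnerProductSpace ContDiff Real

namespace Vale.Agent.P218N.D6.At

open Vale.Agent.P218.H313 Vale.Agent.P218N.H

set_option maxSynthPendingDepth 3

variable {w : E3 → ℝ} {n : E3 → E3}

theorem pc_end {b N φ : R2 → E3} {sc H : R2 → ℝ} {xi : R2 → R2} {sg : ℝ → ℝ} {d : ℝ → E3}
    {C δ σ s ε : ℝ} (M : Mod b N sc xi sg d C δ) (hw : Shr w) (hn : ContDiff ℝ ∞ n)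
    (npos : ∀ p, w p = 0 → 0 < ⟪n p, grad w p⟫) (hH : Decays H)
    (hφ : φ = fun v => b v + H v • N v) (hσ : σ = 1 ∨ σ = -1) (hs : 1 ≤ s) (hδ : 2 * ε ≤ δ)
    (hε : ε * C ^ 2 ≤ 1 / 2) (hJ : ∀ v : R2, s < v.1 → JB H v ε ε ε)
    (hm : ∀ v : R2, s < v.1 → w (φ v) = 0) (hN : ∀ v : R2, s < v.1 → n (φ v) = σ • N v)
    (hz : ∀ (v : R2) (τ : ℝ), s < v.1 → |τ| ≤ 2 * ε → w (b v + τ • N v) = 0 → τ = H v) :
    ∃ C', Pc w n φ {v | s < v.1} {v | s + 1 ≤ v.1} {v | s < v.1 ∧ v.2 ∈ Ico 0 (2 * π)} sc xi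
      (5 * C) C' ε := by
  have hC := M.C1
  have op : IsOpen {v : R2 | s < v.1} := isOpen_lt continuous_const continuous_fst
  have σ1 : |σ| = 1 := by rcases hσ with h | h <;> simp [h]
  have σ2 : σ * σ = 1 := by rcases hσ with h | h <;> simp [h]
  have ε0 : 0 ≤ ε := (hJ (s + 1, 0) (by simp)).n0
  have ε1 : ε ≤ 1 / 2 := by nlinarith [mul_le_mul_of_nonneg_left (one_le_pow₀ hC (n := 2)) ε0]
  have sc1 : ∀ v : R2, s < v.1 → 1 ≤ sc v := fun v hv => M.sc1 v (by linarith)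
  have hp : ∀ (v : R2) (m : ℤ), φ (v.1, v.2 + m * (2 * π)) = φ v := fun v m =>
    per_int (f := fun θ => φ (v.1, θ)) (fun θ => by simp only [hφ, M.bp, M.Np, hH.per]) m v.2
  have e1 : ∀ (v : R2) (t : ℝ), s < v.1 → φ v + t • n (φ v) = b v + (H v + t * σ) • N v :=
    fun v t hv => by rw [hN v hv, hφ]; module
  have e2 : ∀ (v : R2) (t : ℝ), s < v.1 → |t| ≤ ε → |H v + t * σ| ≤ 2 * ε := fun v t hv ht => by
    have := (abs_add_le _ _).trans (add_le_add (hJ v hv).b0 (abs_mul t σ).le)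
    rw [σ1] at this
    linarith
  have e3 : ∀ (v v' : R2) (t t' : ℝ), s < v.1 → s < v'.1 → |t| ≤ ε → |t'| ≤ ε →
      φ v + t • n (φ v) = φ v' + t' • n (φ v') → v.1 = v'.1 ∧ ∃ m : ℤ, v'.2 = v.2 + m * (2 * π) :=
    fun v v' t t' hv hv' ht ht' e => by
      rw [e1 v t hv, e1 v' t' hv'] at e
      have := M.inj _ _ _ _ ((e2 v t hv ht).trans hδ) ((e2 v' t' hv' ht').trans hδ) e
      exact ⟨this.1, this.2.2⟩
  have e4 : ∀ v v' : R2, s < v.1 → s < v'.1 → φ v = φ v' →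
      v.1 = v'.1 ∧ ∃ m : ℤ, v'.2 = v.2 + m * (2 * π) := fun v v' hv hv' e =>
    e3 v v' 0 0 hv hv' (by simpa) (by simpa) (by rw [e])
  have e5 : ∀ (v : R2) (t : ℝ), s < v.1 → |t| ≤ ε → sg v.1 ≤ ‖φ v + t • n (φ v)‖ ^ 2 :=
    fun v t hv ht => by
      rw [e1 v t hv]
      exact (M.nrm v _ (by linarith) ((e2 v t hv ht).trans (by linarith))).1
  have d1 : ∀ v : R2, s < v.1 → ∀ u, fderiv ℝ φ v u =
      fderiv ℝ b v u + (H v • fderiv ℝ N v u + fderiv ℝ H v u • N v) := fun v hv u => by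
    rw [hφ, ((M.jb v).has.fun_add ((hJ v hv).has.fun_smul (M.jN v).has)).fderiv]
    simp
  have n1 : ∀ v : R2, s < v.1 → (fun v => n (φ v)) =ᶠ[𝓝 v] fun v => σ • N v := fun v hv =>
    mem_of_superset (op.mem_nhds hv) hN
  have k1 : ∀ v : R2, s < v.1 → 0 ≤ C * sc v ∧ ε * (C * sc v) ≤ C * sc v := fun v hv =>
    ⟨(M.jN v).n0, mul_le_of_le_one_left (M.jN v).n0 (by linarith)⟩
  have jφ : ∀ v : R2, s < v.1 → JB φ v ‖φ v‖ (5 * C * sc v) (5 * C * sc v) := fun v hv => by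
    have := (M.jb v).add ((hJ v hv).smul (M.jN v))
    rw [← hφ] at this
    exact (this.val le_rfl).mono le_rfl (by linarith [k1 v hv]) (by linarith [k1 v hv])
  have jn : ∀ v : R2, s < v.1 → JB (fun v => n (φ v)) v (5 * C * sc v) (5 * C * sc v)
      (5 * C * sc v) := fun v hv => by
    have := ((M.jN v).cmul σ).congr (n1 v hv)
    rw [σ1] at this
    exact this.mono (by linarith [k1 v hv]) (by linarith [k1 v hv]) (by linarith [k1 v hv])
  have low : ∀ v : R2, s < v.1 → ∀ (u : R2) (t : ℝ),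
      sc v * ‖(u, t)‖ ≤ 5 * C * ‖fderiv ℝ φ v u + t • n (φ v)‖ := fun v hv u t => by
    have h1 := M.low v u (fderiv ℝ H v u + t * σ)
    have h2 : fderiv ℝ b v u + (fderiv ℝ H v u + t * σ) • N v =
        fderiv ℝ φ v u + t • n (φ v) - H v • fderiv ℝ N v u := by
      rw [d1 v hv, hN v hv]
      module
    have h3 : ‖u‖ ≤ ‖(u, fderiv ℝ H v u + t * σ)‖ := norm_fst_le (u, fderiv ℝ H v u + t * σ)
    have h4 : |fderiv ℝ H v u + t * σ| ≤ ‖(u, fderiv ℝ H v u + t * σ)‖ :=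
      norm_snd_le (u, fderiv ℝ H v u + t * σ)
    have h5 : |fderiv ℝ H v u| ≤ ε * ‖u‖ := (fderiv ℝ H v).le_of_opNorm_le (hJ v hv).b1 u
    have h6 := (norm_smul_le (H v) (fderiv ℝ N v u)).trans (mul_le_mul (hJ v hv).b0
      ((fderiv ℝ N v).le_of_opNorm_le (M.jN v).b1 u) (norm_nonneg _) ε0)
    have h7 : ‖(u, t)‖ ≤ 2 * ‖(u, fderiv ℝ H v u + t * σ)‖ := by
      have := abs_sub (fderiv ℝ H v u + t * σ) (fderiv ℝ H v u)
      rw [add_sub_cancel_left, abs_mul, σ1, mul_one] at this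
      exact max_le (by linarith [norm_nonneg u]) (by
        rw [Real.norm_eq_abs]; nlinarith [norm_nonneg u])
    rw [h2] at h1
    have h8 := h1.trans (mul_le_mul_of_nonneg_left (norm_sub_le_of_le le_rfl h6) (by linarith))
    have h9 : 0 ≤ sc v := by linarith [sc1 v hv]
    have h10 := mul_le_mul hε (mul_le_mul_of_nonneg_left h3 h9) (by positivity) (by norm_num)
    nlinarith [mul_le_mul_of_nonneg_left h7 h9,
      mul_nonneg (zero_le_one.trans hC) (norm_nonneg (fderiv ℝ φ v u + t • n (φ v)))]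
  have cφ : Continuous φ := by
    rw [hφ]
    exact M.bs.continuous.add (hH.smooth.continuous.smul M.Ns.continuous)
  refine ⟨2 * C + (5 * C) ^ 2 * (6 * (5 * C) ^ 3 + 2 * C), by linarith, op,
    fun v (hv : s + 1 ≤ v.1) => (by linarith : s < v.1), hm, sc1, fun v hv => ?_,
    fun v hv v' hv' e => M.sceq _ _ (e4 v v' hv hv' e).1, fun v hv => ?_, jφ, jn, low,
    fun v hv => sign_of_zero hw.smooth (hm v hv) (npos _ (hm v hv)) fun t ht h => ?_,
    fun v hv v' hv' t t' ht ht' e => ?_, fun τ hτ => isClosed_of_loc fun R => ?_,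
    op.measurableSet.inter (measurable_snd measurableSet_Ico), fun v hv => hv.1,
    fun v hv v' hv' e => ?_, fun v hv => ?_, fun v hv => ?_, fun v hv => ?_⟩
  · have h1 := (M.scle v (hs.trans (le_of_lt hv))).trans (e5 v 0 hv (by simpa))
    rw [zero_smul, add_zero] at h1
    nlinarith [(abs_le_of_sq_le_sq' h1 (norm_nonneg _)).2, norm_nonneg (φ v)]
  · have h1 : sc v ≤ 5 * C * sc v := le_mul_of_one_le_left (by linarith [sc1 v hv]) (by linarith)
    exact (M.jsc v).mono h1 h1 h1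
  · rw [e1 v t hv] at h
    linear_combination σ * hz v _ hv (e2 v t hv ht.le) h - t * σ2
  · obtain ⟨h1, m, h2⟩ := e3 v v' t t' hv hv' ht.le ht'.le e
    rw [← hp v m, h1, ← h2]
  · refine ⟨(fun z : R2 × ℝ => φ z.1 + z.2 • n (φ z.1)) ''
      ((Icc (s + 1) R ×ˢ Icc 0 (2 * π)) ×ˢ Icc (-τ) τ),
      ((isCompact_Icc.prod isCompact_Icc).prod isCompact_Icc).image (by
        have := hn.continuous
        fun_prop), ?_, ?_⟩
    · rintro _ ⟨z, hz, rfl⟩
      exact ⟨z.1, hz.1.1.1, z.2, abs_le.2 hz.2, rfl⟩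
    · rintro _ ⟨⟨v, hv : s + 1 ≤ v.1, t, ht, rfl⟩, h⟩
      obtain ⟨m, h1⟩ := red v.2
      have h2 := (M.sgl v.1 (by linarith)).trans (e5 v t (by linarith) (ht.trans hτ.le))
      exact ⟨((v.1, v.2 + m * (2 * π)), t), ⟨⟨⟨hv, (abs_le_of_sq_le_sq' h2 (norm_nonneg _)).2.trans
        (mem_ball_zero_iff.1 h).le⟩, Ico_subset_Icc_self h1⟩, abs_le.1 ht⟩, by simp only [hp]⟩
  · obtain ⟨h1, m, h2⟩ := e4 v v' hv.1 hv'.1 e
    have h3 := (existsUnique_add_zsmul_mem_Ico Real.two_pi_pos v.2 0).unique (y₁ := m) (y₂ := 0)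
      (by simpa [← h2] using hv'.2) (by simpa using hv.2)
    exact Prod.ext h1 (by simp [h2, h3])
  · obtain ⟨m, h1⟩ := red v.2
    exact ⟨(v.1, v.2 + m * (2 * π)), ⟨hv, h1⟩, hp v m⟩
  · refine rad_of hw (mem_of_superset (op.mem_nhds hv) hm) (sc1 v hv) (by linarith) (jφ v hv)
      (jn v hv).b0 (low v hv) (a := -(σ * fderiv ℝ H v (xi v)))
      (F := b v - fderiv ℝ b v (xi v) + H v • (N v - fderiv ℝ N v (xi v))) ?_ ?_
    · rw [d1 v hv, hN v hv, smul_smul,
        show -(σ * fderiv ℝ H v (xi v)) * σ = -fderiv ℝ H v (xi v) by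
          linear_combination -fderiv ℝ H v (xi v) * σ2, hφ]
      module
    · have := norm_add_le_of_le (M.radb v) ((norm_smul_le (H v) _).trans
        (mul_le_mul (hJ v hv).b0 (M.radN v) (norm_nonneg _) ε0))
      nlinarith
  · rw [(n1 v hv).fderiv_eq, ((M.jN v).has.fun_const_smul σ).fderiv, hN v hv, smul_apply,
      ← smul_sub, norm_smul, Real.norm_eq_abs, σ1, one_mul]
    have : 0 ≤ (5 * C) ^ 2 * (6 * (5 * C) ^ 3 + 2 * C) := by positivity
    linarith [M.radN v]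

theorem pc_core (hw : ContDiff ℝ ∞ w) (hn : ContDiff ℝ ∞ n)
    (npos : ∀ p, w p = 0 → 0 < ⟪n p, grad w p⟫) {φ : R2 → E3} {U : Set R2} (hU : IsOpen U)
    (hφ : ∀ v ∈ U, ContDiffAt ℝ 2 φ v) (hm : ∀ v ∈ U, w (φ v) = 0) {x : R2} (h0 : x ∈ U)
    (hi : Function.Injective (fderiv ℝ φ x)) :
    ∃ r, 0 < r ∧ ball x r ⊆ U ∧ (∃ C C', Pc w n φ (ball x r) (closedBall x (r / 2)) (ball x r)
      (fun _ => 1) 0 C C' r) ∧ ∃ V, IsOpen V ∧ φ x ∈ V ∧
        ∀ p ∈ V, w p = 0 → ∃ v ∈ closedBall x (r / 2), φ v = p := by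
  have hN : ∀ v ∈ U, ContDiffAt ℝ 2 (fun v => n (φ v)) v := fun v hv => (cd2 hn _).comp v (hφ v hv)
  have g1 : ∀ z : R2 × ℝ, fderiv ℝ w (φ x) (tL (fderiv ℝ φ x) (n (φ x)) z) = 0 → z.2 = 0 := by
    intro z hz
    rw [← inner_grad, tL_apply, inner_add_right, real_inner_smul_right, real_inner_comm (n _),
      End.inner_grad_d1 hw (hφ x h0) (mem_of_superset (hU.mem_nhds h0) hm), zero_add] at hz
    exact (mul_eq_zero.1 hz).resolve_right (npos _ (hm x h0)).ne'
  have i1 : Function.Injective (tL (fderiv ℝ φ x) (n (φ x))) := by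
    refine (injective_iff_map_eq_zero _).2 fun z hz => ?_
    have h1 := g1 z (by rw [hz, map_zero])
    rw [tL_apply, h1, zero_smul, add_zero] at hz
    exact Prod.ext ((injective_iff_map_eq_zero _).1 hi _ hz) h1
  have st := tube_strict (hφ x h0) (hN x h0)
  obtain ⟨W1, hW1, i2⟩ := loc_inj st i1
  obtain ⟨W2, hW2, i3⟩ := loc_inj (hasStrictFDerivAt_fst.prodMk (HasStrictFDerivAt.comp (x, (0 : ℝ))
    (g := w) (g' := fderiv ℝ w (φ x)) (by simpa using (cd2 hw _).hasStrictFDerivAt two_ne_zero) st))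
    ((injective_iff_map_eq_zero _).2 fun z hz => Prod.ext (Prod.ext_iff.1 hz).1
      (g1 z (Prod.ext_iff.1 hz).2))
  obtain ⟨c, c1, hc⟩ := exists_low i1
  have hc' : 0 < 1 / (4 * c) := by positivity
  have t1 : Tendsto Prod.fst (𝓝 (x, (0 : ℝ))) (𝓝 x) := continuous_fst.tendsto _
  obtain ⟨r, r0, hr⟩ := Metric.nhds_basis_closedBall.mem_iff.1 (inter_mem (inter_mem hW1 hW2)
    (t1.eventually ((hU.eventually_mem h0).and
      (((JB.of_cd (hφ x h0)).d.cd.continuousAt.eventually (ball_mem_nhds _ hc')).and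
        ((hN x h0).continuousAt.eventually (ball_mem_nhds _ hc'))))))
  have hr' : ∀ v ∈ closedBall x r, ∀ t : ℝ, |t| ≤ r → (v, t) ∈ closedBall (x, (0 : ℝ)) r :=
    fun v hv t ht => by
      rw [← closedBall_prod_same]
      exact ⟨hv, by simpa⟩
  have sU : closedBall x r ⊆ U := fun v hv => (hr (hr' v hv 0 (by simpa using r0.le))).2.1
  have s2 : closedBall x (r / 2) ⊆ ball x r := closedBall_subset_ball (by linarith)
  have z1 : ∀ v ∈ ball x r, ∀ t : ℝ, |t| < r → w (φ v + t • n (φ v)) = 0 → t = 0 :=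
    fun v hv t ht h => congrArg Prod.snd (i3 (hr (hr' v (ball_subset_closedBall hv) t ht.le)).1.2
      (hr (hr' v (ball_subset_closedBall hv) 0 (by simpa using r0.le))).1.2
      (by simp [h, hm v (sU (ball_subset_closedBall hv))]))
  have z2 : ∀ v ∈ ball x r, ∀ v' ∈ ball x r, ∀ t t' : ℝ, |t| < r → |t'| < r →
      φ v + t • n (φ v) = φ v' + t' • n (φ v') → v = v' := fun v hv v' hv' t t' ht ht' e =>
    congrArg Prod.fst (i2 (hr (hr' v (ball_subset_closedBall hv) t ht.le)).1.1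
      (hr (hr' v' (ball_subset_closedBall hv') t' ht'.le)).1.1 e)
  obtain ⟨a, a1, ha⟩ := jb_cpt (isCompact_closedBall x r) fun v hv => hφ v (sU hv)
  obtain ⟨b, b1, hb⟩ := jb_cpt (isCompact_closedBall x r) fun v hv => hN v (sU hv)
  refine ⟨r, r0, ball_subset_closedBall.trans sU, ⟨a + b + 2 * c, a + b, by linarith, isOpen_ball,
    s2, fun v hv => hm v (sU (ball_subset_closedBall hv)), fun _ _ => le_rfl,
    fun v _ => by nlinarith [norm_nonneg (φ v)], fun _ _ _ _ _ => rfl,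
    fun v _ => (JB.const 1 v).mono (by simp only [norm_one]; linarith) (by linarith) (by linarith),
    fun v hv => ((ha v (ball_subset_closedBall hv)).val le_rfl).mono le_rfl (by linarith)
      (by linarith),
    fun v hv => (hb v (ball_subset_closedBall hv)).mono (by linarith) (by linarith) (by linarith),
    fun v hv u t => ?_, fun v hv => sign_of_zero hw (hm v (sU (ball_subset_closedBall hv)))
      (npos _ (hm v (sU (ball_subset_closedBall hv)))) (z1 v hv),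
    fun v hv v' hv' t t' ht ht' e => by rw [z2 v hv v' hv' t t' ht ht' e], fun τ _ => ?_,
    measurableSet_ball, subset_rfl,
    fun v hv v' hv' e => z2 v hv v' hv' 0 0 (by simpa) (by simpa) (by rw [e]),
    fun v hv => ⟨v, hv, rfl⟩, fun v hv => ?_, fun v hv => ?_⟩,
    interior ((fun z : R2 × ℝ => φ z.1 + z.2 • n (φ z.1)) '' (closedBall x (r / 2) ×ˢ ball 0 r)),
    isOpen_interior, mem_interior_iff_mem_nhds.2 ?_, fun p hp h => ?_⟩
  · obtain ⟨-, h1, h2⟩ := (hr (hr' v (ball_subset_closedBall hv) 0 (by simpa using r0.le))).2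
    have h3 := hc (u, t)
    have h4 : tL (fderiv ℝ φ x) (n (φ x)) (u, t) = fderiv ℝ φ v u + t • n (φ v) -
        ((fderiv ℝ φ v - fderiv ℝ φ x) u + t • (n (φ v) - n (φ x))) := by
      simp only [tL_apply, sub_apply]
      module
    have h5 := (norm_add_le_of_le (((fderiv ℝ φ v - fderiv ℝ φ x).le_of_opNorm_le
      (mem_ball_iff_norm.1 h1).le u).trans (mul_le_mul_of_nonneg_left (norm_fst_le (u, t)) hc'.le))
      ((norm_smul_le t _).trans (mul_le_mul (norm_snd_le (u, t)) (mem_ball_iff_norm.1 h2).le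
        (norm_nonneg _) (norm_nonneg _))))
    rw [h4] at h3
    have h6 := h3.trans (mul_le_mul_of_nonneg_left (norm_sub_le_of_le le_rfl h5) (by linarith))
    have h7 : c * (1 / (4 * c)) = 1 / 4 := by field_simp
    nlinarith [norm_nonneg (fderiv ℝ φ v u + t • n (φ v)), norm_nonneg (u, t)]
  · have c1 : ContinuousOn (fun z : R2 × ℝ => φ z.1 + z.2 • n (φ z.1))
        (closedBall x (r / 2) ×ˢ Icc (-τ) τ) := fun z hz => by
      have h1 := sU (ball_subset_closedBall (s2 hz.1))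
      exact (((hφ _ h1).continuousAt.comp continuousAt_fst).add (continuousAt_snd.smul
        ((hN _ h1).continuousAt.comp continuousAt_fst))).continuousWithinAt
    convert (((isCompact_closedBall x (r / 2)).prod isCompact_Icc).image_of_continuousOn
      c1).isClosed using 1
    ext y
    exact ⟨fun ⟨v, hv, t, ht, e⟩ => ⟨(v, t), ⟨hv, abs_le.1 ht⟩, e.symm⟩,
      fun ⟨z, hz, e⟩ => ⟨z.1, hz.1, z.2, abs_le.2 hz.2, e.symm⟩⟩
  · simpa using (ha v (ball_subset_closedBall hv)).b0.trans (by linarith)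
  · simpa using (hb v (ball_subset_closedBall hv)).b0.trans (by linarith)
  · have h1 := st.map_nhds_eq_of_surj (LinearMap.range_eq_top.2 (tL_surj i1))
    simp only [zero_smul, add_zero] at h1
    rw [← h1]
    exact image_mem_map (prod_mem_nhds (closedBall_mem_nhds _ (by linarith)) (ball_mem_nhds _ r0))
  · obtain ⟨z, hz, rfl⟩ := interior_subset hp
    exact ⟨z.1, hz.1, by simp [z1 z.1 (s2 hz.1) z.2 (by simpa using hz.2) h]⟩

end Vale.Agent.P218N.D6.At
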