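import Vale.Agent.P218N.D6.Stm

/-! Block D6: freezing the truncations along the ends. -/

open MeasureTheory Set Filter Topology Metric
open scoped RealInnerProductSpace ContDiff

namespace Vale.Agent.P218N.D6

open Vale.Agent.P218 Vale.Agent.P218.H313 Vale.Agent.P218N.H Vale.Agent.P218F

set_option maxSynthPendingDepth 3

namespace Frz

/-- the identity on the left, zero far on the right -/
noncomputable def vt (t : ℝ) : ℝ := t * (1 - Real.smoothTransition (10 * t))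

theorem vt_cd : ContDiff ℝ 2 vt :=
  contDiff_id.mul (contDiff_const.sub
    (Real.smoothTransition.contDiff.comp (contDiff_const.mul contDiff_id)))

theorem vt_left {t : ℝ} (h : t ≤ 0) : vt t = t := by
  rw [vt, Real.smoothTransition.zero_of_nonpos (by linarith), sub_zero, mul_one]

theorem vt_right {t : ℝ} (h : 1 / 10 ≤ t) : vt t = 0 := by
  rw [vt, Real.smoothTransition.one_of_one_le (by linarith), sub_self, mul_zero]

theorem vt_nonneg {t : ℝ} (h : 0 ≤ t) : 0 ≤ vt t :=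
  mul_nonneg h (sub_nonneg.2 (Real.smoothTransition.le_one _))

theorem vt_le (t : ℝ) : vt t ≤ 1 / 10 := by
  rcases le_total t 0 with h | h
  · rw [vt_left h]
    linarith
  · rcases le_total t (1 / 10) with h' | h'
    · exact (mul_le_of_le_one_right h (sub_le_self _ (Real.smoothTransition.nonneg _))).trans h'
    · rw [vt_right h']
      norm_num

theorem vt_ev {t : ℝ} (h : 1 / 10 < t) : vt =ᶠ[𝓝 t] fun _ => 0 :=
  (lt_mem_nhds h).mono fun _ hs => vt_right hs.le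

theorem vt_jb : ∃ K, 1 ≤ K ∧ ∀ t, JB vt t ‖vt t‖ K K := by
  have c1 : ContDiff ℝ 1 (fderiv ℝ vt) := vt_cd.fderiv_right (by norm_num)
  obtain ⟨K1, h1⟩ := (isCompact_Icc (a := (0 : ℝ)) (b := 1 / 10)).exists_bound_of_continuousOn
    c1.continuous.continuousOn
  obtain ⟨K2, h2⟩ := (isCompact_Icc (a := (0 : ℝ)) (b := 1 / 10)).exists_bound_of_continuousOn
    (c1.continuous_fderiv one_ne_zero).continuousOn
  have a1 := le_max_left 1 (max K1 K2)
  refine ⟨max 1 (max K1 K2), a1, fun t => ?_⟩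
  rcases lt_or_ge t 0 with h | h
  · exact (((JB.id' t).congr ((gt_mem_nhds h).mono fun _ hs => vt_left hs.le)).val le_rfl).mono
      le_rfl a1 (by linarith)
  · rcases lt_or_ge (1 / 10) t with h' | h'
    · exact ((JB.zero (vt_ev h')).val le_rfl).mono le_rfl (by linarith) (by linarith)
    · exact ⟨vt_cd.contDiffAt, le_rfl, (h1 t ⟨h, h'⟩).trans (le_max_of_le_right (le_max_left _ _)),
        (h2 t ⟨h, h'⟩).trans (le_max_of_le_right (le_max_right _ _))⟩

/-- the first coordinate is frozen beyond `a` -/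
noncomputable def fr (a : ℝ) (v : R2) : R2 := (a + vt (v.1 - a), v.2)

theorem fr_left {a : ℝ} {v : R2} (h : v.1 ≤ a) : fr a v = v := by
  rw [fr, vt_left (sub_nonpos.2 h), add_sub_cancel]

theorem fr_le (a : ℝ) (v : R2) : (fr a v).1 ≤ a + 1 / 10 := add_le_add_right (vt_le _) _

theorem lt_fr {a b : ℝ} {v : R2} (h : b < v.1) (h' : b < a) : b < (fr a v).1 := by
  rcases le_total v.1 a with h1 | h1
  · rwa [fr_left h1]
  · exact h'.trans_le (le_add_of_nonneg_right (vt_nonneg (sub_nonneg.2 h1)))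

theorem le_fr {a : ℝ} {v : R2} (h : v.1 - a ≤ 1 / 10) : v.1 ≤ (fr a v).1 + 1 / 10 := by
  rcases le_total v.1 a with h1 | h1
  · rw [fr_left h1]
    linarith
  · have := vt_nonneg (sub_nonneg.2 h1)
    simp only [fr]
    linarith

theorem fr_jb {K : ℝ} (hK : ∀ t, JB vt t ‖vt t‖ K K) (a : ℝ) (v : R2) :
    JB (fr a) v ‖fr a v‖ (K + 1) K := by
  have h1 := (JB.const a v.1).add ((hK (v.1 - a)).comp (f := fun s => s - a)
    ((JB.id' v.1).sub (JB.const a v.1)))
  exact (((h1.comp_fst (z := v)).prodMk (JB.snd v)).val le_rfl).mono le_rfl (by simp) (by simp)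

theorem fr_fderiv (a : ℝ) (v u : R2) (hu : u.2 = 0) :
    fderiv ℝ (fr a) v u = deriv vt (v.1 - a) • u := by
  have h1 : HasDerivAt (fun s => a + vt (s - a)) (deriv vt (v.1 - a)) v.1 :=
    ((vt_cd.differentiable (by simp) _).hasDerivAt.comp_sub_const v.1 a).const_add a
  rw [show fderiv ℝ (fr a) v = _ from
    ((h1.hasFDerivAt.comp v hasFDerivAt_fst).prodMk hasFDerivAt_snd).fderiv]
  ext <;> simp [hu, mul_comm]

variable {ι : Type} [Fintype ι] {U U' : (ι → ℂ) → R2 → ℂ} {Ω : Set (ι → ℂ)} {v : R2}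

theorem holJ_congr (h : HolJ U Ω v) (e : ∀ ξ, U' ξ =ᶠ[𝓝 v] U ξ) : HolJ U' Ω v :=
  ⟨h.h0.congr fun ξ _ => (e ξ).eq_of_nhds,
    fun u => (h.h1 u).congr fun ξ _ => by rw [(e ξ).fderiv_eq],
    fun u u' => (h.h2 u u').congr fun ξ _ => by rw [((e ξ).fderiv (𝕜 := ℝ)).fderiv_eq]⟩

theorem holJ_comp {f : R2 → R2} (h : HolJ U Ω (f v)) (hU : ∀ ξ ∈ Ω, ContDiffAt ℝ 2 (U ξ) (f v))
    (hf : ContDiffAt ℝ 2 f v) : HolJ (fun ξ v => U ξ (f v)) Ω v :=
  ⟨h.h0, fun u => (h.h1 (fderiv ℝ f v u)).congr fun ξ hξ => by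
    rw [show fderiv ℝ (fun v => U ξ (f v)) v = _ from
      ((JB.of_cd (hU ξ hξ)).has.comp v (JB.of_cd hf).has).fderiv]
    rfl, fun u u' => ((h.h2 _ _).add (h.h1 _)).congr fun ξ hξ => fderiv2_comp (hU ξ hξ) hf u u'⟩

theorem holJ_sub {g : R2 → ℂ} (h : HolJ U Ω v) (hU : ∀ ξ ∈ Ω, ContDiffAt ℝ 2 (U ξ) v)
    (hg : ContDiffAt ℝ 2 g v) : HolJ (fun ξ v => U ξ v - g v) Ω v :=
  ⟨h.h0.sub_const _, fun u => ((h.h1 u).sub_const (fderiv ℝ g v u)).congr fun ξ hξ => by
    rw [((JB.of_cd (hU ξ hξ)).has.fun_sub (JB.of_cd hg).has).fderiv]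
    rfl, fun u u' => ((h.h2 u u').sub_const (fderiv ℝ (fderiv ℝ g) v u u')).congr fun ξ hξ => by
    have e : (fderiv ℝ fun v => U ξ v - g v) =ᶠ[𝓝 v] fun y => fderiv ℝ (U ξ) y - fderiv ℝ g y :=
      ((JB.ev (hU ξ hξ)).and (JB.ev hg)).mono fun y hy => (hy.1.fun_sub hy.2).fderiv
    rw [e.fderiv_eq, ((JB.of_cd (hU ξ hξ)).d.has.fun_sub (JB.of_cd hg).d.has).fderiv]
    rfl⟩

variable {w : E3 → ℝ} (D : EndData w)

/-- the parameter where `endSg` is `R / 4` -/
noncomputable def sR (R : ℝ) : En D → ℝ :=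
  Sum.elim (fun _ => Real.log (R / 4) / 2) fun _ => √(R / 4)

variable {D}

theorem le_sR {R s : ℝ} (hR : 0 < R) (e : En D) (h : endSg D e s ≤ R / 4) : s ≤ sR D R e := by
  rcases e with i | j
  · have := (Real.le_log_iff_exp_le (by positivity)).2 h
    simp only [sR, Sum.elim_inl]
    linarith
  · exact Real.le_sqrt_of_sq_le h

theorem sg_lt {R s : ℝ} (hR : 0 < R) (e : En D) (h1 : 1 ≤ sR D R e) (h0 : 0 ≤ s)
    (h : s ≤ sR D R e + 1 / 10) : endSg D e s < R / 2 := by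
  rcases e with i | j
  · simp only [sR, endSg, Sum.elim_inl] at h ⊢
    have h2 : Real.exp (2 * s) ≤ Real.exp (Real.log (R / 4) + 1 / 5) :=
      Real.exp_le_exp.2 (by linarith)
    rw [Real.exp_add, Real.exp_log (by positivity)] at h2
    have h3 := Real.exp_bound_div_one_sub_of_interval' (x := 1 / 5) (by norm_num) (by norm_num)
    nlinarith
  · simp only [sR, endSg, Sum.elim_inr] at h h1 ⊢
    have h2 := Real.sq_sqrt (x := R / 4) (by positivity)
    nlinarith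

theorem sg_le (e : En D) (s : ℝ) : endSg D e s ≤ Real.exp (2 * s) + s ^ 2 := by
  rcases e with i | j
  · exact le_add_of_nonneg_right (sq_nonneg _)
  · exact le_add_of_nonneg_left (Real.exp_pos _).le

theorem xi_snd (e : En D) (v : R2) : (endXi D e v).2 = 0 := by rcases e with i | j <;> rfl

theorem xi_cmp (e : En D) {v v' : R2} (h0 : 0 ≤ v.1) (h1 : 1 ≤ v'.1) (h : v.1 ≤ v'.1 + 1 / 10) :
    ∃ l : ℝ, 0 ≤ l ∧ endXi D e v = l • endXi D e v' ∧ endSc D e v * l ≤ 2 * endSc D e v' := by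
  rcases e with i | j
  · refine ⟨1, zero_le_one, by simp [endXi], ?_⟩
    simp only [endSc, Sum.elim_inl, mul_one]
    have h2 := Real.exp_le_exp.2 h
    rw [Real.exp_add] at h2
    have h3 := Real.exp_bound_div_one_sub_of_interval' (x := 1 / 10) (by norm_num) (by norm_num)
    nlinarith [Real.exp_pos v'.1]
  · refine ⟨v.1 / v'.1, by positivity, by simp [endXi, (by positivity : v'.1 ≠ 0)], ?_⟩
    simp only [endSc, Sum.elim_inr, mul_one, one_mul]
    rw [div_le_iff₀ (by positivity)]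
    linarith

theorem endPt_per (e : En D) (s : ℝ) :
    Function.Periodic (fun θ => endPt D e (s, θ)) (2 * Real.pi) := fun θ => by
  rcases e with i | j
  · simp [endPt, conePt, (D.link i).per, (D.link i).nper, (D.hdec i).per]
  · simp [endPt, cylPt, (D.vdec j).per]

theorem exists_Fr {s2 : ℝ} (sep : ∀ e e' (v v' : R2), s2 < v.1 → s2 < v'.1 →
    endPt D e v = endPt D e' v' → e = e' ∧ v.1 = v'.1 ∧ ∃ m : ℤ, v'.2 = v.2 + m * (2 * Real.pi))
    (a : En D → ℝ) : ∃ Fr : E3 → E3,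
      (∀ e (v : R2), s2 < v.1 → Fr (endPt D e v) = endPt D e (fr (a e) v)) ∧
      ∀ p, (¬∃ q : En D × R2, s2 < q.2.1 ∧ endPt D q.1 q.2 = p) → Fr p = p := by
  classical
  refine ⟨fun p => if h : ∃ q : En D × R2, s2 < q.2.1 ∧ endPt D q.1 q.2 = p then
    endPt D h.choose.1 (fr (a h.choose.1) h.choose.2) else p, fun e v hv => ?_,
    fun p hp => dif_neg hp⟩
  have h : ∃ q : En D × R2, s2 < q.2.1 ∧ endPt D q.1 q.2 = endPt D e v := ⟨(e, v), hv, rfl⟩
  simp only [dif_pos h]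
  obtain ⟨h1, h2, m, h3⟩ := sep _ _ _ _ h.choose_spec.1 hv h.choose_spec.2
  rw [fr, fr, h3, h1, h2]
  exact ((endPt_per e _).int_mul m _).symm

end Frz

open Frz in
theorem frzStmt : FrzStmt := by
  intro ι J _ _ _ w D n κ ψ U s1 σ χ G I c r κ' C A q R0 u lam F Ψ lag s2 Rb K0 _ idx 𝒜 hR hA
  obtain ⟨K, K1, hK⟩ := vt_jb
  obtain ⟨M, hM⟩ := (isCompact_closedBall (0 : E3) Rb).exists_bound_of_continuousOn
    hR.σc.continuousOn
  obtain ⟨N, hN⟩ := exists_nat_gt (8 * |M| + Rb ^ 2 + 4 * (Real.exp (2 * (s2 + 1)) + (s2 + 1) ^ 2))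
  choose Fr hF1 hF2 using fun R : ℕ => exists_Fr hA.sep (sR D R)
  have s12 := hA.s12
  have s21 := hA.s21
  have big : ∀ R : ℕ, R0 + N ≤ R → R0 ≤ R ∧ (0 : ℝ) < R ∧ 8 * |M| < R ∧ Rb ^ 2 < R ∧
      ∀ e, s2 + 1 ≤ sR D R e := fun R h => by
    have h1 : (N : ℝ) ≤ R := by exact_mod_cast (by omega : N ≤ R)
    have h2 := abs_nonneg M
    have h3 := sq_nonneg Rb
    have h4 := Real.exp_pos (2 * (s2 + 1))
    have h5 := sq_nonneg (s2 + 1)
    exact ⟨by omega, by linarith, by linarith, by linarith, fun e =>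
      le_sR (by linarith) e ((sg_le e _).trans (by linarith))⟩
  have Fid : ∀ R : ℕ, R0 + N ≤ R → ∀ p, σ p < R / 4 → Fr R p = p := fun R h p hp => by
    by_cases h1 : ∃ q : En D × R2, s2 < q.2.1 ∧ endPt D q.1 q.2 = p
    · obtain ⟨⟨e, v⟩, h2, rfl⟩ := h1
      rw [hR.σe e v (s12.trans_lt h2)] at hp
      rw [hF1 R e v h2, fr_left (le_sR (big R h).2.1 e hp.le)]
    · exact hF2 R p h1
  have core : ∀ R : ℕ, R0 + N ≤ R → ∀ p : E3, ‖p‖ ≤ Rb → σ p < R / 8 ∧ ‖p‖ ^ 2 < R :=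
    fun R h p hp => by
      obtain ⟨-, -, h1, h2, -⟩ := big R h
      have h3 := (le_abs_self _).trans ((hM p (mem_closedBall_zero_iff.2 hp)).trans (le_abs_self M))
      exact ⟨by linarith, (pow_le_pow_left₀ (norm_nonneg _) hp 2).trans_lt h2⟩
  have dich : ∀ k, ∀ v ∈ 𝒜.O k, (σ (𝒜.φ k v) ≤ ‖𝒜.φ k v‖ ^ 2 ∧
      ‖𝒜.φ k v‖ ^ 2 ≤ 10 * σ (𝒜.φ k v)) ∨ ‖𝒜.φ k v‖ ≤ Rb := by
    rintro (e | k) v hv
    · rw [hA.eO] at hv
      rw [hA.eφ, hR.σe e v (s12.trans_lt hv)]
      exact .inl (hA.nrm e v hv)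
    · exact .inr (hA.kb k v hv)
  have chart : ∀ k, ∃ j, 𝒜.φ k = chφ D ψ j ∧ 𝒜.O k ⊆ chO D U s1 j := by
    rintro (e | k)
    · exact ⟨.inl e, hA.eφ e, fun v hv => s12.trans_lt (by rwa [hA.eO] at hv)⟩
    · exact ⟨idx k, hA.kφ k, hA.kO k⟩
  have loc : ∀ R : ℕ, R0 + N ≤ R → ∀ k, ∀ v ∈ 𝒜.O k, σ (𝒜.φ k v) < R / 4 →
      ∀ᶠ v' in 𝓝 v, Fr R (𝒜.φ k v') = 𝒜.φ k v' := fun R h k v hv hσ =>
    ((hR.σc.continuousAt.comp (𝒜.jφ k v hv).cd.continuousAt).eventually_lt continuousAt_const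
      hσ).mono fun v' h' => Fid R h _ h'
  have L1 : 1 ≤ 2 * (K + 1) ^ 2 := by nlinarith
  have frz : ∀ R : ℕ, R0 + N ≤ R → ∀ e (v : R2), s2 < v.1 → s2 < (fr (sR D R e) v).1 ∧
      endSg D e (fr (sR D R e) v).1 < R / 2 ∧
      ∀ᶠ v' in 𝓝 v, Fr R (endPt D e v') = endPt D e (fr (sR D R e) v') := fun R h e v hv => by
    obtain ⟨-, h1, -, -, h2⟩ := big R h
    have h3 : s2 < (fr (sR D R e) v).1 := lt_fr hv (by linarith [h2 e])
    exact ⟨h3, sg_lt h1 e (by linarith [h2 e]) (by linarith) (fr_le _ _),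
      (continuousAt_const.eventually_lt continuousAt_fst hv).mono fun v' h' => hF1 R e v' h'⟩
  have main : ∀ k (R : ℕ), R0 + N ≤ R → ∀ v ∈ 𝒜.O k,
      HolJ (fun ξ v => u R ξ (Fr R (𝒜.φ k v))) (Dom I c r R) v ∧
      ∀ ξ ∈ Dom I c r R, JB (fun v => u R ξ (Fr R (𝒜.φ k v))) v (2 * (K + 1) ^ 2 * C)
        (2 * (K + 1) ^ 2 * C) (2 * (K + 1) ^ 2 * C) ∧
        𝒜.sc k v * ‖fderiv ℝ (fun v => u R ξ (Fr R (𝒜.φ k v))) v (𝒜.xi k v)‖ ≤
          2 * (K + 1) ^ 2 * C := by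
    rintro (e | k) R h v hv
    · rw [hA.eO] at hv
      rw [hA.eφ, hA.esc, hA.exi]
      obtain ⟨h1, h2, h3⟩ := frz R h e v hv
      have h4 : fr (sR D R e) v ∈ chO D U s1 (.inl e) := s12.trans_lt h1
      have h5 : σ (chφ D ψ (.inl e) (fr (sR D R e) v)) < R / 2 := (hR.σe e _ h4).trans_lt h2
      have h6 := fun ξ hξ => hR.jb R (big R h).1 ξ hξ _ _ h4 h5
      have h7 : ∀ ξ, (fun v => u R ξ (Fr R (endPt D e v))) =ᶠ[𝓝 v]
          fun v => u R ξ (chφ D ψ (.inl e) (fr (sR D R e) v)) := fun ξ =>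
        h3.mono fun v' h' => congrArg (u R ξ) h'
      have h8 := fr_jb hK (sR D R e) v
      refine ⟨holJ_congr (holJ_comp (hR.hol R (big R h).1 _ _ h4 h5) (fun ξ hξ => (h6 ξ hξ).cd)
        h8.cd) h7, fun ξ hξ => ?_⟩
      · have C0 := (h6 ξ hξ).n0
        have C1 := mul_nonneg C0 (zero_le_one.trans K1)
        have C2 := mul_nonneg C1 (zero_le_one.trans K1)
        refine ⟨(((h6 ξ hξ).comp h8).congr (h7 ξ)).mono (by linarith) (by linarith)
          (by linarith), ?_⟩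
        rw [(h7 ξ).fderiv_eq, show fderiv ℝ (fun v => u R ξ (chφ D ψ (.inl e)
          (fr (sR D R e) v))) v = _ from ((h6 ξ hξ).has.comp v h8.has).fderiv,
          ContinuousLinearMap.comp_apply, fr_fderiv _ _ _ (xi_snd e v), map_smul, norm_smul]
        rcases lt_or_ge (1 / 10) (v.1 - sR D R e) with h9 | h9
        · rw [(vt_ev h9).deriv_eq, deriv_const, norm_zero, zero_mul, mul_zero]
          positivity
        · obtain ⟨l, l0, l1, l2⟩ := xi_cmp e (v' := fr (sR D R e) v)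
            (by linarith [show s2 < v.1 from hv]) (by linarith) (le_fr h9)
          have a1 := hR.jrad R (big R h).1 ξ hξ e _ h4 h2
          have a2 : ‖deriv vt (v.1 - sR D R e)‖ ≤ K := by
            rw [norm_deriv_eq_norm_fderiv]
            exact (hK _).b1
          rw [l1, map_smul, norm_smul, Real.norm_of_nonneg l0]
          have a3 := mul_le_mul_of_nonneg_right l2 (norm_nonneg (fderiv ℝ
            (fun v => u R ξ (endPt D e v)) (fr (sR D R e) v) (endXi D e (fr (sR D R e) v))))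
          have a4 := mul_le_mul a2 (a3.trans (by rw [mul_assoc]; linarith : _ ≤ 2 * C))
            (by
              have := 𝒜.sc1 (.inl e) v (by rwa [hA.eO])
              rw [hA.esc] at this
              positivity) (by linarith)
          refine le_trans (le_of_eq ?_) (a4.trans (by linarith))
          simp only [chφ, Sum.elim_inl]
          ring
    · have h1 := (core R h _ (hA.kb k v hv)).1
      have h0 := (big R h).2.1
      have h3 := loc R h _ v hv (by linarith)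
      have h2 : σ (chφ D ψ (idx k) v) < R / 2 := by
        rw [hA.kφ] at h1
        linarith
      have h7 : ∀ ξ, (fun v => u R ξ (Fr R (𝒜.φ (.inr k) v))) =ᶠ[𝓝 v]
          fun v => u R ξ (chφ D ψ (idx k) v) := fun ξ =>
        h3.mono fun v' h' => congrArg (u R ξ) (h'.trans (congrFun (hA.kφ k) v'))
      refine ⟨holJ_congr (hR.hol R (big R h).1 _ _ (hA.kO k hv) h2) h7, fun ξ hξ => ?_⟩
      · have h6 := hR.jb R (big R h).1 ξ hξ _ _ (hA.kO k hv) h2
        have C0 := h6.n0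
        refine ⟨(h6.congr (h7 ξ)).mono (by nlinarith) (by nlinarith) (by nlinarith), ?_⟩
        rw [hA.kxi, Pi.zero_apply, map_zero, norm_zero, mul_zero]
        positivity
  have z : ∀ R : ℕ, R0 + N ≤ R → (0 : ι → ℂ) ∈ Dom I c r R := fun R h =>
    ⟨by simpa using hR.r0, fun i _ => by simpa using div_pos hR.c0 (big R h).2.1⟩
  refine ⟨R0 + N, 2 * (K + 1) ^ 2 * C + 2 * (K + 1) ^ 2 * C,
    fun R ξ p => u R ξ (Fr R p) - u R 0 (Fr R p), Nat.le_add_right _ _,
    fun k => ⟨hR.c0, hR.r0, hR.κ0, hR.R01.trans (Nat.le_add_right _ _), 𝒜.op k,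
      fun v _ => by linarith [norm_nonneg (𝒜.φ k v)],
      fun v hv => (continuousAt_const.mul (continuousAt_const.add
        (𝒜.jφ k v hv).cd.continuousAt.norm)).continuousWithinAt,
      fun v hv => zero_le_one.trans (𝒜.sc1 k v hv), fun R h v hv hb => ?_, fun R v _ hg => ?_,
      fun R h v hv => holJ_sub (main k R h v hv).1 (fun ξ hξ => ((main k R h v hv).2 ξ hξ).1.cd)
        ((main k R h v hv).2 0 (z R h)).1.cd,
      fun R h ξ hξ v hv => ((main k R h v hv).2 ξ hξ).1.sub ((main k R h v hv).2 0 (z R h)).1,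
      fun R h ξ hξ v hv => ?_, fun R h ξ hξ v hv hg => ?_,
      fun R h v hv => sub_self _⟩, fun R h p hp => ?_⟩
  · have h0 := (big R h).2.1
    rcases dich k v hv with h1 | h1
    · nlinarith [norm_nonneg (𝒜.φ k v), h1.1, not_lt.1 hb]
    · exact absurd (by linarith [(core R h _ h1).1]) hb
  · push_cast
    linarith
  · obtain ⟨a1, a2⟩ := (main k R h v hv).2 ξ hξ
    obtain ⟨a3, a4⟩ := (main k R h v hv).2 0 (z R h)
    rw [(a1.has.fun_sub a3.has).fderiv]
    exact (mul_le_mul_of_nonneg_left (norm_sub_le _ _)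
      (zero_le_one.trans (𝒜.sc1 k v hv))).trans ((mul_add _ _ _).trans_le (add_le_add a2 a4))
  · obtain ⟨j, e1, e2⟩ := chart k
    have h0 := (big R h).2.1
    have h1 := fun ξ hξ => hR.step R (big R h).1 ξ hξ j v (e2 hv) (by rw [← e1]; linarith)
    have h2 := mul_le_mul_of_nonneg_right L1 (h1 ξ hξ).n0
    have h3 : C * Real.exp (-(κ' * R)) + C * Real.exp (-(κ' * R)) ≤
        (2 * (K + 1) ^ 2 * C + 2 * (K + 1) ^ 2 * C) * Real.exp (-(κ' * R)) := by linarith
    refine (((h1 ξ hξ).sub (h1 0 (z _ (by omega)))).mono h3 h3 h3).congr ?_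
    filter_upwards [loc R h k v hv hg, loc (R + 1) (by omega) k v hv (by push_cast; linarith)]
      with v' a1 a2
    rw [a1, a2, e1]
    ring
  · have h0 := (big R h).2.1
    obtain ⟨k, -, hk⟩ := Finset.exists_ne_zero_of_sum_ne_zero ((𝒜.βsum p hp).trans_ne one_ne_zero)
    obtain ⟨v, hv, rfl⟩ := 𝒜.βO k p hp hk
    refine ⟨fun hσ ξ => ?_, fun hσ => ?_, fun hσ => ?_⟩
    · simp only [Fid R h _ hσ]
    · rcases dich k v hv with h1 | h1
      · linarith [h1.2]
      · linarith [(core R h _ h1).2]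
    · rcases dich k v hv with h1 | h1
      · linarith [h1.1]
      · linarith [(core R h _ h1).1]

end Vale.Agent.P218N.D6
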