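import Vale.Agent.P218N.D6.Defs
import Vale.Agent.P274.Bdl.B5

/-! Block D6: holomorphic jets give joint regularity with Cauchy bounds; the Schwarz lemma. -/

open Set Filter Topology Metric Function

namespace Vale.Agent.P218N.D6

open Vale.Agent.P218F

set_option maxSynthPendingDepth 3
set_option linter.unusedSectionVars false

namespace Hol

variable {E V : Type*} [NormedAddCommGroup E] [NormedSpace ℝ E] [NormedSpace ℂ E]
  [IsScalarTower ℝ ℂ E] [FiniteDimensional ℝ E] [FiniteDimensional ℂ E] [NormedAddCommGroup V]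
  [NormedSpace ℝ V] [FiniteDimensional ℝ V]

theorem cauchy {f : E → ℂ} {c : E} {R B : ℝ} (hd : DifferentiableOn ℂ f (ball c R)) (hR : 0 < R)
    (hB : ∀ z ∈ ball c R, ‖f z‖ ≤ B) (a : E) : ‖fderiv ℂ f c a‖ ≤ 2 * B / R * ‖a‖ :=
  (fderiv ℂ f c).le_of_opNorm_le (Complex.norm_fderiv_le_div_of_mapsTo_ball hd (fun z hz => by
    rw [mem_closedBall, dist_eq_norm, two_mul]
    exact norm_sub_le_of_le (hB z hz) (hB c (mem_ball_self hR))) hR) a

/-- the derivative in the holomorphic variable -/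
noncomputable def dX (F : E → V → ℂ) (a : E) (ξ : E) (v : V) : ℂ := fderiv ℂ (fun η => F η v) ξ a

/-- the derivative in the real variable -/
noncomputable def dV (F : E → V → ℂ) (e : V) (ξ : E) (v : V) : ℂ := fderiv ℝ (F ξ) v e

/-- holomorphic in the first variable and jointly continuous -/
structure P0 (Ω : Set E) (O : Set V) (F : E → V → ℂ) : Prop where
  hol : ∀ v ∈ O, DifferentiableOn ℂ (fun η => F η v) Ω
  cont : ContinuousOn (uncurry F) (Ω ×ˢ O)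

/-- the same for the first derivatives in the real variable -/
structure P1 (Ω : Set E) (O : Set V) (F : E → V → ℂ) : Prop where
  p0 : P0 Ω O F
  dif : ∀ ξ ∈ Ω, ∀ v ∈ O, DifferentiableAt ℝ (F ξ) v
  pd : ∀ e, P0 Ω O (dV F e)

variable {Ω : Set E} {O : Set V} {F G : E → V → ℂ}

theorem P0.congr (h : P0 Ω O F) (e : ∀ ξ ∈ Ω, ∀ v ∈ O, G ξ v = F ξ v) : P0 Ω O G :=
  ⟨fun v hv => (h.hol v hv).congr fun ξ hξ => e ξ hξ v hv,
    h.cont.congr fun z hz => e z.1 hz.1 z.2 hz.2⟩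

theorem P0.of_bdd (hΩ : IsOpen Ω) (hO : IsOpen O) {B : ℝ}
    (hol : ∀ v ∈ O, DifferentiableOn ℂ (fun η => F η v) Ω)
    (hB : ∀ ξ ∈ Ω, ∀ v ∈ O, ‖F ξ v‖ ≤ B) (hc : ∀ ξ ∈ Ω, ∀ v ∈ O, ContinuousAt (F ξ) v) :
    P0 Ω O F := by
  refine ⟨hol, fun z hz => ContinuousAt.continuousWithinAt ?_⟩
  obtain ⟨r, hr, hrΩ⟩ := Metric.isOpen_iff.1 hΩ z.1 hz.1
  have h1 : Tendsto (fun y : E × V => 2 * B / r * dist y.1 z.1 + dist (F z.1 y.2) (F z.1 z.2))
      (𝓝 z) (𝓝 (2 * B / r * dist z.1 z.1 + dist (F z.1 z.2) (F z.1 z.2))) :=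
    ((continuousAt_fst.dist continuousAt_const).const_mul _).add
      (((hc _ hz.1 _ hz.2).comp continuousAt_snd).dist continuousAt_const)
  rw [dist_self, dist_self, mul_zero, add_zero] at h1
  refine tendsto_iff_dist_tendsto_zero.2 (squeeze_zero' (Eventually.of_forall fun _ => dist_nonneg)
    ?_ h1)
  filter_upwards [continuousAt_fst.eventually (ball_mem_nhds z.1 hr),
    continuousAt_snd.eventually (hO.mem_nhds hz.2)] with y h2 h3
  refine (dist_triangle _ (F z.1 y.2) _).trans (add_le_add_left ?_ _)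
  refine Complex.dist_le_div_mul_dist_of_mapsTo_ball (f := fun η => F η y.2)
    ((hol _ h3).mono hrΩ) (fun η hη => ?_) h2
  rw [mem_closedBall, dist_eq_norm, two_mul]
  exact norm_sub_le_of_le (hB _ (hrΩ hη) _ h3) (hB _ hz.1 _ h3)

theorem unif {Y : Type*} [NormedAddCommGroup Y] (hΩ : IsOpen Ω) (hO : IsOpen O) {H : E → V → Y}
    (hH : ContinuousOn (uncurry H) (Ω ×ˢ O)) {ξ : E} {r : ℝ} (hr : closedBall ξ r ⊆ Ω) {v : V}
    (hv : v ∈ O) {ε : ℝ} (hε : 0 < ε) :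
    ∀ᶠ v' in 𝓝 v, ∀ η ∈ closedBall ξ r, ‖H η v' - H η v‖ ≤ ε := by
  have : ProperSpace E := FiniteDimensional.proper ℝ E
  refine (isCompact_closedBall ξ r).eventually_forall_of_forall_eventually fun η hη => ?_
  have h1 : ContinuousAt (uncurry H) (η, v) :=
    hH.continuousAt ((hΩ.prod hO).mem_nhds ⟨hr hη, hv⟩)
  have h2 : ContinuousAt (fun z : V × E => ‖H z.2 z.1 - H z.2 v‖) (v, η) :=
    ((h1.comp_of_eq (f := fun z : V × E => (z.2, z.1)) (by fun_prop) rfl).sub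
      (h1.comp_of_eq (f := fun z : V × E => (z.2, v)) (by fun_prop) rfl)).norm
  exact h2.eventually (eventually_le_nhds (by simpa using hε))

theorem exists_cb (hΩ : IsOpen Ω) {ξ : E} (hξ : ξ ∈ Ω) : ∃ r > 0, closedBall ξ (2 * r) ⊆ Ω := by
  obtain ⟨r, hr, h⟩ := Metric.isOpen_iff.1 hΩ ξ hξ
  exact ⟨r / 4, by positivity, (closedBall_subset_ball (by linarith)).trans h⟩

theorem hol_fderiv (hΩ : IsOpen Ω) {f : E → ℂ} (hf : DifferentiableOn ℂ f Ω) (a : E) :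
    DifferentiableOn ℂ (fun ξ => fderiv ℂ f ξ a) Ω := fun _ hξ =>
  (((Vale.Agent.P274.HolOs.analyticAt_of_differentiableOn hΩ hf hξ).fderiv.differentiableAt
    ).clm_apply (differentiableAt_const a)).differentiableWithinAt

theorem P0.dX (hΩ : IsOpen Ω) (hO : IsOpen O) (h : P0 Ω O F) (a : E) : P0 Ω O (dX F a) := by
  have hol : ∀ v ∈ O, DifferentiableOn ℂ (fun η => Hol.dX F a η v) Ω := fun v hv =>
    hol_fderiv hΩ (h.hol v hv) a
  refine ⟨hol, fun z hz => ContinuousAt.continuousWithinAt ?_⟩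
  obtain ⟨r, hr, hrΩ⟩ := exists_cb hΩ hz.1
  have h1 : Tendsto (fun y : E × V => Hol.dX F a y.1 y.2 - Hol.dX F a y.1 z.2) (𝓝 z) (𝓝 0) := by
    refine NormedAddGroup.tendsto_nhds_zero.2 fun ε hε => ?_
    obtain ⟨δ, hδ, hδ'⟩ := exists_pos_mul_lt hε (2 / r * ‖a‖)
    filter_upwards [continuousAt_fst.eventually (ball_mem_nhds z.1 hr),
      continuousAt_snd.eventually (hO.mem_nhds hz.2),
      continuousAt_snd.eventually (unif hΩ hO h.cont hrΩ hz.2 hδ)] with y h2 h3 h4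
    have h5 : ball y.1 r ⊆ closedBall z.1 (2 * r) :=
      ball_subset_closedBall.trans (closedBall_subset_closedBall' (by
        have := mem_ball.1 h2
        linarith))
    have h6 := hΩ.mem_nhds (hrΩ (h5 (mem_ball_self hr)))
    have h7 := cauchy (((h.hol _ h3).sub (h.hol _ hz.2)).mono (h5.trans hrΩ)) hr
      (fun η hη => h4 η (h5 hη)) a
    rw [fderiv_sub ((h.hol _ h3).differentiableAt h6) ((h.hol _ hz.2).differentiableAt h6)] at h7
    refine lt_of_le_of_lt h7 (lt_of_eq_of_lt (by ring) hδ')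
  have h2 : ContinuousAt (fun y : E × V => Hol.dX F a y.1 z.2) z :=
    ((hol _ hz.2).differentiableAt (hΩ.mem_nhds hz.1)).continuousAt.comp continuousAt_fst
  have h3 := h1.add h2
  simp only [sub_add_cancel, zero_add] at h3
  exact h3

theorem P1.cV (h : P1 Ω O F) :
    ContinuousOn (uncurry fun ξ v => fderiv ℝ (F ξ) v) (Ω ×ˢ O) :=
  continuousOn_clm_apply.2 fun e => (h.pd e).cont

theorem P1.has (hΩ : IsOpen Ω) (hO : IsOpen O) (h : P1 Ω O F) {z : E × V} (hz : z ∈ Ω ×ˢ O) :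
    HasFDerivAt (uncurry F) (((fderiv ℂ (fun η => F η z.2) z.1).restrictScalars ℝ).coprod
      (fderiv ℝ (F z.1) z.2)) z := by
  have hn := (hΩ.prod hO).mem_nhds hz
  have h1 : ContinuousOn (uncurry fun ξ v => (fderiv ℂ (fun η => F η v) ξ).restrictScalars ℝ)
      (Ω ×ˢ O) := continuousOn_clm_apply.2 fun a => (h.p0.dX hΩ hO a).cont
  refine (hasStrictFDerivAt_uncurry_coprod (𝕜 := ℝ) (f := F)
    (f₁ := fun ξ v => (fderiv ℂ (fun η => F η v) ξ).restrictScalars ℝ)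
    (f₂ := fun ξ v => fderiv ℝ (F ξ) v) ?_ ?_ (h1.continuousAt hn)
    (h.cV.continuousAt hn)).hasFDerivAt
  · filter_upwards [hn] with y hy
    exact ((h.p0.hol _ hy.2).differentiableAt (hΩ.mem_nhds hy.1)).hasFDerivAt.restrictScalars ℝ
  · filter_upwards [hn] with y hy
    exact (h.dif _ hy.1 _ hy.2).hasFDerivAt

theorem P1.fd (hΩ : IsOpen Ω) (hO : IsOpen O) (h : P1 Ω O F) {z : E × V} (hz : z ∈ Ω ×ˢ O)
    (w : E × V) : fderiv ℝ (uncurry F) z w = dX F w.1 z.1 z.2 + dV F w.2 z.1 z.2 := by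
  rw [(h.has hΩ hO hz).fderiv]
  rfl

theorem P1.cd {n : ℕ} (hΩ : IsOpen Ω) (hO : IsOpen O) (h : P1 Ω O F)
    (h1 : ∀ a, ContDiffOn ℝ n (uncurry (dX F a)) (Ω ×ˢ O))
    (h2 : ∀ e, ContDiffOn ℝ n (uncurry (dV F e)) (Ω ×ˢ O)) :
    ContDiffOn ℝ (n + 1) (uncurry F) (Ω ×ˢ O) :=
  (contDiffOn_succ_iff_fderiv_of_isOpen (hΩ.prod hO)).2
    ⟨fun _ hz => (h.has hΩ hO hz).differentiableAt.differentiableWithinAt, by simp,
      contDiffOn_clm_apply.2 fun w => ((h1 w.1).add (h2 w.2)).congr fun _ hz => h.fd hΩ hO hz w⟩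

theorem P1.c1 (hΩ : IsOpen Ω) (hO : IsOpen O) (h : P1 Ω O F) :
    ContDiffOn ℝ (1 : ℕ) (uncurry F) (Ω ×ˢ O) := by
  simpa using h.cd (n := 0) hΩ hO (fun a => contDiffOn_zero.2 (h.p0.dX hΩ hO a).cont)
    fun e => contDiffOn_zero.2 (h.pd e).cont

theorem P1.exists_has (hΩ : IsOpen Ω) (hO : IsOpen O) (h : P1 Ω O F) (a : E) {ξ : E} (hξ : ξ ∈ Ω)
    {v : V} (hv : v ∈ O) :
    ∃ L : V →L[ℝ] ℂ, (∀ e, L e = dX (dV F e) a ξ v) ∧ HasFDerivAt (dX F a ξ) L v := by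
  have hd : ∀ e, DifferentiableAt ℂ (fun η => dV F e η v) ξ := fun e =>
    ((h.pd e).hol v hv).differentiableAt (hΩ.mem_nhds hξ)
  let L : V →ₗ[ℝ] ℂ :=
    { toFun := fun e => dX (dV F e) a ξ v
      map_add' := fun e e' => by
        simp only [dX, dV, map_add]
        exact DFunLike.congr_fun (fderiv_fun_add (hd e) (hd e')) a
      map_smul' := fun c e => by
        simp only [dX, dV, map_smul]
        exact DFunLike.congr_fun (fderiv_fun_const_smul (hd e) c) a }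
  refine ⟨LinearMap.toContinuousLinearMap L, fun _ => rfl, ?_⟩
  obtain ⟨r, hr, hrΩ⟩ := exists_cb hΩ hξ
  refine hasFDerivAt_iff_isLittleO.2 (Asymptotics.isLittleO_iff.2 fun ε hε => ?_)
  obtain ⟨δ, hδ, hδ'⟩ := exists_pos_mul_lt hε (2 / (2 * r) * ‖a‖)
  obtain ⟨s, hs, h1⟩ := Metric.eventually_nhds_iff_ball.1
    ((unif hΩ hO h.cV hrΩ hv hδ).and (hO.mem_nhds hv))
  filter_upwards [ball_mem_nhds v hs] with v' hv'
  have h2 : ball ξ (2 * r) ⊆ Ω := ball_subset_closedBall.trans hrΩ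
  have h3 := (h1 v' hv').2
  have h4 := cauchy (B := δ * ‖v' - v‖)
    ((((h.p0.hol _ h3).sub (h.p0.hol _ hv)).sub ((h.pd (v' - v)).hol v hv)).mono h2)
    (by positivity) (fun η hη => Convex.norm_image_sub_le_of_norm_hasFDerivWithin_le'
      (f := F η) (f' := fun u => fderiv ℝ (F η) u) (φ := fderiv ℝ (F η) v)
      (fun u hu => (h.dif η (h2 hη) u (h1 u hu).2).hasFDerivAt.hasFDerivWithinAt)
      (fun u hu => (h1 u hu).1 η (ball_subset_closedBall hη)) (convex_ball v s)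
      (mem_ball_self hs) hv') a
  have h5 := (h.p0.hol _ h3).differentiableAt (hΩ.mem_nhds hξ)
  have h6 := (h.p0.hol _ hv).differentiableAt (hΩ.mem_nhds hξ)
  rw [fderiv_sub (h5.sub h6) (hd _), fderiv_sub h5 h6] at h4
  refine le_trans h4 ?_
  calc 2 * (δ * ‖v' - v‖) / (2 * r) * ‖a‖ = 2 / (2 * r) * ‖a‖ * δ * ‖v' - v‖ := by ring
    _ ≤ ε * ‖v' - v‖ := mul_le_mul_of_nonneg_right hδ'.le (norm_nonneg _)

theorem P1.swap (hΩ : IsOpen Ω) (hO : IsOpen O) (h : P1 Ω O F) (a : E) (e : V) {ξ : E}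
    (hξ : ξ ∈ Ω) {v : V} (hv : v ∈ O) : dV (dX F a) e ξ v = dX (dV F e) a ξ v := by
  obtain ⟨L, h1, h2⟩ := h.exists_has hΩ hO a hξ hv
  rw [← h1, dV, h2.fderiv]

theorem P1.dX (hΩ : IsOpen Ω) (hO : IsOpen O) (h : P1 Ω O F) (a : E) : P1 Ω O (dX F a) :=
  ⟨h.p0.dX hΩ hO a, fun _ hξ _ hv => (h.exists_has hΩ hO a hξ hv).choose_spec.2.differentiableAt,
    fun e => ((h.pd e).dX hΩ hO a).congr fun _ hξ _ hv => h.swap hΩ hO a e hξ hv⟩

theorem dV_dV {ξ : E} {v : V} (h : ContDiffAt ℝ 2 (F ξ) v) (e e' : V) :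
    dV (dV F e) e' ξ v = fderiv ℝ (fderiv ℝ (F ξ)) v e' e := by
  have h1 := ((JB.of_cd h).d.has.clm_apply (hasFDerivAt_const e v)).fderiv
  change fderiv ℝ (fun u => fderiv ℝ (F ξ) u e) v e' = _
  rw [h1]
  simp

theorem jb_uncurry {c : E} {v : V} {ϱ B B' : ℝ} (h0 : 0 < ϱ) (h1 : ϱ ≤ 1) (hO : IsOpen O)
    (hv : v ∈ O) (f0 : ∀ u ∈ O, DifferentiableOn ℂ (fun ξ => F ξ u) (ball c ϱ))
    (f1 : ∀ u ∈ O, ∀ e, DifferentiableOn ℂ (fun ξ => fderiv ℝ (F ξ) u e) (ball c ϱ))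
    (f2 : ∀ u ∈ O, ∀ e e',
      DifferentiableOn ℂ (fun ξ => fderiv ℝ (fderiv ℝ (F ξ)) u e e') (ball c ϱ))
    (hB' : ∀ ξ ∈ ball c ϱ, ∀ u ∈ O, JB (F ξ) u B' B' B') (hB : ∀ ξ ∈ ball c ϱ, JB (F ξ) v B B B) :
    JB (uncurry F) (c, v) B (21 * B / ϱ) (21 * B / ϱ ^ 2) := by
  have hΩ : IsOpen (ball c ϱ) := isOpen_ball
  have hc := mem_ball_self (x := c) h0
  have hz : (c, v) ∈ ball c ϱ ×ˢ O := ⟨hc, hv⟩
  have hn := (hΩ.prod hO).mem_nhds hz
  have q1 : ∀ e, P0 (ball c ϱ) O (dV F e) := fun e => P0.of_bdd hΩ hO (fun u hu => f1 u hu e)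
    (fun ξ hξ u hu => (fderiv ℝ (F ξ) u).le_of_opNorm_le (hB' ξ hξ u hu).b1 e)
    fun ξ hξ u hu => (hB' ξ hξ u hu).d.cd.continuousAt.clm_apply continuousAt_const
  have p1 : P1 (ball c ϱ) O F := ⟨P0.of_bdd hΩ hO f0 (fun ξ hξ u hu => (hB' ξ hξ u hu).b0)
    fun ξ hξ u hu => (hB' ξ hξ u hu).cd.continuousAt,
    fun ξ hξ u hu => (hB' ξ hξ u hu).has.differentiableAt, q1⟩
  have p2 : ∀ e, P1 (ball c ϱ) O (dV F e) := fun e => ⟨q1 e,
    fun ξ hξ u hu => (hB' ξ hξ u hu).d.has.differentiableAt.clm_apply (differentiableAt_const e),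
    fun e' => (P0.of_bdd (F := fun ξ u => fderiv ℝ (fderiv ℝ (F ξ)) u e' e) hΩ hO
      (fun u hu => f2 u hu e' e)
      (fun ξ hξ u hu => ((fderiv ℝ (fderiv ℝ (F ξ)) u).le_opNorm₂ e' e).trans
        (mul_le_mul_of_nonneg_right (mul_le_mul_of_nonneg_right (hB' ξ hξ u hu).b2
          (norm_nonneg _)) (norm_nonneg _)))
      fun ξ hξ u hu => (((hB' ξ hξ u hu).d.cd.continuousAt_fderiv one_ne_zero).clm_apply
        continuousAt_const).clm_apply continuousAt_const).congr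
      fun ξ hξ u hu => dV_dV (hB' ξ hξ u hu).cd e e'⟩
  have hcd : ContDiffAt ℝ 2 (uncurry F) (c, v) := by
    have := (p1.cd hΩ hO (fun a => (p1.dX hΩ hO a).c1 hΩ hO) fun e => (p2 e).c1 hΩ hO).contDiffAt hn
    simpa [one_add_one_eq_two] using this
  have b0 := (hB c hc).n0
  have bV : ∀ e, ∀ ξ ∈ ball c ϱ, ‖dV F e ξ v‖ ≤ B * ‖e‖ := fun e ξ hξ =>
    (fderiv ℝ (F ξ) v).le_of_opNorm_le (hB ξ hξ).b1 e
  have bX : ∀ a, ∀ ξ ∈ ball c (ϱ / 2), ‖dX F a ξ v‖ ≤ 2 * B / (ϱ / 2) * ‖a‖ := fun a ξ hξ => by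
    have h2 : ball ξ (ϱ / 2) ⊆ ball c ϱ := ball_subset_ball' (by
      have := mem_ball.1 hξ
      linarith)
    exact cauchy ((f0 v hv).mono h2) (by positivity) (fun η hη => (hB η (h2 hη)).b0) a
  have bXV : ∀ a e, ‖dX (dV F e) a c v‖ ≤ 2 * (B * ‖e‖) / ϱ * ‖a‖ := fun a e =>
    cauchy (f1 v hv e) h0 (bV e) a
  have bXX : ∀ a a', ‖dX (dX F a') a c v‖ ≤ 2 * (2 * B / (ϱ / 2) * ‖a'‖) / (ϱ / 2) * ‖a‖ :=
    fun a a' => cauchy (((p1.p0.dX hΩ hO a').hol v hv).mono (ball_subset_ball (by linarith)))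
      (by positivity) (bX a') a
  obtain ⟨t, ht⟩ : ∃ t, t = 1 / ϱ := ⟨_, rfl⟩
  have t1 : 1 ≤ t := by rw [ht]; exact one_le_one_div h0 h1
  refine ⟨hcd, (hB c hc).b0, ContinuousLinearMap.opNorm_le_bound _ (by positivity) fun w => ?_,
    ContinuousLinearMap.opNorm_le_bound₂ _ (by positivity) fun w w' => ?_⟩
  · rw [p1.fd hΩ hO hz]
    refine (norm_add_le_of_le (bX w.1 c (mem_ball_self (by positivity))) (bV w.2 c hc)).trans ?_
    have e1 : 2 * B / (ϱ / 2) = 4 * (B * t) := by rw [ht]; field_simp; ring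
    have e2 : 21 * B / ϱ = 21 * (B * t) := by rw [ht]; field_simp
    have e3 : B ≤ B * t := le_mul_of_one_le_right b0 t1
    rw [e1, e2]
    have := norm_fst_le w
    have := norm_snd_le w
    nlinarith [norm_nonneg w.1, norm_nonneg w.2]
  · have e0 : (fun z => fderiv ℝ (uncurry F) z w') =ᶠ[𝓝 (c, v)]
        fun z => uncurry (dX F w'.1) z + uncurry (dV F w'.2) z :=
      mem_of_superset hn fun z hz => p1.fd hΩ hO hz w'
    have e1 := ((JB.of_cd hcd).d.has.clm_apply (hasFDerivAt_const w' (c, v))).fderiv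
    rw [e0.fderiv_eq, fderiv_fun_add ((p1.dX hΩ hO _).has hΩ hO hz).differentiableAt
      ((p2 _).has hΩ hO hz).differentiableAt] at e1
    have e2 := DFunLike.congr_fun e1 w
    simp only [add_apply, ContinuousLinearMap.comp_zero, zero_add,
      ContinuousLinearMap.flip_apply] at e2
    rw [← e2, (p1.dX hΩ hO _).fd hΩ hO hz, (p2 _).fd hΩ hO hz, p1.swap hΩ hO _ _ hc hv,
      dV_dV (hB c hc).cd]
    have e3 := ((fderiv ℝ (fderiv ℝ (F c)) v).le_opNorm₂ w.2 w'.2).trans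
      (mul_le_mul_of_nonneg_right (mul_le_mul_of_nonneg_right (hB c hc).b2 (norm_nonneg _))
        (norm_nonneg _))
    refine (norm_add_le_of_le (norm_add_le_of_le (bXX _ _) (bXV _ _))
      (norm_add_le_of_le (bXV _ _) e3)).trans ?_
    have m : ∀ {x y : ℝ}, 0 ≤ x → 0 ≤ y → x ≤ ‖w‖ → y ≤ ‖w'‖ → ∀ {k : ℝ}, 0 ≤ k → k ≤ t ^ 2 →
        B * k * (x * y) ≤ B * t ^ 2 * (‖w‖ * ‖w'‖) := fun hx hy h2 h3 k h4 h5 => by gcongr
    have m1 := m (norm_nonneg _) (norm_nonneg _) (norm_fst_le w) (norm_fst_le w')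
      (sq_nonneg t) le_rfl
    have m2 := m (norm_nonneg _) (norm_nonneg _) (norm_snd_le w) (norm_fst_le w')
      (k := t) (by linarith) (by nlinarith)
    have m3 := m (norm_nonneg _) (norm_nonneg _) (norm_fst_le w) (norm_snd_le w')
      (k := t) (by linarith) (by nlinarith)
    have m4 := m (norm_nonneg _) (norm_nonneg _) (norm_snd_le w) (norm_snd_le w')
      (k := 1) zero_le_one (by nlinarith)
    have hϱ : ϱ = 1 / t := by rw [ht, one_div_one_div]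
    have t0 : t ≠ 0 := by positivity
    rw [hϱ]
    field_simp
    nlinarith

theorem schwarz {E : Type*} [NormedAddCommGroup E] [NormedSpace ℂ E] {Ω : Set E} {f : E → ℂ}
    {ξ : E} {M θ : ℝ} (h0 : 0 < θ) (h1 : θ < 1) (hf : DifferentiableOn ℂ f Ω)
    (hΩ : ∀ t : ℂ, ‖t‖ < 1 / θ → t • ξ ∈ Ω) (hM : ∀ η ∈ Ω, ‖f η‖ ≤ M) (hz : f 0 = 0) :
    ‖f ξ‖ ≤ θ * M := by
  have h2 := Complex.dist_le_div_mul_dist_of_mapsTo_ball (f := fun t : ℂ => f (t • ξ)) (c := 0)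
    (z := 1) (R₁ := 1 / θ) (R₂ := M)
    (hf.comp (by fun_prop) fun t ht => hΩ t (mem_ball_zero_iff.1 ht))
    (fun t ht => by
      simpa [hz] using hM _ (hΩ t (mem_ball_zero_iff.1 ht)))
    (by simpa using (one_lt_inv₀ h0).2 h1)
  simpa [hz, mul_comm] using h2

end Hol

open Hol

theorem holStmt : HolStmt := by
  intro ι _
  refine ⟨21, by norm_num, fun U x v O ϱ B B' h0 h1 hO hJ hB' hB => ?_⟩
  have h2 := jb_uncurry (F := U) h0 h1 isOpen_interior (mem_interior_iff_mem_nhds.2 hO)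
    (fun u hu => (hJ u (interior_subset hu)).h0) (fun u hu => (hJ u (interior_subset hu)).h1)
    (fun u hu => (hJ u (interior_subset hu)).h2)
    (fun ξ hξ u hu => hB' ξ hξ u (interior_subset hu)) hB
  let L : (ι → ℝ) × R2 →L[ℝ] (ι → ℂ) × R2 :=
    (ContinuousLinearMap.pi fun i => Complex.ofRealCLM.comp (ContinuousLinearMap.proj i)).prodMap
      (ContinuousLinearMap.id ℝ R2)
  have hL : ‖L‖ ≤ 1 := ContinuousLinearMap.opNorm_le_bound _ zero_le_one fun z => by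
    change ‖(re2c z.1, z.2)‖ ≤ _
    simp [Prod.norm_def, Pi.norm_def, re2c]
  have h3 := (JB.comp (f := L) (x := (x, v)) h2 ((JB.clm L (x, v)).mono le_rfl hL le_rfl)).lin
    Complex.reCLM Complex.reCLM_norm.le
  simp only [one_mul, one_pow, mul_one, mul_zero, add_zero] at h3
  exact h3

theorem schwarzStmt : SchwarzStmt := by
  intro ι _ U Ω ξ v B θ h0 h1 hJ hΩ hB hz
  have hξ : ξ ∈ Ω := by simpa using hΩ 1 (by simpa using (one_lt_inv₀ h0).2 h1)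
  have b0 := (hB ξ hξ).n0
  have z := JB.zero hz
  refine ⟨(hB ξ hξ).cd, schwarz (f := fun η => U η v) h0 h1 hJ.h0 hΩ (fun η hη => (hB η hη).b0)
    hz.eq_of_nhds,
    ContinuousLinearMap.opNorm_le_bound _ (by positivity) fun e => ?_,
    ContinuousLinearMap.opNorm_le_bound₂ _ (by positivity) fun e e' => ?_⟩
  · refine (schwarz (f := fun η => fderiv ℝ (U η) v e) h0 h1 (hJ.h1 e) hΩ
      (fun η hη => (fderiv ℝ (U η) v).le_of_opNorm_le (hB η hη).b1 e)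
      (by rw [norm_le_zero_iff.1 z.b1]; rfl)).trans ?_
    nlinarith [mul_nonneg h0.le (mul_nonneg b0 (norm_nonneg e))]
  · refine (schwarz (f := fun η => fderiv ℝ (fderiv ℝ (U η)) v e e') h0 h1 (hJ.h2 e e') hΩ
      (fun η hη => ((fderiv ℝ (fderiv ℝ (U η)) v).le_opNorm₂ e e').trans
        (mul_le_mul_of_nonneg_right (mul_le_mul_of_nonneg_right (hB η hη).b2 (norm_nonneg _))
          (norm_nonneg _))) (by rw [norm_le_zero_iff.1 z.b2]; rfl)).trans ?_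
    nlinarith [mul_nonneg h0.le (mul_nonneg (mul_nonneg b0 (norm_nonneg e)) (norm_nonneg e'))]

end Vale.Agent.P218N.D6
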