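import Vale.Agent.P218N.D6.Ser0

/-! Block D6: the glued series is jointly `C²`. -/

open Set Filter Topology Metric

namespace Vale.Agent.P218N.D6

open Vale.Agent.P218F

set_option maxSynthPendingDepth 3
set_option linter.unusedSectionVars false

namespace Ser

theorem jb_lim {X Y : Type*} [NormedAddCommGroup X] [NormedSpace ℝ X] [NormedAddCommGroup Y]
    [NormedSpace ℝ Y] {f : X → Y} {z : X} {a : ℝ} {ε : ℕ → ℝ} (hε : Tendsto ε atTop (𝓝 0))
    (h : ∀ N, JB f z (a + ε N) (a + ε N) (a + ε N)) : JB f z a a a := by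
  have l : Tendsto (fun N => a + ε N) atTop (𝓝 a) := by simpa using hε.const_add a
  exact ⟨(h 0).cd, ge_of_tendsto' l fun N => (h N).b0, ge_of_tendsto' l fun N => (h N).b1,
    ge_of_tendsto' l fun N => (h N).b2⟩

/-- the jets of `f` are bounded by `t a` and its radial derivative by `t b` -/
structure QB (v e : R2) (s a b : ℝ) (f : R2 → ℝ) (t : ℝ) : Prop where
  jb : JB f v (t * a) (t * a) (t * a)
  rad : s * |fderiv ℝ f v e| ≤ t * b

theorem QB.add {v e : R2} {s a b t t' : ℝ} {f g : R2 → ℝ} (hs : 0 ≤ s) (hf : QB v e s a b f t)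
    (hg : QB v e s a b g t') : QB v e s a b (fun y => f y + g y) (t + t') := by
  refine ⟨by simpa only [add_mul] using hf.jb.add hg.jb, ?_⟩
  rw [(hf.jb.has.fun_add hg.jb.has).fderiv, add_apply]
  nlinarith [mul_le_mul_of_nonneg_left (abs_add_le (fderiv ℝ f v e) (fderiv ℝ g v e)) hs,
    hf.rad, hg.rad]

theorem QB.cmul {v e : R2} {s a b t : ℝ} {f : R2 → ℝ} (ht : 0 ≤ t) (hf : t ≠ 0 → QB v e s a b f 1) :
    QB v e s a b (fun y => t * f y) t := by
  rcases ht.eq_or_lt with rfl | ht'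
  · exact ⟨by simpa using JB.const (0 : ℝ) v, by simp⟩
  have h := hf ht'.ne'
  refine ⟨by simpa only [abs_of_nonneg ht, one_mul, smul_eq_mul] using h.jb.cmul t, ?_⟩
  rw [(h.jb.has.const_mul t).fderiv, smul_apply, smul_eq_mul, abs_mul,
    abs_of_nonneg ht]
  nlinarith [mul_le_mul_of_nonneg_left h.rad ht]

/-- summation by parts -/
theorem abel {v e : R2} {s a b : ℝ} (hs : 0 ≤ s) {w : ℕ → ℝ} {u : ℕ → R2 → ℝ} (w1 : w 0 = 1)
    (w0 : ∀ n, 0 ≤ w n) (hw : ∀ n, w (n + 1) ≤ w n) (hu : ∀ n, w n ≠ 0 → QB v e s a b (u n) 1)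
    (N : ℕ) : QB v e s a b
      (fun y => u 0 y + ∑ n ∈ Finset.range N, w (n + 1) * (u (n + 1) y - u n y)) 1 := by
  have key : ∀ N, QB v e s a b (fun y => u 0 y + ∑ n ∈ Finset.range N,
      w (n + 1) * (u (n + 1) y - u n y) - w N * u N y) (1 - w N) := fun N => by
    induction N with
    | zero => simpa [w1] using QB.cmul (f := u 0) (v := v) (e := e) le_rfl fun h => (h rfl).elim
    | succ N ih =>
      have h1 := ih.add hs (QB.cmul (sub_nonneg.2 (hw N)) fun h => hu N fun h' =>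
        h (by linarith [w0 (N + 1), hw N]))
      convert h1 using 1
      · funext y
        rw [Finset.sum_range_succ]
        ring
      · ring
  simpa using (key N).add hs (QB.cmul (w0 N) (hu N))

variable {ι : Type} [Fintype ι] [DecidableEq ι] {I : Finset ι} {c c' r κ C θ M : ℝ} {R R1 : ℕ}
  {x : ι → ℝ} {O : Set R2} {W : R2 → ℝ} {good : ℕ → R2 → Prop} {s : R2 → ℝ} {e : R2 → R2}
  {U : ℕ → (ι → ℂ) → R2 → ℂ} {v : R2}

/-- the bound for the terms -/
def TB (I : Finset ι) (c' r κ M : ℝ) (R1 : ℕ) (O : Set R2) (W : R2 → ℝ)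
    (U : ℕ → (ι → ℂ) → R2 → ℂ) : Prop :=
  ∀ R, R1 ≤ R → ∀ x, ‖x‖ ≤ r / 2 → ∀ v ∈ O, JB (tm I c' U R) (x, v) (M * bb κ R * W v ^ 8)
    (M * bb κ R * W v ^ 8) (M * bb κ R * W v ^ 8)

/-- the tails of the series -/
noncomputable def tail (I : Finset ι) (c' : ℝ) (R1 : ℕ) (U : ℕ → (ι → ℂ) → R2 → ℂ) (N : ℕ)
    (z : (ι → ℝ) × R2) : ℝ := ∑' n, tm I c' U (R1 + (n + N)) z

/-- the size of the tails -/
noncomputable def tt (κ : ℝ) (R1 N : ℕ) : ℝ := ∑' n, bb κ (R1 + (n + N))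

theorem tendsto_tt (M a : ℝ) : Tendsto (fun N => M * tt κ R1 N * a) atTop (𝓝 0) := by
  simpa [tt] using ((tendsto_sum_nat_add fun n => bb κ (R1 + n)).const_mul M).mul_const a

theorem summable_sh (hκ : 0 < κ) (N : ℕ) (M a : ℝ) :
    Summable fun n => M * bb κ (R1 + (n + N)) * a :=
  (((summable_bb hκ).comp_injective (i := fun n => R1 + (n + N)) fun _ _ h => by
    simpa using h).mul_left M).mul_right a

theorem ev_bound (h : SerIn I c r κ C R1 O W good s e U) (hM : TB I c' r κ M R1 O W U)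
    (M0 : 0 ≤ M) (hv : v ∈ O) : ∃ V ∈ 𝓝 v, ∀ R, R1 ≤ R → ∀ x, ‖x‖ ≤ r / 2 → ∀ v' ∈ V,
      JB (tm I c' U R) (x, v') (M * bb κ R * (W v + 1) ^ 8) (M * bb κ R * (W v + 1) ^ 8)
        (M * bb κ R * (W v + 1) ^ 8) := by
  have hO := h.op.mem_nhds hv
  refine ⟨O ∩ {v' | W v' < W v + 1}, inter_mem hO ((h.Wc.continuousAt hO).eventually
    (gt_mem_nhds (lt_add_one _))), fun R hR x hx v' hv' => ?_⟩
  have h1 := h.W1 v' hv'.1
  have h2 : W v' ≤ W v + 1 := le_of_lt hv'.2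
  have b0 : 0 ≤ bb κ R := bb_nonneg
  have : M * bb κ R * W v' ^ 8 ≤ M * bb κ R * (W v + 1) ^ 8 := by gcongr
  exact (hM R hR x hx v' hv'.1).mono this this this

theorem jb_tail (h : SerIn I c r κ C R1 O W good s e U) (hM : TB I c' r κ M R1 O W U)
    (M0 : 0 ≤ M) (hx : ‖x‖ < r / 2) (hv : v ∈ O) (N : ℕ) : JB (tail I c' R1 U N) (x, v)
      (M * tt κ R1 N * W v ^ 8) (M * tt κ R1 N * W v ^ 8) (M * tt κ R1 N * W v ^ 8) := by
  obtain ⟨V, hV, hb⟩ := ev_bound h hM M0 hv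
  have s1 := summable_sh (R1 := R1) h.κ0 N M (W v ^ 8)
  have := JB.tsum (g := fun n => tm I c' U (R1 + (n + N))) (x := (x, v))
    (prod_mem_nhds (isOpen_ball.mem_nhds (mem_ball_zero_iff.2 hx)) hV)
    (summable_sh h.κ0 N M ((W v + 1) ^ 8))
    (fun n y hy => hb _ (by omega) y.1 (mem_ball_zero_iff.1 hy.1).le y.2 hy.2) s1 s1 s1
    fun n => hM _ (by omega) x hx.le v hv
  rwa [tsum_mul_right, tsum_mul_left] at this

theorem split (h : SerIn I c r κ C R1 O W good s e U) (hM : TB I c' r κ M R1 O W U)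
    (hx : ‖x‖ ≤ r / 2) (hv : v ∈ O) (N : ℕ) : ser I c' R1 (fun R ξ => U R ξ v) x =
      ((U R1 (re2c x) v).re + ∑ n ∈ Finset.range N, tm I c' U (R1 + n) (x, v)) +
        tail I c' R1 U N (x, v) := by
  have s1 : Summable fun n => tm I c' U (R1 + n) (x, v) :=
    (summable_sh (R1 := R1) h.κ0 0 M (W v ^ 8)).of_norm_bounded fun n =>
      (hM _ (by omega) x hx v hv).b0
  rw [add_assoc, tail, s1.sum_add_tsum_nat_add N]
  rfl

theorem tele (hc : 0 < c') {N : ℕ} (hx : ∀ i ∈ I, |x i| * (R1 + N : ℕ) ≤ c' / 2) (v : R2) :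
    (U R1 (re2c x) v).re + ∑ n ∈ Finset.range N, tm I c' U (R1 + n) (x, v) =
      (U (R1 + N) (re2c x) v).re := by
  have := Finset.sum_range_sub (fun n => (U (R1 + n) (re2c x) v).re) N
  rw [Finset.sum_congr rfl (g := fun n => (U (R1 + (n + 1)) (re2c x) v).re -
    (U (R1 + n) (re2c x) v).re), this, add_zero, add_sub_cancel]
  intro n hn
  rw [tm, Th_one hc, one_mul, Complex.sub_re, add_assoc]
  intro i hi
  refine le_trans (mul_le_mul_of_nonneg_left ?_ (abs_nonneg _)) (hx i hi)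
  have := Finset.mem_range.1 hn
  exact_mod_cast (by omega : R1 + n + 1 ≤ R1 + N)

theorem jb_re {f : R2 → ℂ} {a0 a1 a2 : ℝ} (h : JB f v a0 a1 a2) :
    JB (fun y => (f y).re) v a0 a1 a2 := by
  simpa using h.lin Complex.reCLM Complex.reCLM_norm.le

theorem qb_U (hS : SchwarzStmt) (h : SerIn I c r κ C R1 O W good s e U) (hθ : 0 < θ)
    (hθ' : θ ≤ 1 / 2) (hR : R1 ≤ R) (hv : v ∈ O) (hx : ‖x‖ ≤ θ * r)
    (hx' : ∀ i ∈ I, |x i| * R ≤ θ * c) :
    QB v (e v) (s v) (4 * θ * C) C (fun y => (U R (re2c x) y).re) 1 := by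
  have hd : ∀ t : ℂ, ‖t‖ < 1 / θ → t • re2c x ∈ Dom I c r R := fun t ht =>
    smul_mem hθ (h.R11.trans hR) h.c0 h.r0 ht hx hx'
  have h1 : re2c x ∈ Dom I c r R := by
    simpa using hd 1 (by rw [norm_one, lt_div_iff₀ hθ]; linarith)
  have h2 := hS ι (U R) _ (re2c x) v C θ hθ (by linarith) (h.hol R hR v hv) hd
    (fun ξ hξ => h.jb R hR ξ hξ v hv)
    (mem_of_superset (h.op.mem_nhds hv) fun y hy => h.zero R hR y hy)
  have h3 := h2.n0
  refine ⟨(jb_re h2).mono (by linarith) (by linarith) (by linarith), ?_⟩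
  rw [one_mul, show fderiv ℝ (fun y => (U R (re2c x) y).re) v = _ from
    (Complex.reCLM.hasFDerivAt.comp v h2.has).fderiv]
  exact (mul_le_mul_of_nonneg_left (Complex.abs_re_le_norm _) (h.s0 v hv)).trans
    (h.rad R hR _ h1 v hv)

theorem qb_ser (hS : SchwarzStmt) (h : SerIn I c r κ C R1 O W good s e U) (hθ : 0 < θ)
    (hθ' : θ ≤ 1 / 2) (hM : TB I (θ * c) r κ M R1 O W U) (M0 : 0 ≤ M) (hv : v ∈ O)
    (hx : ‖x‖ < θ * r) (hx' : ∀ i ∈ I, |x i| * R1 ≤ θ * c) :
    QB v (e v) (s v) (4 * θ * C) C (fun y => ser I (θ * c) R1 (fun R ξ => U R ξ y) x) 1 := by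
  have hc := mul_pos hθ h.c0
  have hx2 : ‖x‖ < r / 2 := by nlinarith [h.r0]
  have h1 : ∀ N, QB v (e v) (s v) (4 * θ * C) C (fun y => (U R1 (re2c x) y).re +
      ∑ n ∈ Finset.range N, Th I (θ * c) (R1 + n) x * ((U (R1 + (n + 1)) (re2c x) y).re -
        (U (R1 + n) (re2c x) y).re)) 1 :=
    abel (h.s0 v hv) (w := fun n => Nat.casesOn n 1 fun n => Th I (θ * c) (R1 + n) x)
    (u := fun n y => (U (R1 + n) (re2c x) y).re) rfl
    (fun n => by cases n; exacts [zero_le_one, Th_nonneg])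
    (fun n => by cases n; exacts [Th_le_one, Th_anti hc]) fun n hn => by
      refine qb_U hS h hθ hθ' (Nat.le_add_right ..) hv hx.le ?_
      cases n with
      | zero => exact hx'
      | succ n => exact fun i hi => by simpa [add_assoc] using (Th_ne hc hn i hi).le
  have h2 := fun N => (jb_tail h hM M0 hx2 hv N).slice
  have e1 : ∀ N, (fun y => ser I (θ * c) R1 (fun R ξ => U R ξ y) x) =ᶠ[𝓝 v] fun y =>
      ((U R1 (re2c x) y).re + ∑ n ∈ Finset.range N, Th I (θ * c) (R1 + n) x *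
        ((U (R1 + (n + 1)) (re2c x) y).re - (U (R1 + n) (re2c x) y).re)) +
        tail I (θ * c) R1 U N (x, y) := fun N =>
    mem_of_superset (h.op.mem_nhds hv) fun y hy => split h hM hx2.le hy N
  refine ⟨jb_lim (tendsto_tt M _) fun N => ((h1 N).jb.add (h2 N)).congr (e1 N), ?_⟩
  have l : Tendsto (fun N => 1 * C + s v * (M * tt κ R1 N * W v ^ 8 * ‖e v‖)) atTop
      (𝓝 (1 * C)) := by
    simpa using (((tendsto_tt M (W v ^ 8)).mul_const ‖e v‖).const_mul (s v)).const_add (1 * C)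
  refine ge_of_tendsto' l fun N => ?_
  rw [(e1 N).fderiv_eq, ((h1 N).jb.has.fun_add (h2 N).has).fderiv, add_apply]
  refine (mul_le_mul_of_nonneg_left (abs_add_le _ _) (h.s0 v hv)).trans ?_
  rw [mul_add]
  exact add_le_add (h1 N).rad (mul_le_mul_of_nonneg_left
    (ContinuousLinearMap.le_of_opNorm_le _ (h2 N).b1 _) (h.s0 v hv))

theorem jb_near (h : SerIn I c r κ C R1 O W good s e U) (hc : 0 < c') (hc' : c' ≤ c) (hC : 0 ≤ C)
    (hM : TB I c' r κ M R1 O W U) (M0 : 0 ≤ M) (hv : v ∈ O) (hx : ‖x‖ ≤ r / 2) {N : ℕ}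
    (hg : good (R1 + N) v) {a : ℝ}
    (ha : a = C * (1 - Real.exp (-κ))⁻¹ * Real.exp (-(κ * (R1 + N : ℕ)))) :
    JB (fun y => tail I c' R1 U N (x, y)) v a a a := by
  obtain ⟨V, hV, hb⟩ := ev_bound h hM M0 hv
  have s1 : HasSum (fun n : ℕ => C * Real.exp (-(κ * (R1 + (n + N) : ℕ)))) a := by
    have := ((hasSum_geometric_of_lt_one (Real.exp_pos (-κ)).le (Real.exp_lt_one_iff.2
      (neg_lt_zero.2 h.κ0))).mul_left C).mul_right (Real.exp (-(κ * (R1 + N : ℕ))))
    rw [ha]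
    refine Eq.mp (congrArg (HasSum · _) (funext fun n => ?_)) this
    rw [mul_assoc, ← Real.exp_nat_mul, ← Real.exp_add]
    congr 2
    push_cast
    ring
  have g1 : ∀ n, good (R1 + (n + N)) v := fun n => by
    induction n with
    | zero => simpa using hg
    | succ n ih => simpa [add_assoc, add_comm, add_left_comm] using h.mono _ v hv ih
  have := JB.tsum (g := fun n y => tm I c' U (R1 + (n + N)) (x, y)) hV
    (summable_sh h.κ0 N M ((W v + 1) ^ 8)) (fun n y hy => (hb _ (by omega) x hx y hy).slice)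
    s1.summable s1.summable s1.summable fun n => by
      by_cases h0 : Th I c' (R1 + (n + N)) x = 0
      · exact (JB.zero (Eventually.of_forall fun y => by simp only [tm, h0, zero_mul])).mono
          (by positivity) (by positivity) (by positivity)
      have h1 : re2c x ∈ Dom I c r (R1 + (n + N) + 1) := ⟨by rw [norm_re2c]; linarith [h.r0],
        fun i hi => by
          rw [lt_div_iff₀ (by positivity)]
          simpa [re2c] using (Th_ne hc h0 i hi).trans_le hc'⟩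
      have h2 := (jb_re (h.step _ (by omega) _ h1 v hv (g1 n))).cmul (Th I c' (R1 + (n + N)) x)
      have h3 : |Th I c' (R1 + (n + N)) x| * (C * Real.exp (-(κ * (R1 + (n + N) : ℕ)))) ≤
          C * Real.exp (-(κ * (R1 + (n + N) : ℕ))) :=
        mul_le_of_le_one_left (by positivity) (by rw [abs_of_nonneg Th_nonneg]; exact Th_le_one)
      exact h2.mono h3 h3 h3
  rwa [s1.tsum_eq] at this

theorem der (h : SerIn I c r κ C R1 O W good s e U) (hc : 0 < c') (hM : TB I c' r κ M R1 O W U)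
    (M0 : 0 ≤ M) (hv : v ∈ O) (b : ι → ℝ) :
    Tendsto (fun R => (fderiv ℂ (fun ξ => U R ξ v) 0 (re2c b)).re) atTop
      (𝓝 (fderiv ℝ (fun x => ser I c' R1 (fun R ξ => U R ξ v) x) 0 b)) := by
  have r0 := h.r0
  rw [← tendsto_add_atTop_iff_nat R1, tendsto_iff_norm_sub_tendsto_zero]
  refine squeeze_zero (fun _ => norm_nonneg _) (fun N => ?_)
    (by simpa using (tendsto_tt (κ := κ) (R1 := R1) M (W v ^ 8)).mul_const ‖b‖)
  have h1 := (jb_tail (x := 0) h hM M0 (by simpa using r0) hv N).slice'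
  have p0 : 0 < min (r / 2) (c' / 2 / ((R1 + N : ℕ) + 1)) := by positivity
  have e1 : (fun x => ser I c' R1 (fun R ξ => U R ξ v) x) =ᶠ[𝓝 0] fun x =>
      (U (R1 + N) (re2c x) v).re + tail I c' R1 U N (x, v) := by
    filter_upwards [ball_mem_nhds 0 p0] with x hx
    rw [mem_ball_zero_iff, lt_min_iff, lt_div_iff₀ (a := ‖x‖) (b := c' / 2) (by positivity)] at hx
    rw [split h hM hx.1.le hv N, tele hc fun i _ => ?_]
    have : |x i| ≤ ‖x‖ := norm_le_pi_norm x i
    nlinarith [abs_nonneg (x i), hx.2, Nat.cast_nonneg (α := ℝ) (R1 + N)]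
  have hR : 1 ≤ R1 + N := h.R11.trans (Nat.le_add_right ..)
  have d1 : DifferentiableAt ℂ (fun ξ => U (R1 + N) ξ v) 0 := by
    refine (h.hol _ (Nat.le_add_right ..) v hv).h0.differentiableAt (mem_of_superset
      (ball_mem_nhds _ (ε := min (r / 2) (c / 2) / (R1 + N : ℕ)) (by have := h.c0; positivity)) ?_)
    rw [← re2c_zero]
    exact ball_sub hR (by have := h.c0; positivity) (min_le_left ..) (min_le_right ..)
      (by simpa using half_pos r0 |>.le) fun i _ => by simpa using (half_pos h.c0).le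
  let L : (ι → ℝ) →L[ℝ] (ι → ℂ) :=
    ContinuousLinearMap.pi fun i => Complex.ofRealCLM.comp (ContinuousLinearMap.proj i)
  have d2 := d1.hasFDerivAt.restrictScalars ℝ
  have d2 : HasFDerivAt (fun ξ => U (R1 + N) ξ v) _ (L 0) := (map_zero L).symm ▸ d2
  have d3 : HasFDerivAt (fun x => (U (R1 + N) (re2c x) v).re) _ 0 :=
    Complex.reCLM.hasFDerivAt.comp 0 (d2.comp 0 L.hasFDerivAt)
  rw [e1.fderiv_eq, (d3.fun_add h1.has).fderiv, add_comm N R1, add_apply]
  refine le_of_eq_of_le ?_ (ContinuousLinearMap.le_of_opNorm_le _ h1.b1 b)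
  rw [← norm_neg, neg_sub]
  congr 1
  exact add_sub_cancel_left _ _

end Ser

open Ser in
theorem serStmt : SerStmt := by
  intro hH hS ι _ _ I c r κ C θ R1 O W good s e U h hθ hθ'
  rcases O.eq_empty_or_nonempty with rfl | ⟨v0, hv0⟩
  · exact ⟨0, 1, le_rfl, one_pos, fun _ _ _ h => h.elim, fun _ _ _ h => h.elim,
      fun _ _ _ h => h.elim, fun _ _ _ h => h.elim, fun _ h => h.elim, fun _ h => h.elim⟩
  have c0 := h.c0
  have r0 := h.r0
  have hR1 : (1 : ℝ) ≤ R1 := by exact_mod_cast h.R11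
  have hC : 0 ≤ C := (h.jb R1 le_rfl 0 ⟨by simpa using r0, fun i _ => by
    simpa using div_pos c0 (one_pos.trans_le hR1)⟩ v0 hv0).n0
  obtain ⟨M, M0, hM⟩ := jb_tm hH h hθ hθ' hC
  obtain ⟨M', M0', hM'⟩ := jb_first hH h hC
  have hc : θ * c ≤ c / 2 := by nlinarith
  have t0 : 0 ≤ tt κ R1 0 := tsum_nonneg fun _ => bb_nonneg
  have k0 : 0 ≤ C * (1 - Real.exp (-κ))⁻¹ := mul_nonneg hC (inv_nonneg.2 (sub_nonneg.2
    (Real.exp_le_one_iff.2 (neg_nonpos.2 h.κ0.le))))
  have hδ : ∀ x : ι → ℝ, ‖x‖ < min (θ * r) (θ * c / R1) →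
      ‖x‖ < θ * r ∧ ‖x‖ < r / 2 ∧ ∀ i ∈ I, |x i| * R1 ≤ θ * c := fun x hx => by
    rw [lt_min_iff, lt_div_iff₀ (by positivity)] at hx
    exact ⟨hx.1, by nlinarith [hx.1], fun i _ => (mul_le_mul_of_nonneg_right
      (norm_le_pi_norm x i) (by positivity)).trans hx.2.le⟩
  refine ⟨M' + M * tt κ R1 0 + C * (1 - Real.exp (-κ))⁻¹, min (θ * r) (θ * c / R1), by positivity,
    by positivity, fun x hx v hv => ?_, fun x hx v hv => ?_, fun x hx v hv => ?_,
    fun x hx v hv R hR hx' hg => ?_, fun v hv => ?_, fun v hv b => der h (by positivity) hM M0 hv b⟩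
  · obtain ⟨-, h2, h3⟩ := hδ x hx
    have W8 : 1 ≤ W v ^ 8 := one_le_pow₀ (h.W1 v hv)
    have : M' + M * tt κ R1 0 * W v ^ 8 ≤
        (M' + M * tt κ R1 0 + C * (1 - Real.exp (-κ))⁻¹) * W v ^ 8 := by nlinarith
    refine (((hM' x h2.le (fun i hi => (h3 i hi).trans hc) v hv).add
      (jb_tail h hM M0 h2 hv 0)).mono this this this).congr (Eventually.of_forall fun z => rfl)
  · simpa only [one_mul] using (qb_ser hS h hθ hθ' hM M0 hv (hδ x hx).1 (hδ x hx).2.2).jb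
  · simpa only [one_mul] using (qb_ser hS h hθ hθ' hM M0 hv (hδ x hx).1 (hδ x hx).2.2).rad
  · obtain ⟨N, rfl⟩ := Nat.exists_eq_add_of_le hR
    have : C * (1 - Real.exp (-κ))⁻¹ * Real.exp (-(κ * (R1 + N : ℕ))) ≤
        (M' + M * tt κ R1 0 + C * (1 - Real.exp (-κ))⁻¹) * Real.exp (-(κ * (R1 + N : ℕ))) := by
      gcongr
      exact le_add_of_nonneg_left (by positivity)
    refine ((jb_near h (by positivity) (by linarith) hC hM M0 hv (hδ x hx).2.1.le hg rfl).mono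
      this this this).congr (mem_of_superset (h.op.mem_nhds hv) fun y hy => ?_)
    change _ - _ = _
    rw [split h hM (hδ x hx).2.1.le hy N, tele (by positivity) hx', add_sub_cancel_left]
  · have z1 : ∀ n, U (R1 + n) 0 v = 0 := fun n => h.zero _ (Nat.le_add_right ..) v hv
    simp [ser, re2c_zero, z1, add_assoc, h.zero R1 le_rfl v hv]

end Vale.Agent.P218N.D6
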