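import Vale.Agent.P218N.D6.Rot
import Vale.Agent.P218N.D6.Frz
import Vale.Agent.P218N.D6.Ser
import Vale.Agent.P218N.D6.Hol

/-! Block D6: from the truncations to the glued data. -/

open MeasureTheory Set Filter Topology Metric
open scoped RealInnerProductSpace ContDiff

namespace Vale.Agent.P218N.D6

open Vale.Agent.P218.H313 Vale.Agent.P218N.H Vale.Agent.P218N.G Vale.Agent.P218F

set_option linter.unusedSectionVars false
set_option maxSynthPendingDepth 3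

theorem ar_congr {X X' : R2 → E3} {v : R2} (e : X =ᶠ[𝓝 v] X') : ar X v = ar X' v := by
  rw [ar, ar, e.fderiv_eq]

theorem Mc_congr {X X' : R2 → E3} {v : R2} (e : X =ᶠ[𝓝 v] X') : Mc X v = Mc X' v := by
  rw [Mc, Mc, e.fderiv_eq, e.eq_of_nhds, e.fderiv.fderiv_eq]

variable {ι J : Type} [Fintype ι] [DecidableEq ι] [Fintype J] {w : E3 → ℝ} {D : EndData w}
  {n : E3 → E3} {κ : Type} {ψ : κ → R2 → E3} {U : κ → Set R2} {s1 : ℝ} {σ : E3 → ℝ}
  {χ : Fin D.b → E3 → ℝ} {G : Fin D.b → ℝ × (ι → ℝ) → E3 →L[ℝ] E3} {I : Finset ι}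
  {c r κ' C A : ℝ} {q R0 : ℕ} {u : ℕ → (ι → ℂ) → E3 → ℂ} {lam : ℕ → (ι → ℂ) → J → ℂ}
  {F : ℕ → (ι → ℂ) → ℂ} {Ψ : J → E3 → ℝ} {lag : ℕ → (ι → ℝ) → E3 → ℝ}

theorem Adm.dom {c c' r : ℝ} {R1 R : ℕ} {x : ι → ℝ} (h : Adm I c R1 x R) (h1 : 1 ≤ R1)
    (hc : c < c') (hx : ‖x‖ < r) : re2c x ∈ Dom I c' r R :=
  ⟨by rwa [Ser.norm_re2c], fun i hi => by
    rw [lt_div_iff₀ (by exact_mod_cast h1.trans h.1)]
    simpa [re2c] using (h.2 i hi).trans_lt hc⟩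

theorem Adapt.chart {s2 Rb : ℝ} {K0 : Type} [Fintype K0] {idx : K0 → En D ⊕ κ}
    {𝒜 : Atlas w n (En D ⊕ K0)} (h : Adapt D ψ U s1 s2 Rb idx 𝒜) :
    ∀ k, ∃ j, 𝒜.φ k = chφ D ψ j ∧ 𝒜.O k ⊆ chO D U s1 j
  | .inl e => ⟨.inl e, h.eφ e, fun v hv => h.s12.trans_lt (by rwa [h.eO] at hv)⟩
  | .inr k => ⟨idx k, h.kφ k, h.kO k⟩

namespace Red

variable (h : Red D n ψ U s1 σ χ G I c r κ' C A q R0 u lam F Ψ lag)
include h

theorem C0 : 0 ≤ C :=
  nonneg_of_mul_nonneg_left ((norm_nonneg _).trans (h.lzero R0 le_rfl)) (Real.exp_pos _)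

theorem zero_mem {R : ℕ} (hR : R0 ≤ R) : (0 : ι → ℂ) ∈ Dom I c r R :=
  ⟨by simpa using h.r0, fun i _ => by
    simpa using div_pos h.c0 (by exact_mod_cast h.R01.trans hR)⟩

theorem lam_bdd : ∃ B, ∀ R, R0 ≤ R → ∀ ξ ∈ Dom I c r R, ‖lam R ξ‖ ≤ B := by
  have a0 := (Real.exp_pos (-κ')).le
  have a1 := summable_geometric_of_lt_one a0 (Real.exp_lt_one_iff.2 (neg_lt_zero.2 h.κ0))
  refine ⟨C + C * ∑' m, Real.exp (-κ') ^ m, fun R hR ξ hξ => le_trans (b := C + C *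
    ∑ m ∈ Finset.range R, Real.exp (-κ') ^ m) ?_ (by
      gcongr
      exacts [h.C0, a1.sum_le_tsum _ fun _ _ => by positivity])⟩
  induction R, hR using Nat.le_induction with
  | base => exact (h.lb ξ hξ).trans (le_add_of_nonneg_right (by have := h.C0; positivity))
  | succ R hR ih =>
    have a2 := h.lstep R hR ξ hξ
    rw [← neg_mul, mul_comm (-κ'), Real.exp_nat_mul] at a2
    rw [Finset.sum_range_succ]
    linarith [norm_le_norm_add_norm_sub' (lam (R + 1) ξ) (lam R ξ),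
      ih (Ser.dom_succ h.c0 (h.R01.trans hR) hξ)]

/-- the glued multipliers -/
theorem exists_L {θ : ℝ} (h0 : 0 < θ) (h1 : θ ≤ 1 / 2) : ∃ (L : (ι → ℝ) → J → ℝ) (C' δ : ℝ),
    0 ≤ C' ∧ 0 < δ ∧ ∀ x, ‖x‖ < δ → ‖L x‖ ≤ C' * ‖x‖ ∧ ∀ R, Adm I (θ * c / 2) R0 x R →
      ‖L x - reL (lam R (re2c x))‖ ≤ C' * Real.exp (-(κ' * R)) := by
  obtain ⟨B, hB⟩ := h.lam_bdd
  have hC := h.C0
  have B0 := (norm_nonneg _).trans (hB R0 le_rfl 0 (h.zero_mem le_rfl))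
  have a1 : ∀ j, SerIn I c r κ' (2 * B + 2 * C) R0 univ (fun _ => 1) (fun _ _ => True)
      (fun _ => 0) (fun _ => 0) fun R ξ _ => lam R ξ j - lam R 0 j := fun j =>
    ⟨h.c0, h.r0, h.κ0, h.R01, isOpen_univ, fun _ _ => le_rfl, continuousOn_const, fun _ _ => le_rfl,
      fun _ _ _ _ a => (a trivial).elim, fun _ _ _ _ => trivial, fun R hR v _ =>
      ⟨(differentiableOn_pi.1 (h.lhol R hR) j).sub_const _, fun _ => by simp, fun _ _ => by simp⟩,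
      fun R hR ξ hξ v _ => (JB.const _ v).mono ((norm_sub_le_of_le ((norm_le_pi_norm _ j).trans
        (hB R hR ξ hξ)) ((norm_le_pi_norm _ j).trans (hB R hR 0 (h.zero_mem hR)))).trans
        (by linarith)) (by linarith) (by linarith), fun _ _ _ _ _ _ => by simp; linarith,
      fun R hR ξ hξ v _ _ => (JB.const _ v).mono (by
        have a2 := (norm_le_pi_norm _ j).trans (h.lstep R hR ξ hξ)
        have a3 := (norm_le_pi_norm _ j).trans (h.lstep R hR 0 (h.zero_mem (by omega)))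
        rw [sub_sub_sub_comm]
        refine (norm_sub_le_of_le a2 a3).trans ?_
        nlinarith [Real.exp_pos (-(κ' * R))]) (by positivity) (by positivity),
      fun _ _ _ _ => sub_self _⟩
  choose c2 d c20 d0 o using fun j => serStmt holStmt schwarzStmt ι I c r κ' _ θ _ _ _ _ _ _ _
    (a1 j) h0 h1
  obtain ⟨C2, b1, b2⟩ := exists_unif c2
  obtain ⟨δ, δ0, b3⟩ := ((eventually_mem_nhdsWithin (a := (0 : ℝ)) (s := Ioi 0)).and
    (eventually_all.2 fun j => Ioc_mem_nhdsGT (d0 j))).exists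
  refine ⟨fun x j => ser I (θ * c) R0 (fun R ξ => lam R ξ j - lam R 0 j) x, C2 + C, δ,
    by linarith, δ0, fun x hx => ⟨(pi_norm_le_iff_of_nonneg (by positivity)).2 fun j => ?_,
    fun R hR => (pi_norm_le_iff_of_nonneg (by positivity)).2 fun j => ?_⟩⟩
  · have a2 := (JB.lip (convex_ball 0 δ) (fun y hy => ((o j).joint y ((mem_ball_zero_iff.1
      hy).trans_le (b3 j).2) 0 trivial).slice') (mem_ball_zero_iff.2 hx) (mem_ball_self δ0)).1
    rw [(o j).zero 0 trivial, sub_zero, sub_zero] at a2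
    exact a2.trans (mul_le_mul_of_nonneg_right (by linarith [b2 j]) (norm_nonneg _))
  · have a2 := ((o j).near x (hx.trans_le (b3 j).2) 0 trivial R hR.1 hR.2 trivial).b0
    have a3 := (Complex.abs_re_le_norm _).trans ((norm_le_pi_norm _ j).trans (h.lzero R hR.1))
    rw [Complex.sub_re, ← sub_add, Real.norm_eq_abs] at a2
    have a4 := mul_le_mul_of_nonneg_right (b2 j) (Real.exp_pos (-(κ' * R))).le
    rw [Pi.sub_apply, reL, Real.norm_eq_abs, abs_le] at *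
    constructor <;> linarith

theorem exists_ctx : ∃ (K : Type) (_ : Fintype K) (𝒜 : Atlas w n K) (T : (ι → ℝ) → E3 → ℝ)
    (Rm : (ι → ℝ) → E3 → E3 →L[ℝ] E3) (L : (ι → ℝ) → J → ℝ) (ε δ M c' κ1 C' f0 θ : ℝ) (N R1 : ℕ),
    Mid 𝒜 T Rm ε δ M 8 ∧ Lin 𝒜 T Rm Ψ ∧
    Ctx 𝒜 T Rm L σ I c' κ1 C' A δ f0 θ q N R1 (fun R x p => (u R (re2c x) p).re)
      (fun R x => reL (lam R (re2c x))) (fun R x => (F R (re2c x)).re) Ψ lag := by
  obtain ⟨s2, Rb, K0, _, idx, 𝒜, ad⟩ := atlasStmt w D n κ ψ U s1 h.shr h.geo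
  obtain ⟨R1, C1, uf, r1, si, fr⟩ := frzStmt ι J w D n κ ψ U s1 σ χ G I c r κ' C A q R0 u lam F Ψ
    lag s2 Rb K0 idx 𝒜 h ad
  obtain ⟨f0, θ', Cc, ρ, κ2, N, t0, t1, c0, ρ0, k2, lim, con⟩ := h.concl
  have hC := h.C0
  have hc := h.c0
  have hρ := 𝒜.cρ1
  have hA := 𝒜.C1
  set B := Fintype.card (En D ⊕ K0) * (144 * 𝒜.C ^ 4 * 𝒜.cρ * (4 * 𝒜.C))
  have B0 : 0 ≤ B := by positivity
  obtain ⟨ε, ε0, ε1⟩ : ∃ ε : ℝ, 0 < ε ∧ ε * (16 * (B + 1)) = 1 :=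
    ⟨1 / (16 * (B + 1)), by positivity, by field_simp⟩
  obtain ⟨θ, θ0, θ1, θ2⟩ : ∃ θ : ℝ, 0 < θ ∧ θ ≤ 1 / 2 ∧ 4 * θ * C1 ≤ ε :=
    ⟨min (1 / 2) (ε / (4 * (|C1| + 1))), by positivity, min_le_left _ _, by
      have a1 := (le_div_iff₀ (by positivity)).1 (min_le_right (1 / 2) (ε / (4 * (|C1| + 1))))
      have a2 : 0 < min (1 / 2) (ε / (4 * (|C1| + 1))) := by positivity
      nlinarith [le_abs_self C1]⟩
  choose c2 d c20 d0 o using fun k => serStmt holStmt schwarzStmt ι I c r κ' _ θ _ _ _ _ _ _ _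
    (si k) θ0 θ1
  obtain ⟨C2, b1, b2⟩ := exists_unif c2
  obtain ⟨L, CL, dL, l0, l1, l2⟩ := h.exists_L θ0 θ1
  obtain ⟨Rm, dR, MR, m0, m1, m2, m3, m4, m5, m6⟩ := rotStmt ι w D n κ ψ U s1 χ G r s2 Rb K0 idx 𝒜
    ε h.r0 ε0 h.χs h.χe h.Gs h.G0 ad
  obtain ⟨δ, δ0, b3, b4, b5, b6, b7⟩ := ((eventually_mem_nhdsWithin (a := (0 : ℝ))
    (s := Ioi 0)).and ((eventually_all.2 fun k => Ioc_mem_nhdsGT (d0 k)).and (Eventually.and
    (Ioc_mem_nhdsGT l1) (Eventually.and (Ioc_mem_nhdsGT m0) (Eventually.and (Ioc_mem_nhdsGT ρ0)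
    (Ioc_mem_nhdsGT (half_pos h.r0))))))).exists
  have hr := h.r0
  have ex : ∀ R : ℕ, Real.exp (-(κ' * R)) ≤ Real.exp (-(min κ' κ2 * R)) ∧
      Real.exp (-(κ2 * R)) ≤ Real.exp (-(min κ' κ2 * R)) := fun R => by
    constructor <;> gcongr
    exacts [min_le_left _ _, min_le_right _ _]
  have dm : ∀ {x : ι → ℝ} {R : ℕ}, ‖x‖ < δ → Adm I (θ * c / 2) R1 x R → R0 ≤ R ∧
      re2c x ∈ Dom I c r R ∧ re2c x ∈ Dom I (c / 2) (r / 2) R ∧ re2c x ∈ Dom I (c / 2) ρ R :=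
    fun hx a => ⟨r1.trans a.1, a.dom (h.R01.trans r1) (by nlinarith) (by linarith [b7.2]),
      a.dom (h.R01.trans r1) (by nlinarith) (hx.trans_le b7.2),
      a.dom (h.R01.trans r1) (by nlinarith) (hx.trans_le b6.2)⟩
  have hf : ∀ {R : ℕ} {p : E3}, σ p < R / 4 → σ p < R / 2 := fun {R} _ a => by
    linarith [Nat.cast_nonneg (α := ℝ) R]
  have xr : ∀ R x k, ∀ v ∈ 𝒜.O k, (fun v => XR n (Rm x) (fun p => (u R (re2c x) p).re) (𝒜.φ k v))
      =ᶠ[𝓝 v] fun v => defX n (rotF G χ x) (u R (re2c x)) (𝒜.φ k v) := fun R x k v hv =>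
    (Atlas.mem_ev hv).mono fun y hy => by
      simp only [XR, defX, m6 x _ hy, add_apply, ContinuousLinearMap.id_apply]
  set C' := C + C2 + CL + Cc * (C * CL + C + 1)
  have e0 : 0 ≤ Cc * (C * CL + C + 1) := by positivity
  have e1 : ∀ R : ℕ, ∀ a, 0 ≤ a → a ≤ C' →
      a * Real.exp (-(κ' * R)) ≤ C' * Real.exp (-(min κ' κ2 * R)) := fun R a _ a1 =>
    mul_le_mul a1 (ex R).1 (Real.exp_pos _).le (by positivity)
  have nL : ∀ x, ‖x‖ < δ → ∀ R, Adm I (θ * c / 2) R1 x R →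
      ‖L x - reL (lam R (re2c x))‖ ≤ CL * Real.exp (-(κ' * R)) := fun x hx R a =>
    (l2 x (hx.trans_le b4.2)).2 R ⟨r1.trans a.1, a.2⟩
  refine ⟨_, inferInstance, 𝒜, fun x p => ser I (θ * c) R1 (fun R ξ => uf R ξ p) x, Rm, L, ε, δ,
    C2 * 2 ^ 8 + |C1| + MR, θ * c / 2, min κ' κ2, C', f0, θ', N, R1, ⟨δ0,
    by nlinarith [abs_nonneg C1], ε0.le, by nlinarith, by nlinarith, fun x hx k v hv => ?_,
    fun x hx k v hv => ((o k).small x (hx.trans_le (b3 k).2) v hv).mono θ2 θ2 θ2,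
    fun x hx k v hv => ((o k).rad x (hx.trans_le (b3 k).2) v hv).trans
      (by nlinarith [le_abs_self C1]), fun k => (o k).zero, fun x hx y => ?_, fun x hx y =>
    (m3 x (hx.trans_le b5.2) y).mono le_rfl le_rfl (by gcongr; nlinarith [abs_nonneg C1]), m4,
    fun x hx => m5 x (hx.trans_le b5.2)⟩, ⟨h.shr, h.geo.npos, fun b hb => h.inj b fun p hp => ?_,
    h.indep, h.card, fun W c' K a1 a2 a3 f a4 a5 => ?_⟩, by positivity, lt_min h.κ0 k2,
    by positivity, h.A0, t0, t1, h.σc, h.geo.nsm.continuous, h.Ψc, h.Ψs,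
    fun R hR p hp => (fr R hR p hp).2, fun x hx => (l2 x (hx.trans_le b4.2)).1.trans
      (mul_le_mul_of_nonneg_right (by linarith) (norm_nonneg _)),
    fun x hx R a => (nL x hx R a).trans (e1 R _ l0 (by linarith)), fun x hx R a k v hv hs => ?_,
    fun x hx R a k v hv hs => ?_, fun x hx R a k v hv hs => ?_,
    fun x hx R a => (h.area R (dm hx a).1 x (dm hx a).2.1).trans (e1 R _ hC (by linarith)),
    by simpa [Ser.re2c_zero, Function.comp_def] using (Complex.continuous_re.tendsto _).comp lim,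
    fun x hx R a => ?_⟩
  · have a1 : c2 k * (2 * (1 + ‖𝒜.φ k v‖)) ^ 8 ≤ (C2 * 2 ^ 8 + |C1| + MR) * (1 + ‖𝒜.φ k v‖) ^ 8 := by
      rw [mul_pow, ← mul_assoc]
      gcongr
      linarith [b2 k, abs_nonneg C1]
    exact ((o k).joint x (hx.trans_le (b3 k).2) v hv).mono a1 a1 a1
  · have a1 : MR ≤ C2 * 2 ^ 8 + |C1| + MR := by nlinarith [abs_nonneg C1]
    exact (m2 x (hx.trans_le b5.2) y).mono a1 a1 a1
  · obtain ⟨k, v, hv, rfl⟩ := 𝒜.exists_chart hp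
    have a1 := (((o k).der v hv b).mul_const ⟪n (𝒜.φ k v), grad w (𝒜.φ k v)⟫).add_const
      ⟪fderiv ℝ (fun x => Rm x (𝒜.φ k v)) 0 b (𝒜.φ k v), grad w (𝒜.φ k v)⟫
    rw [hb _ hp] at a1
    refine a1.congr' ?_
    filter_upwards [eventually_ge_atTop R1, (tendsto_natCast_atTop_atTop.atTop_div_const
      (by norm_num : (0 : ℝ) < 4)).eventually_gt_atTop (σ (𝒜.φ k v))] with R a2 a3
    simp only [(fr R a2 _ hp).1 a3, m6 _ _ hp, fderiv_sub_const, fderiv_const_add]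
  · obtain ⟨g, μ, C3, q3, g1, g2⟩ := h.solv W c' K a1 a2 a3 f a4 a5
    refine ⟨g, μ, C3, q3, fun k v hv => ?_, g2⟩
    obtain ⟨j, e, s⟩ := ad.chart k
    exact e ▸ g1 j v (s hv)
  · obtain ⟨j, e, s⟩ := ad.chart k
    have a1 := Ser.jb_re (e ▸ h.zero R (dm hx a).1 j v (s hv) (hf (e ▸ hs)))
    have a2 : c2 k * Real.exp (-(κ' * R)) + C * Real.exp (-(κ' * R)) ≤ _ :=
      (add_mul ..).symm.trans_le (e1 R _ (by linarith [c20 k]) (by linarith [b2 k]))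
    refine ((((o k).near x (hx.trans_le (b3 k).2) v hv R a.1 a.2 hs).sub a1).congr ?_).mono a2 a2 a2
    filter_upwards [Atlas.mem_ev hv, (h.σc.continuousAt.comp (𝒜.jφ k v hv).cd.continuousAt).eventually
      (gt_mem_nhds hs)] with y y1 y2
    rw [(fr R a.1 _ y1).1 y2, Complex.sub_re]
    ring
  · obtain ⟨j, e, s⟩ := ad.chart k
    rw [Mc_congr (xr R x k v hv)]
    refine (e ▸ h.eq R (dm hx a).1 x (dm hx a).2.1 j v (s hv) (hf (e ▸ hs))).trans ?_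
    gcongr
    linarith
  · obtain ⟨j, e, s⟩ := ad.chart k
    rw [ar_congr (xr R x k v hv), (xr R x k v hv).eq_of_nhds]
    exact e ▸ h.lagc R (dm hx a).1 x (dm hx a).2.1 j v (s hv) (hf (e ▸ hs))
  · have a1 := h.dF R (dm hx a).1 x (dm hx a).2.2.1
    have a2 := (norm_le_norm_add_norm_sub (L x) _).trans (add_le_add_right (nL x hx R a) _)
    have a3 := (Real.exp_pos (-(κ' * R))).le
    have a4 : Cc * (‖fderiv ℂ (F R) (re2c x)‖ + Real.exp (-(κ2 * R))) ≤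
        C' * (‖L x‖ + Real.exp (-(min κ' κ2 * R))) := by
      have a5 := mul_le_mul_of_nonneg_left a2 hC
      have a6 := mul_le_mul_of_nonneg_left (ex R).1 (show 0 ≤ C * CL + C by positivity)
      have a7 := mul_nonneg (show 0 ≤ C * CL + 1 by positivity) (norm_nonneg (L x))
      refine (mul_le_mul_of_nonneg_left (show _ ≤ (C * CL + C + 1) * (‖L x‖ +
        Real.exp (-(min κ' κ2 * R))) by linarith [(ex R).2]) c0.le).trans ?_
      rw [← mul_assoc]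
      gcongr
      linarith
    obtain ⟨a5, a6⟩ := con R (dm hx a).1 x (dm hx a).2.2.2
    refine ⟨fun i hi => (a5 i hi).trans a4, le_trans (Real.rpow_le_rpow (abs_nonneg _) ?_
      (by linarith)) (a6.trans a4)⟩
    simpa using Complex.abs_re_le_norm (F R (re2c x) - f0)

end Red

end Vale.Agent.P218N.D6
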