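import Vale.Agent.P218N.D6.Jet
import Vale.Agent.P218N.Defs
import Vale.Agent.P218N.G.Model
import Vale.Agent.P218GA.Jac
import Vale.Agent.P218F.Defs

/-! Block D6: definitions, the input `Red`, and the statements of the independent parts. -/

open MeasureTheory Set Filter Topology Metric
open scoped RealInnerProductSpace ContDiff

namespace Vale.Agent.P218N.D6

open Vale.Agent.P218 Vale.Agent.P218.H313 Vale.Agent.P218N.H Vale.Agent.P218N.G Vale.Agent.P218F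
  Vale.Agent.P218GA

set_option maxSynthPendingDepth 3

/-- the parameter plane -/
abbrev R2 := ℝ × ℝ

/-- A finite family of parametrisations `φ k` of `S = {w = 0}` with uniform geometry at the scale
`sc`, such that `(v, t) ↦ φ v + t n (φ v)` parametrises a neighbourhood of the piece. -/
structure Atlas (w : E3 → ℝ) (n : E3 → E3) (K : Type) [Fintype K] where
  φ : K → R2 → E3
  O : K → Set R2
  A : K → Set R2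
  B : K → Set R2
  sc : K → R2 → ℝ
  xi : K → R2 → R2
  β : K → E3 → ℝ
  C : ℝ
  τ : ℝ
  C1 : 1 ≤ C
  τ0 : 0 < τ
  op : ∀ k, IsOpen (O k)
  AO : ∀ k, A k ⊆ O k
  mem : ∀ k, ∀ v ∈ O k, w (φ k v) = 0
  sc1 : ∀ k, ∀ v ∈ O k, 1 ≤ sc k v
  scle : ∀ k, ∀ v ∈ O k, sc k v ≤ C * (1 + ‖φ k v‖)
  sceq : ∀ k, ∀ v ∈ O k, ∀ v' ∈ O k, φ k v = φ k v' → sc k v = sc k v'
  jsc : ∀ k, ∀ v ∈ O k, JB (sc k) v (C * sc k v) (C * sc k v) (C * sc k v)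
  jφ : ∀ k, ∀ v ∈ O k, JB (φ k) v ‖φ k v‖ (C * sc k v) (C * sc k v)
  jn : ∀ k, ∀ v ∈ O k, JB (fun v => n (φ k v)) v (C * sc k v) (C * sc k v) (C * sc k v)
  low : ∀ k, ∀ v ∈ O k, ∀ (u : R2) (t : ℝ),
    sc k v * ‖(u, t)‖ ≤ C * ‖fderiv ℝ (φ k) v u + t • n (φ k v)‖
  sign : ∀ k, ∀ v ∈ O k, ∀ t : ℝ, |t| < τ →
    (0 < t → 0 < w (φ k v + t • n (φ k v))) ∧ (t < 0 → w (φ k v + t • n (φ k v)) < 0)
  inj : ∀ k, ∀ v ∈ O k, ∀ v' ∈ O k, ∀ t t' : ℝ, |t| < τ → |t'| < τ →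
    φ k v + t • n (φ k v) = φ k v' + t' • n (φ k v') → φ k v = φ k v'
  closed : ∀ k, ∀ τ' < τ, IsClosed {y | ∃ v ∈ A k, ∃ t : ℝ, |t| ≤ τ' ∧ y = φ k v + t • n (φ k v)}
  β0 : ∀ k p, 0 ≤ β k p
  jβ : ∀ k, ∀ v ∈ O k, JB (fun v => β k (φ k v)) v C C C
  βA : ∀ k, ∀ v ∈ O k, v ∉ A k → β k (φ k v) = 0
  βO : ∀ k p, w p = 0 → β k p ≠ 0 → ∃ v ∈ O k, φ k v = p
  βsum : ∀ p, w p = 0 → ∑ k, β k p = 1
  Bm : ∀ k, MeasurableSet (B k)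
  BO : ∀ k, B k ⊆ O k
  Binj : ∀ k, InjOn (φ k) (B k)
  Bim : ∀ k, ∀ v ∈ O k, ∃ v' ∈ B k, φ k v' = φ k v
  radφ : ∀ k, ∀ v ∈ O k, ‖φ k v - fderiv ℝ (φ k) v (xi k v)‖ ≤ C
  radn : ∀ k, ∀ v ∈ O k, ‖n (φ k v) - fderiv ℝ (fun v => n (φ k v)) v (xi k v)‖ ≤ C

section ends

variable {w : E3 → ℝ} (D : EndData w) {κ : Type}

/-- the ends -/
abbrev En := Fin D.a ⊕ Fin D.b

/-- the parametrisations of the ends -/
noncomputable def endPt : En D → R2 → E3 :=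
  Sum.elim (fun i => conePt (D.γ i) (D.n i) (D.h i)) fun j => cylPt (D.Q j) (D.v j)

/-- the scale on the ends -/
noncomputable def endSc : En D → R2 → ℝ := Sum.elim (fun _ v => Real.exp v.1) fun _ _ => 1

/-- the radial field on the ends -/
def endXi : En D → R2 → R2 := Sum.elim (fun _ _ => (1, 0)) fun _ v => (v.1, 0)

/-- the variable `ζ` on the ends -/
noncomputable def endSg : En D → ℝ → ℝ := Sum.elim (fun _ s => Real.exp (2 * s)) fun _ s => s ^ 2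

/-- all charts: the ends and a further family -/
noncomputable def chφ (ψ : κ → R2 → E3) : En D ⊕ κ → R2 → E3 := Sum.elim (endPt D) ψ

/-- the domains of the charts -/
def chO (U : κ → Set R2) (s1 : ℝ) : En D ⊕ κ → Set R2 := Sum.elim (fun _ => {v | s1 < v.1}) U

/-- the transversal field `n` and the charts -/
structure Geo (n : E3 → E3) (ψ : κ → R2 → E3) (U : κ → Set R2) (s1 : ℝ) : Prop where
  s0 : D.s₀ ≤ s1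
  nsm : ContDiff ℝ ∞ n
  npos : ∀ p, w p = 0 → 0 < ⟪n p, grad w p⟫
  ncone : ∀ i, ∃ s : ℝ, (s = 1 ∨ s = -1) ∧ ∀ v : R2, s1 < v.1 →
    n (conePt (D.γ i) (D.n i) (D.h i) v) = (s * Real.exp v.1) • D.n i v.2
  ncyl : ∀ j, ∃ s : ℝ, (s = 1 ∨ s = -1) ∧ ∀ v : R2, s1 < v.1 →
    n (cylPt (D.Q j) (D.v j) v) = s • D.Q j !₂[√2 * Real.cos v.2, √2 * Real.sin v.2, 0]
  op : ∀ k, IsOpen (U k)
  sm : ∀ k, ContDiffOn ℝ 2 (ψ k) (U k)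
  mem : ∀ k, ∀ v ∈ U k, w (ψ k v) = 0
  imm : ∀ k, ∀ v ∈ chO D U s1 k, Function.Injective (fderiv ℝ (chφ D ψ k) v)
  cover : ∀ p, w p = 0 → ∃ k, ∃ v ∈ chO D U s1 k, chφ D ψ k v = p

/-- the atlas consists of the far parts of the ends and of bounded pieces of the given charts -/
structure Adapt {n : E3 → E3} (ψ : κ → R2 → E3) (U : κ → Set R2) (s1 s2 Rb : ℝ) {K0 : Type}
    [Fintype K0] (idx : K0 → En D ⊕ κ) (𝒜 : Atlas w n (En D ⊕ K0)) : Prop where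
  s12 : s1 ≤ s2
  s21 : 1 ≤ s2
  eφ : ∀ e, 𝒜.φ (.inl e) = endPt D e
  eO : ∀ e, 𝒜.O (.inl e) = {v | s2 < v.1}
  esc : ∀ e, 𝒜.sc (.inl e) = endSc D e
  exi : ∀ e, 𝒜.xi (.inl e) = endXi D e
  kφ : ∀ k, 𝒜.φ (.inr k) = chφ D ψ (idx k)
  kO : ∀ k, 𝒜.O (.inr k) ⊆ chO D U s1 (idx k)
  kxi : ∀ k, 𝒜.xi (.inr k) = 0
  kb : ∀ k, ∀ v ∈ 𝒜.O (.inr k), ‖𝒜.φ (.inr k) v‖ ≤ Rb
  sep : ∀ e e' (v v' : R2), s2 < v.1 → s2 < v'.1 → endPt D e v = endPt D e' v' →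
    e = e' ∧ v.1 = v'.1 ∧ ∃ m : ℤ, v'.2 = v.2 + m * (2 * Real.pi)
  nrm : ∀ e (v : R2), s2 < v.1 →
    endSg D e v.1 ≤ ‖endPt D e v‖ ^ 2 ∧ ‖endPt D e v‖ ^ 2 ≤ 10 * endSg D e v.1

end ends

/-- existence of an adapted atlas -/
def AtlasStmt : Prop := ∀ (w : E3 → ℝ) (D : EndData w) (n : E3 → E3) (κ : Type)
  (ψ : κ → R2 → E3) (U : κ → Set R2) (s1 : ℝ), Shr w → Geo D n ψ U s1 →
  ∃ (s2 Rb : ℝ) (K0 : Type) (_ : Fintype K0) (idx : K0 → En D ⊕ κ) (𝒜 : Atlas w n (En D ⊕ K0)),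
    Adapt D ψ U s1 s2 Rb idx 𝒜

/-- extension of a function which is `1` on one cylindrical end and `0` on the other ends -/
def ChiStmt : Prop := ∀ (w : E3 → ℝ) (D : EndData w) (j : Fin D.b) (χ : E3 → ℝ) (s1 : ℝ),
  ContDiff ℝ ∞ χ → (∀ e (v : R2), s1 < v.1 → χ (endPt D e v) = if e = .inr j then 1 else 0) →
  ∃ (χ' : E3 → ℝ) (C : ℝ), (∀ p, w p = 0 → χ' p = χ p) ∧
    ∀ y, JB χ' y C (C / (1 + ‖y‖)) (C / (1 + ‖y‖) ^ 2)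

/-- the jets of `U ξ` at `v` are holomorphic in `ξ` -/
structure HolJ {ι : Type} [Fintype ι] (U : (ι → ℂ) → R2 → ℂ) (Ω : Set (ι → ℂ)) (v : R2) :
    Prop where
  h0 : DifferentiableOn ℂ (fun ξ => U ξ v) Ω
  h1 : ∀ e, DifferentiableOn ℂ (fun ξ => fderiv ℝ (U ξ) v e) Ω
  h2 : ∀ e e', DifferentiableOn ℂ (fun ξ => fderiv ℝ (fderiv ℝ (U ξ)) v e e') Ω

/-- holomorphic jets give joint regularity with Cauchy bounds -/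
def HolStmt : Prop := ∀ (ι : Type) [Fintype ι], ∃ C : ℝ, 0 ≤ C ∧
  ∀ (U : (ι → ℂ) → R2 → ℂ) (x : ι → ℝ) (v : R2) (O : Set R2) (ϱ B B' : ℝ), 0 < ϱ → ϱ ≤ 1 →
    O ∈ 𝓝 v → (∀ v' ∈ O, HolJ U (ball (re2c x) ϱ) v') →
    (∀ ξ ∈ ball (re2c x) ϱ, ∀ v' ∈ O, JB (U ξ) v' B' B' B') →
    (∀ ξ ∈ ball (re2c x) ϱ, JB (U ξ) v B B B) →
    JB (fun z : (ι → ℝ) × R2 => (U (re2c z.1) z.2).re) (x, v) B (C * B / ϱ) (C * B / ϱ ^ 2)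

/-- Schwarz lemma for jets -/
def SchwarzStmt : Prop := ∀ (ι : Type) [Fintype ι] (U : (ι → ℂ) → R2 → ℂ) (Ω : Set (ι → ℂ))
  (ξ : ι → ℂ) (v : R2) (B θ : ℝ), 0 < θ → θ < 1 → HolJ U Ω v →
    (∀ t : ℂ, ‖t‖ < 1 / θ → t • ξ ∈ Ω) → (∀ ξ ∈ Ω, JB (U ξ) v B B B) →
    U 0 =ᶠ[𝓝 v] (fun _ => 0) → JB (U ξ) v (θ * B) (2 * θ * B) (4 * θ * B)

section nd

variable {E : Type*} [NormedAddCommGroup E] [InnerProductSpace ℝ E] [FiniteDimensional ℝ E]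
  [MeasurableSpace E] [BorelSpace E] {J : Type*} [Fintype J]

/-- `u` is a weak solution of the Jacobi equation with right hand side `∑ mu j psi j` -/
structure Weak (m : ℕ) (W : E → ℝ) (psi : J → E → ℝ) (u : E → ℝ) (mu : J → ℝ) : Prop where
  meas : AEStronglyMeasurable u (sig m W)
  int : Integrable (fun x => u x ^ 2 * rho x) (sig m W)
  eq : ∀ ζ : E → ℝ, ContDiff ℝ (⊤ : ℕ∞) ζ → HasCompactSupport ζ →
    ∫ x, u x * jac W ζ x * rho x ∂(sig m W) = ∑ j, mu j * ∫ x, psi j x * ζ x * rho x ∂(sig m W)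

/-- uniqueness for the bordered linear problem -/
def Uniq (m : ℕ) (W : E → ℝ) (psi : J → E → ℝ) : Prop :=
  ∀ u mu, Weak m W psi u mu → (∀ j, ∫ x, u x * psi j x * rho x ∂(sig m W) = 0) → u =ᵐ[sig m W] 0

/-- solvability of the bordered linear problem -/
def SolvA (m : ℕ) (W : E → ℝ) (psi : J → E → ℝ) : Prop :=
  ∀ f : E → ℝ, ContDiff ℝ (⊤ : ℕ∞) f → HasCompactSupport f → ∃ (ζ : E → ℝ) (c : J → ℝ) (C : ℝ)
    (q : ℕ), (∀ y, JB ζ y (C * (1 + ‖y‖) ^ q) (C * (1 + ‖y‖) ^ q) (C * (1 + ‖y‖) ^ q)) ∧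
    (∀ p, W p = 0 → jac W ζ p = f p + ∑ j, c j * psi j p) ∧
    ∀ j, ∫ x, ζ x * psi j x * rho x ∂(sig m W) = 0

variable {P : Type*} [NormedAddCommGroup P] [NormedSpace ℝ P]

/-- the part of `Model` which comes from the construction -/
structure PreModel (V : P → E → ℝ) (V' : P →ₗ[ℝ] (E → ℝ)) (psi : J → E → ℝ)
    (lam : P → J → ℝ) (c K : ℝ) (q : ℕ) : Prop where
  tube : ∀ᶠ a in 𝓝 (0 : P), Tube0 (V a) c K
  c2 : C2Lim (𝓝 (0 : P)) V (V 0)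
  strict : ∀ ε : ℝ, 0 < ε → ∀ᶠ p : P × P in 𝓝 0, ∀ x,
    |V p.2 x - V p.1 x - V' (p.2 - p.1) x| ≤ ε * ‖p.2 - p.1‖ * (1 + ‖x‖) ^ q
  dcont : ∀ b, Continuous (V' b)
  db : ∀ b x, |V' b x| ≤ K * ‖b‖ * (1 + ‖x‖) ^ q
  pcont : ∀ j, Continuous (psi j)
  pb : ∀ j x, |psi j x| ≤ K * (1 + ‖x‖) ^ q
  lam0 : Tendsto lam (𝓝 0) (𝓝 0)
  lamb : ∀ᶠ a in 𝓝 (0 : P), ‖lam a‖ ≤ K * ‖a‖
  ric : ∀ ε : ℝ, 0 < ε → ∀ᶠ a in 𝓝 (0 : P), ∀ x, |V a x| < c →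
    |ricE (V a) x - ∑ j, lam a j * psi j x| ≤ K * V a x ^ 2 + ε * ‖lam a‖ * (1 + ‖x‖) ^ q
  indep : ∀ mu : J → ℝ, (∀ x, V 0 x = 0 → ∑ j, mu j * psi j x = 0) → mu = 0
  inj : ∀ b : P, (∀ x, V 0 x = 0 → V' b x = 0) → b = 0

end nd

/-- duality -/
def DualStmt : Prop := ∀ (J : Type) [Fintype J] (W : E3 → ℝ) (psi : J → E3 → ℝ) (c K : ℝ),
  Tube0 W c K → (∀ j, Continuous (psi j)) → (∀ j, PB (psi j)) → SolvA 2 W psi → Uniq 2 W psi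

/-- weak solutions are velocities of the family -/
def NdStmt : Prop := ∀ (ι J : Type) [Fintype ι] [Fintype J] (w : E3 → ℝ)
  (V : (ι → ℝ) → E3 → ℝ) (V' : (ι → ℝ) →ₗ[ℝ] (E3 → ℝ)) (psi : J → E3 → ℝ)
  (lam : (ι → ℝ) → J → ℝ) (c K : ℝ) (q : ℕ), Shr w → (∀ x, V 0 x = 0 ↔ w x = 0) →
  PreModel V V' psi lam c K q → Uniq 2 (V 0) psi → Fintype.card J = Fintype.card ι →
  ∀ u mu, Weak 2 (V 0) psi u mu → ∃ b, u =ᵐ[sig 2 (V 0)] V' b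

/-- the area element of a parametrisation -/
noncomputable def ar (X : R2 → E3) (v : R2) : ℝ := par (fderiv ℝ X v (1, 0)) (fderiv ℝ X v (0, 1))

/-- integration over `S` and over its image under an injective map -/
def AreaStmt : Prop := ∀ (w : E3 → ℝ) (n : E3 → E3) (K : Type) [Fintype K] (𝒜 : Atlas w n K),
  (∀ (g : E3 → ℝ) (G : Set E3), MeasurableSet G →
    (∀ k, ∀ v ∈ 𝒜.O k, 𝒜.φ k v ∈ G → ContinuousAt (fun v => g (𝒜.φ k v)) v) →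
    AEStronglyMeasurable g ((sig 2 w).restrict G)) ∧
  ∀ (Z : E3 → E3) (W Jc g : E3 → ℝ), ContDiff ℝ 1 Z → Function.Injective Z →
    (∀ y, Function.Injective (fderiv ℝ Z y)) → (∀ y, W (Z y) = 0 ↔ w y = 0) →
    Function.Surjective Z →
    (∀ k, ∀ v ∈ 𝒜.O k, Jc (𝒜.φ k v) * ar (𝒜.φ k) v = ar (fun v => Z (𝒜.φ k v)) v) →
    Integrable (fun p => g (Z p) * Jc p) (sig 2 w) →
    ∫ y, g y ∂(sig 2 W) = ∫ p, g (Z p) * Jc p ∂(sig 2 w)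

/-- Gaussian moments of the area of the zero set of a tube function -/
def GaussStmt : Prop := ∀ (W : E3 → ℝ) (c K : ℝ), Tube0 W c K → ∀ (a : ℝ) (q : ℕ), 0 < a →
  Integrable (fun x => (1 + ‖x‖) ^ q * Real.exp (-(a * ‖x‖ ^ 2))) (sig 2 W)

/-- the cross product -/
noncomputable def crs (a b : E3) : E3 :=
  !₂[a 1 * b 2 - a 2 * b 1, a 2 * b 0 - a 0 * b 2, a 0 * b 1 - a 1 * b 0]

/-- `adj (g)^{ab} X_{ab} + det g X / 2` -/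
noncomputable def shrV (X : E3) (L : R2 →L[ℝ] E3) (Q : R2 →L[ℝ] R2 →L[ℝ] E3) : E3 :=
  ⟪L (0, 1), L (0, 1)⟫ • Q (1, 0) (1, 0) - (2 * ⟪L (1, 0), L (0, 1)⟫) • Q (1, 0) (0, 1) +
    ⟪L (1, 0), L (1, 0)⟫ • Q (0, 1) (0, 1) +
    ((⟪L (1, 0), L (1, 0)⟫ * ⟪L (0, 1), L (0, 1)⟫ - ⟪L (1, 0), L (0, 1)⟫ ^ 2) / 2) • X

/-- the polynomial form of the shrinker operator -/
noncomputable def Mc (X : R2 → E3) (v : R2) : ℝ :=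
  ⟪crs (fderiv ℝ X v (1, 0)) (fderiv ℝ X v (0, 1)),
    shrV (X v) (fderiv ℝ X v) (fderiv ℝ (fderiv ℝ X) v)⟫

/-- the normalisation `det (φ₁, φ₂, n) det g` -/
noncomputable def dS (φ : R2 → E3) (N : E3) (v : R2) : ℝ :=
  ⟪crs (fderiv ℝ φ v (1, 0)) (fderiv ℝ φ v (0, 1)), N⟫ * ar φ v ^ 2

/-- the shrinker quantity of a tube function on its zero set, in a parametrisation -/
def RicStmt : Prop := ∀ (W : E3 → ℝ) (c K : ℝ) (X : R2 → E3) (v : R2), Tube0 W c K →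
  ContDiffAt ℝ 2 X v → Function.Injective (fderiv ℝ X v) → (∀ᶠ u in 𝓝 v, W (X u) = 0) →
  ricE W (X v) * dS X (grad W (X v)) v = -Mc X v ∧ |dS X (grad W (X v)) v| = ar X v ^ 3

variable {ι J : Type} [Fintype ι] [DecidableEq ι] [Fintype J]

/-- the field of linear maps -/
noncomputable def rotF {b : ℕ} (G : Fin b → ℝ × (ι → ℝ) → E3 →L[ℝ] E3) (χ : Fin b → E3 → ℝ)
    (x : ι → ℝ) (p : E3) : E3 →L[ℝ] E3 := ContinuousLinearMap.id ℝ E3 + ∑ j, G j (χ j p, x)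

/-- the deformed surface -/
noncomputable def defX (n : E3 → E3) (Rt : E3 → E3 →L[ℝ] E3) (u : E3 → ℂ) (p : E3) : E3 :=
  Rt p (p + (u p).re • n p)

/-- the real part of the multipliers -/
def reL (l : J → ℂ) : J → ℝ := fun j => (l j).re

/-- The input of block D6: the truncated solutions `u R ξ` on `S ∩ {σ < R / 2}`. -/
structure Red {w : E3 → ℝ} (D : EndData w) (n : E3 → E3) {κ : Type} (ψ : κ → R2 → E3)
    (U : κ → Set R2) (s1 : ℝ) (σ : E3 → ℝ) (χ : Fin D.b → E3 → ℝ)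
    (G : Fin D.b → ℝ × (ι → ℝ) → E3 →L[ℝ] E3) (I : Finset ι) (c r κ' C A : ℝ) (q R0 : ℕ)
    (u : ℕ → (ι → ℂ) → E3 → ℂ) (lam : ℕ → (ι → ℂ) → J → ℂ) (F : ℕ → (ι → ℂ) → ℂ)
    (Ψ : J → E3 → ℝ) (lag : ℕ → (ι → ℝ) → E3 → ℝ) : Prop where
  shr : Shr w
  geo : Geo D n ψ U s1
  c0 : 0 < c
  r0 : 0 < r
  κ0 : 0 < κ'
  A0 : 0 < A
  R01 : 1 ≤ R0
  σc : Continuous σ
  σe : ∀ e (v : R2), s1 < v.1 → σ (endPt D e v) = endSg D e v.1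
  χs : ∀ j, ContDiff ℝ ∞ (χ j)
  χe : ∀ j e (v : R2), s1 < v.1 → χ j (endPt D e v) = if e = .inr j then 1 else 0
  Gs : ∀ j t x, ‖x‖ < r → ContDiffAt ℝ 2 (G j) (t, x)
  G0 : ∀ j t, G j (t, 0) = 0
  hol : ∀ R, R0 ≤ R → ∀ k, ∀ v ∈ chO D U s1 k, σ (chφ D ψ k v) < R / 2 →
    HolJ (fun ξ v => u R ξ (chφ D ψ k v)) (Dom I c r R) v
  jb : ∀ R, R0 ≤ R → ∀ ξ ∈ Dom I c r R, ∀ k, ∀ v ∈ chO D U s1 k, σ (chφ D ψ k v) < R / 2 →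
    JB (fun v => u R ξ (chφ D ψ k v)) v C C C
  jrad : ∀ R, R0 ≤ R → ∀ ξ ∈ Dom I c r R, ∀ e (v : R2), s1 < v.1 → endSg D e v.1 < R / 2 →
    endSc D e v * ‖fderiv ℝ (fun v => u R ξ (endPt D e v)) v (endXi D e v)‖ ≤ C
  step : ∀ R, R0 ≤ R → ∀ ξ ∈ Dom I c r (R + 1), ∀ k, ∀ v ∈ chO D U s1 k,
    σ (chφ D ψ k v) < R / 2 → JB (fun v => u (R + 1) ξ (chφ D ψ k v) - u R ξ (chφ D ψ k v)) v
      (C * Real.exp (-(κ' * R))) (C * Real.exp (-(κ' * R))) (C * Real.exp (-(κ' * R)))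
  zero : ∀ R, R0 ≤ R → ∀ k, ∀ v ∈ chO D U s1 k, σ (chφ D ψ k v) < R / 2 →
    JB (fun v => u R 0 (chφ D ψ k v)) v
      (C * Real.exp (-(κ' * R))) (C * Real.exp (-(κ' * R))) (C * Real.exp (-(κ' * R)))
  Ψc : ∀ j, Continuous (Ψ j)
  Ψs : ∀ j, HasCompactSupport (Ψ j)
  eq : ∀ R, R0 ≤ R → ∀ x, re2c x ∈ Dom I c r R → ∀ k, ∀ v ∈ chO D U s1 k,
    σ (chφ D ψ k v) < R / 2 →
    |Mc (fun v => defX n (rotF G χ x) (u R (re2c x)) (chφ D ψ k v)) v -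
      (∑ j, reL (lam R (re2c x)) j * Ψ j (chφ D ψ k v)) * dS (chφ D ψ k) (n (chφ D ψ k v)) v|
      ≤ C * ‖reL (lam R (re2c x))‖ * (1 + ‖chφ D ψ k v‖) ^ q * (|(u R (re2c x) (chφ D ψ k v)).re| +
        ‖fderiv ℝ (fun v => (u R (re2c x) (chφ D ψ k v)).re) v‖ + ‖x‖)
  lhol : ∀ R, R0 ≤ R → DifferentiableOn ℂ (lam R) (Dom I c r R)
  lb : ∀ ξ ∈ Dom I c r R0, ‖lam R0 ξ‖ ≤ C
  lstep : ∀ R, R0 ≤ R → ∀ ξ ∈ Dom I c r (R + 1),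
    ‖lam (R + 1) ξ - lam R ξ‖ ≤ C * Real.exp (-(κ' * R))
  lzero : ∀ R, R0 ≤ R → ‖lam R 0‖ ≤ C * Real.exp (-(κ' * R))
  dF : ∀ R, R0 ≤ R → ∀ x, re2c x ∈ Dom I (c / 2) (r / 2) R →
    ‖fderiv ℂ (F R) (re2c x)‖ ≤ C * (‖reL (lam R (re2c x))‖ + Real.exp (-(κ' * R)))
  concl : Concl I c R0 F
  lagc : ∀ R, R0 ≤ R → ∀ x, re2c x ∈ Dom I c r R → ∀ k, ∀ v ∈ chO D U s1 k,
    σ (chφ D ψ k v) < R / 2 → lag R x (chφ D ψ k v) * ar (chφ D ψ k) v =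
      rho (defX n (rotF G χ x) (u R (re2c x)) (chφ D ψ k v)) *
        ar (fun v => defX n (rotF G χ x) (u R (re2c x)) (chφ D ψ k v)) v
  area : ∀ R, R0 ≤ R → ∀ x, re2c x ∈ Dom I c r R →
    |A * ∫ p in {p | σ p < R / 8}, lag R x p ∂(sig 2 w) - (F R (re2c x)).re|
      ≤ C * Real.exp (-(κ' * R))
  inj : ∀ b : ι → ℝ, (∀ p, w p = 0 → Tendsto (fun R =>
    (fderiv ℂ (fun ξ => u R ξ p) 0 (re2c b)).re * ⟪n p, grad w p⟫ +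
      ⟪fderiv ℝ (fun x => rotF G χ x p) 0 b p, grad w p⟫) atTop (𝓝 0)) → b = 0
  indep : ∀ mu : J → ℝ, (∀ p, w p = 0 → ∑ j, mu j * Ψ j p = 0) → mu = 0
  card : Fintype.card J = Fintype.card ι
  solv : ∀ (W : E3 → ℝ) (c' K : ℝ), Tube0 W c' K → (∀ p, W p = 0 ↔ w p = 0) →
    (∀ p, w p = 0 → grad W p = nuW w p) → ∀ f : E3 → ℝ, ContDiff ℝ (⊤ : ℕ∞) f →
    HasCompactSupport f → ∃ (g : E3 → ℝ) (μ : J → ℝ) (C' : ℝ) (q' : ℕ),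
      (∀ k, ∀ v ∈ chO D U s1 k, JB (fun v => g (chφ D ψ k v)) v (C' * (1 + ‖chφ D ψ k v‖) ^ q')
        (C' * (1 + ‖chφ D ψ k v‖) ^ q') (C' * (1 + ‖chφ D ψ k v‖) ^ q')) ∧
      (∀ ζ : E3 → ℝ, ContDiff ℝ 2 ζ → (∀ p, w p = 0 → ζ p = g p) → ∀ p, w p = 0 →
        jac W ζ p = f p + ∑ j, μ j * (Ψ j p * ⟪n p, nuW w p⟫)) ∧
      ∀ j, ∫ p, g p * (Ψ j p * ⟪n p, nuW w p⟫) * rho p ∂(sig 2 w) = 0

end Vale.Agent.P218N.D6
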