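import Vale.Agent.P218N.D6.SD

/-! Families of diffeomorphisms close to the identity give families of level sets. -/

open Set Filter Topology Metric
open scoped RealInnerProductSpace NNReal

namespace Vale.Agent.P218N.D6

open Vale.Agent.P218.H313

set_option linter.unusedSectionVars false
set_option maxSynthPendingDepth 3

variable {P E : Type*} [NormedAddCommGroup P] [NormedSpace ℝ P] [FiniteDimensional ℝ P]
  [NormedAddCommGroup E] [InnerProductSpace ℝ E] [FiniteDimensional ℝ E]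

theorem norm_riesz (l : E →L[ℝ] ℝ) : ‖riesz E l‖ = ‖l‖ := by
  unfold riesz
  simp

theorem grad_lip_of {g : E → ℝ} {K : ℝ} (h : ∀ y, J1 (fderiv ℝ g) y ‖fderiv ℝ g y‖ K) (y y' : E) :
    ‖grad g y - grad g y'‖ ≤ K * ‖y - y'‖ := by
  rw [grad_eq, ← map_sub, norm_riesz]
  exact convex_univ.norm_image_sub_le_of_norm_hasFDerivWithin_le
    (fun z _ => (h z).has.hasFDerivWithinAt) (fun z _ => (h z).b1) trivial trivial

/-- a family of maps which are close to the identity -/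
structure Dif (Z : P × E → E) (M : ℝ) (q : ℕ) : Prop where
  one_le : 1 ≤ M
  jb : ∀ z, JB Z z (M * (1 + ‖z.2‖) ^ q) (M * (1 + ‖z.2‖) ^ q) (M * (1 + ‖z.2‖) ^ q)
  near : ∀ a y, ‖fderiv ℝ (fun y => Z (a, y)) y - ContinuousLinearMap.id ℝ E‖ ≤ 1 / 2
  d2 : ∀ a y, ‖fderiv ℝ (fderiv ℝ fun y => Z (a, y)) y‖ ≤ M
  z0 : ∀ a, ‖Z (a, 0)‖ ≤ M

namespace Dif

variable {Z : P × E → E} {M : ℝ} {q : ℕ} (h : Dif Z M q)
include h

theorem lip (a : P) (y y' : E) : ‖Z (a, y) - Z (a, y') - (y - y')‖ ≤ 1 / 2 * ‖y - y'‖ :=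
  convex_univ.norm_image_sub_le_of_norm_hasFDerivWithin_le' (φ := ContinuousLinearMap.id ℝ E)
    (fun z _ => (h.jb (a, z)).slice.has.hasFDerivWithinAt) (fun z _ => h.near a z) trivial trivial

theorem anti (a : P) (y y' : E) : ‖y - y'‖ ≤ 2 * ‖Z (a, y) - Z (a, y')‖ := by
  have h1 := h.lip a y y'
  have h2 := norm_sub_norm_le (y - y') (Z (a, y) - Z (a, y'))
  rw [norm_sub_rev (y - y')] at h2
  linarith

theorem inj (a : P) : Function.Injective fun y => Z (a, y) := fun y y' e => by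
  have := h.anti a y y'
  rwa [show Z (a, y) = Z (a, y') from e, sub_self, norm_zero, mul_zero, norm_le_zero_iff,
    sub_eq_zero] at this

theorem surj (a : P) : Function.Surjective fun y => Z (a, y) := fun y => by
  have := FiniteDimensional.complete ℝ E
  have h1 : ContractingWith (1 / 2) fun x => y - (Z (a, x) - x) := ⟨one_half_lt_one,
    LipschitzWith.of_dist_le_mul fun x x' => by
      rw [dist_eq_norm, dist_eq_norm, show y - (Z (a, x) - x) - (y - (Z (a, x') - x'))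
        = Z (a, x') - Z (a, x) - (x' - x) by abel, norm_sub_rev x]
      simpa using h.lip a x' x⟩
  have h2 : y - (Z (a, _) - _) = _ := h1.fixedPoint_isFixedPt
  exact ⟨_, by rw [sub_eq_iff_eq_add, add_sub_cancel] at h2; exact h2.symm⟩

theorem low (a : P) (y v : E) : 1 / 2 * ‖v‖ ≤ ‖fderiv ℝ (fun y => Z (a, y)) y v‖ := by
  have h1 := ContinuousLinearMap.le_of_opNorm_le _ (h.near a y) v
  have h2 := norm_sub_norm_le v (fderiv ℝ (fun y => Z (a, y)) y v)
  rw [norm_sub_rev] at h2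
  simp only [sub_apply, ContinuousLinearMap.id_apply] at h1
  linarith

theorem up (a : P) (y : E) : ‖fderiv ℝ (fun y => Z (a, y)) y‖ ≤ 2 := by
  have h1 := norm_le_norm_add_norm_sub' (fderiv ℝ (fun y => Z (a, y)) y)
    (ContinuousLinearMap.id ℝ E)
  linarith [h.near a y, ContinuousLinearMap.norm_id_le (𝕜 := ℝ) (E := E)]

theorem norm_le (a : P) (y : E) : 1 + ‖y‖ ≤ 3 * M * (1 + ‖Z (a, y)‖) := by
  have h1 := h.anti a y 0
  have h2 := norm_sub_le (Z (a, y)) (Z (a, 0))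
  rw [sub_zero] at h1
  nlinarith [h.z0 a, h.one_le, norm_nonneg (Z (a, y))]

theorem norm_le' (a : P) (y : E) : ‖Z (a, y)‖ ≤ M + 2 * ‖y‖ := by
  have h1 := h.lip a y 0
  have h2 := norm_sub_norm_le (Z (a, y) - Z (a, 0)) (y - 0)
  have h3 := norm_sub_norm_le (Z (a, y)) (Z (a, 0))
  rw [sub_zero] at h1 h2
  linarith [h.z0 a, norm_nonneg y]

theorem low' (z u : P × E) : 1 / (4 * (M * (1 + ‖z.2‖) ^ q)) * ‖u‖
    ≤ ‖fderiv ℝ (fun z : P × E => (z.1, Z z)) z u‖ := by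
  have hW : 1 ≤ M * (1 + ‖z.2‖) ^ q :=
    one_le_mul_of_one_le_of_one_le h.one_le (one_le_pow₀ (by linarith [norm_nonneg z.2]))
  rw [((hasFDerivAt_fst (𝕜 := ℝ) (p := z)).prodMk (h.jb z).has).fderiv, one_div_mul_eq_div,
    div_le_iff₀ (by positivity)]
  have h1 := h.low z.1 z.2 u.2
  rw [(hasFDerivAt_slice (h.jb z).has.differentiableAt).fderiv] at h1
  have h2 : fderiv ℝ Z z (0, u.2) = fderiv ℝ Z z u - fderiv ℝ Z z (u.1, 0) := by
    rw [← map_sub]
    congr 1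
    ext <;> simp
  have h3 := (fderiv ℝ Z z).le_of_opNorm_le (h.jb z).b1 (u.1, 0)
  have h4 := norm_sub_le (fderiv ℝ Z z u) (fderiv ℝ Z z (u.1, 0))
  have h5 := le_max_left ‖u.1‖ ‖fderiv ℝ Z z u‖
  have h6 := le_max_right ‖u.1‖ ‖fderiv ℝ Z z u‖
  simp only [ContinuousLinearMap.comp_apply, ContinuousLinearMap.inr_apply, Prod.mk.eta, h2,
    Prod.norm_mk, norm_zero, max_eq_left (norm_nonneg u.1)] at h1 h3
  change max ‖u.1‖ ‖u.2‖ ≤ max ‖u.1‖ ‖fderiv ℝ Z z u‖ * _
  refine max_le ?_ ?_ <;> nlinarith [norm_nonneg u.1]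

/-- the inverse maps -/
noncomputable def inv (z : P × E) : E := Function.surjInv (h.surj z.1) z.2

theorem inv_r (a : P) (y : E) : Z (a, h.inv (a, y)) = y := Function.surjInv_eq (h.surj a) y

theorem inv_l (a : P) (y : E) : h.inv (a, Z (a, y)) = y := h.inj a (h.inv_r a _)

theorem cd_inv (z : P × E) : ContDiffAt ℝ 2 h.inv z := by
  have hM := h.one_le
  obtain ⟨Ψ, h1, -, h2, -⟩ := ift1 (Φ := fun z : P × E => (z.1, Z z)) (x := (z.1, h.inv z))
    (contDiffAt_fst.prodMk (h.jb _).cd) two_ne_zero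
    (surj_of_low rfl (by positivity) (h.low' _)).1
  simp only [h.inv_r z.1 z.2] at h1 h2
  refine h1.snd.congr_of_eventuallyEq (h2.mono fun y hy => h.inj y.1 ?_)
  obtain ⟨e1, e2⟩ := Prod.ext_iff.1 hy
  exact (h.inv_r y.1 y.2).trans (e2.symm.trans (congrArg Z (Prod.ext e1 rfl)))

theorem exists_lev {w : E → ℝ} (hw : ∀ y, JB w y |w y| M M)
    (hl : ∀ y, w y = 0 → 1 ≤ M * ‖fderiv ℝ w y‖)
    (hr : ∀ a p ν, w p = 0 → ‖ν‖ = 1 → (∀ v, fderiv ℝ w p v = 0 →
      ⟪ν, fderiv ℝ (fun y => Z (a, y)) p v⟫ = 0) → |⟪Z (a, p), ν⟫| ≤ M) :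
    ∃ (f : P × E → ℝ) (M' : ℝ) (q' : ℕ), Lev f M' q' ∧ ∀ a y, f (a, Z (a, y)) = 2 * M * w y := by
  have hM := h.one_le
  set f : P × E → ℝ := fun z => (2 * M) • w (h.inv z)
  have hf : ∀ a y, f (a, Z (a, y)) = (2 * M) • w y := fun a y => by simp only [f, h.inv_l]
  have hc : ∀ z, ContDiffAt ℝ 2 f z := fun z => ((hw _).cd.comp z (h.cd_inv z)).const_smul _
  have hw' : ∀ y, JB (fun y => (2 * M) • w y) y _ _ _ := fun y => (hw y).cmul (2 * M)
  rw [abs_of_pos (by positivity : 0 < 2 * M)] at hw'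
  have hd : ∀ a p v, fderiv ℝ f (a, Z (a, p)) (0, fderiv ℝ (fun y => Z (a, y)) p v)
      = 2 * M * fderiv ℝ w p v := fun a p v => by
    have h1 := (hasFDerivAt_slice ((hc (a, Z (a, p))).differentiableAt two_ne_zero)).comp p
      (h.jb (a, p)).slice.has
    have h2 := ((hw p).has.const_smul (2 * M)).unique (h1.congr_of_eventuallyEq
      (Eventually.of_forall fun y => (hf a y).symm))
    exact (congrArg (fun L : E →L[ℝ] ℝ => L v) h2).symm
  have hz : ∀ z, f z = 0 → ∃ a p, w p = 0 ∧ z = (a, Z (a, p)) := fun z e =>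
    ⟨z.1, h.inv z, (smul_eq_zero.1 e).resolve_left (by positivity),
      Prod.ext rfl (h.inv_r z.1 z.2).symm⟩
  have hlow : ∀ z, f z = 0 → 1 ≤ ‖gy f z‖ := fun z e => by
    obtain ⟨a, p, h0, rfl⟩ := hz z e
    have h1 : ‖fderiv ℝ w p‖ ≤ ‖gy f (a, Z (a, p))‖ / M := by
      refine ContinuousLinearMap.opNorm_le_bound _ (by positivity) fun v => ?_
      have h2 := abs_real_inner_le_norm (gy f (a, Z (a, p))) (fderiv ℝ (fun y => Z (a, y)) p v)
      rw [gy, inner_gL, hd, abs_mul, abs_of_pos (by positivity : 0 < 2 * M), ← gy] at h2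
      have h3 := mul_le_mul_of_nonneg_left (ContinuousLinearMap.le_of_opNorm_le _ (h.up a p) v)
        (norm_nonneg (gy f (a, Z (a, p))))
      rw [div_mul_eq_mul_div, le_div_iff₀ (by positivity), Real.norm_eq_abs]
      linarith
    rw [le_div_iff₀ (by positivity)] at h1
    linarith [hl p h0]
  have hj : ∀ a p, JB f (a, Z (a, p)) _ _ _ := fun a p =>
    JB.pull (f := fun z : P × E => (z.1, Z z)) (x := (a, p)) (hc _) (hw' p).comp_snd
      (Eventually.of_forall fun y => (hf y.1 y.2).symm) ((JB.fst _).prodMk (h.jb _))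
      (by positivity) (surj_of_low rfl (by positivity) (h.low' _)).2 (h.low' _)
  have hW : ∀ a p, 1 ≤ M * (1 + ‖p‖) ^ q ∧
      (M * (1 + ‖p‖) ^ q) ^ 4 ≤ (M * (3 * M) ^ q) ^ 4 * (1 + ‖Z (a, p)‖) ^ (4 * q) := fun a p =>
    ⟨one_le_mul_of_one_le_of_one_le hM (one_le_pow₀ (by linarith [norm_nonneg p])), by
      rw [mul_comm 4 q, pow_mul, ← mul_pow, mul_assoc, ← mul_pow]
      gcongr
      exact h.norm_le a p⟩
  have hK : 1 ≤ (M * (3 * M) ^ q) ^ 4 :=
    one_le_pow₀ (one_le_mul_of_one_le_of_one_le hM (one_le_pow₀ (by linarith)))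
  have hK' : M ≤ 160 * M ^ 3 * (M * (3 * M) ^ q) ^ 4 := by
    nlinarith [le_mul_of_one_le_right (by positivity : 0 ≤ M ^ 3) hK, pow_le_pow_right₀ hM
      (show 1 ≤ 3 by norm_num)]
  have hM3 : M ^ 2 ≤ M ^ 3 := pow_le_pow_right₀ hM (by norm_num)
  refine ⟨f, 160 * M ^ 3 * (M * (3 * M) ^ q) ^ 4, 4 * q, ⟨contDiff_iff_contDiffAt.2 hc,
    hM.trans hK', hlow, fun a y y' => ?_, fun z e => ?_, fun z e => ?_, fun z e => ?_⟩, hf⟩
  · rw [← grad_slice ((hc _).differentiableAt two_ne_zero),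
      ← grad_slice ((hc _).differentiableAt two_ne_zero)]
    refine grad_lip_of (fun y => ?_) y y'
    obtain ⟨p, rfl⟩ := h.surj a y
    have h1 := JB.pull (f := fun y => Z (a, y)) (g := fun y => f (a, y))
      ((hc _).comp _ (contDiffAt_const.prodMk contDiffAt_id)) (hw' p)
      (Eventually.of_forall fun y => (hf a y).symm)
      ⟨(h.jb (a, p)).slice.cd, le_rfl, le_rfl, h.d2 a p⟩ (by positivity)
      (surj_of_low rfl (by positivity) (h.low a p)).2 (h.low a p)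
    refine ⟨h1.d.cd, le_rfl, h1.b2.trans ((le_of_eq (b := 8 * M ^ 2 + 16 * M ^ 3)
      (by ring)).trans ?_)⟩
    have h2 := le_mul_of_one_le_right (by positivity : 0 ≤ M ^ 3) hK
    have h3 : 0 ≤ M ^ 3 := by positivity
    linarith
  · obtain ⟨a, p, -, rfl⟩ := hz z e
    obtain ⟨h1, h2⟩ := hW a p
    refine (hj a p).b1.trans ?_
    rw [mul_assoc (160 * M ^ 3), div_div_eq_mul_div, div_one]
    refine le_trans ?_ (mul_le_mul_of_nonneg_left h2 (by positivity))
    have h3 := mul_le_mul hM3 (pow_le_pow_right₀ h1 (show 1 ≤ 4 by norm_num)) (by positivity)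
      (by positivity)
    simp only
    nlinarith [mul_nonneg (by positivity : 0 ≤ M ^ 3) (by positivity : 0 ≤ (M * (1 + ‖p‖) ^ q) ^ 4)]
  · obtain ⟨a, p, -, rfl⟩ := hz z e
    obtain ⟨h1, h2⟩ := hW a p
    refine (hj a p).b2.trans ?_
    rw [mul_assoc (160 * M ^ 3), div_div_eq_mul_div, div_one, one_div, inv_pow, div_inv_eq_mul]
    refine le_trans ?_ (mul_le_mul_of_nonneg_left h2 (by positivity))
    have h3 := mul_le_mul hM3 (pow_le_pow_right₀ h1 (show 2 ≤ 4 by norm_num)) (by positivity)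
      (by positivity)
    have h4 := mul_le_mul_of_nonneg_right hM3 (by positivity : 0 ≤ (M * (1 + ‖p‖) ^ q) ^ 4)
    simp only
    nlinarith
  · obtain ⟨a, p, h0, rfl⟩ := hz z e
    refine (hr a p _ h0 ?_ fun v hv => ?_).trans hK'
    · rw [nn_eq, norm_smul, norm_inv, norm_norm, inv_mul_cancel₀ (by linarith [hlow _ e])]
    · rw [nn_eq, real_inner_smul_left, gy, inner_gL, hd, hv, mul_zero, mul_zero]

end Dif

end Vale.Agent.P218N.D6
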