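import Vale.Agent.P218N.D6.Dif
import Vale.Agent.P218N.D6.Defs

/-! Extension of functions on `S` to the ambient space with the help of an atlas. -/

open Set Filter Topology Metric
open scoped RealInnerProductSpace

namespace Vale.Agent.P218N.D6

open Vale.Agent.P218.H313 Vale.Agent.P218.H63 Vale.Agent.P218N.H

set_option linter.unusedSectionVars false
set_option maxSynthPendingDepth 3

section gen

variable {X Y : Type*} [NormedAddCommGroup X] [NormedSpace ℝ X] [NormedAddCommGroup Y]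
  [NormedSpace ℝ Y]

theorem ift2 [CompleteSpace X] [CompleteSpace Y] {Φ : X → Y} {x : X} (h : ContDiffAt ℝ 2 Φ x)
    (hi : Function.Injective (fderiv ℝ Φ x) ∧ Function.Surjective (fderiv ℝ Φ x)) :
    ∃ Ψ : Y → X, ContDiffAt ℝ 2 Ψ (Φ x) ∧ Ψ (Φ x) = x ∧ ∀ᶠ y in 𝓝 (Φ x), Φ (Ψ y) = y := by
  set A : X ≃L[ℝ] Y := ContinuousLinearEquiv.ofBijective (fderiv ℝ Φ x)
    (LinearMap.ker_eq_bot.2 hi.1) (LinearMap.range_eq_top.2 hi.2)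
  have hd : HasFDerivAt Φ (A : X →L[ℝ] Y) x := (h.differentiableAt two_ne_zero).hasFDerivAt
  exact ⟨h.localInverse hd two_ne_zero, h.to_localInverse hd two_ne_zero,
    h.localInverse_apply_image hd two_ne_zero,
    (h.hasStrictFDerivAt' hd two_ne_zero).eventually_right_inverse⟩

theorem exists_jb_compact {g : X → Y} {S : Set X} (hS : IsCompact S)
    (h : ∀ x ∈ S, ContDiffAt ℝ 2 g x) : ∃ C, 1 ≤ C ∧ ∀ x ∈ S, JB g x C C C := by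
  obtain ⟨C, hC⟩ := hS.exists_bound_of_continuousOn
    (f := fun x => (g x, fderiv ℝ g x, fderiv ℝ (fderiv ℝ g) x)) fun x hx =>
      ((h x hx).continuousAt.prodMk ((JB.of_cd (h x hx)).d.cd.continuousAt.prodMk
        ((JB.of_cd (h x hx)).d.cd.continuousAt_fderiv one_ne_zero))).continuousWithinAt
  refine ⟨max C 1, le_max_right _ _, fun x hx => ?_⟩
  have h1 := (hC x hx).trans (le_max_left C 1)
  simp only [norm_prod_le_iff] at h1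
  exact ⟨h x hx, h1.1, h1.2.1, h1.2.2⟩

theorem exists_jb_supp {g : X → Y} (h : ContDiff ℝ 2 g) (hs : HasCompactSupport g) :
    ∃ C, 1 ≤ C ∧ ∀ x, JB g x C C C := by
  obtain ⟨C, h1, h2⟩ := exists_jb_compact hs fun x _ => h.contDiffAt
  refine ⟨C, h1, fun x => ?_⟩
  by_cases hx : x ∈ tsupport g
  · exact h2 x hx
  · exact (JB.zero (notMem_tsupport_iff_eventuallyEq.1 hx)).mono (by linarith) (by linarith)
      (by linarith)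

end gen

namespace Atlas

variable {w : E3 → ℝ} {n : E3 → E3} {K : Type} [Fintype K] (𝒜 : Atlas w n K)

/-- the parametrisation of a neighbourhood of a piece -/
noncomputable def Φ (k : K) (x : R2 × ℝ) : E3 := 𝒜.φ k x.1 + x.2 • n (𝒜.φ k x.1)

/-- the width -/
noncomputable def t1 : ℝ := min 𝒜.τ (1 / (2 * 𝒜.C ^ 2))

/-- the domain of `Φ` -/
def Ω (k : K) : Set (R2 × ℝ) := {x | x.1 ∈ 𝒜.O k ∧ |x.2| < 𝒜.t1}

theorem Cpos : 0 < 𝒜.C := lt_of_lt_of_le one_pos 𝒜.C1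

theorem t1_pos : 0 < 𝒜.t1 := lt_min 𝒜.τ0 (by have := 𝒜.Cpos; positivity)

theorem t1_le : 𝒜.t1 * 𝒜.C ^ 2 ≤ 1 / 2 := by
  have h : 𝒜.t1 ≤ 1 / (2 * 𝒜.C ^ 2) := min_le_right _ _
  rw [le_div_iff₀ (by have := 𝒜.Cpos; positivity)] at h
  linarith

theorem t1_le_one : 𝒜.t1 ≤ 1 := by
  nlinarith [𝒜.t1_le, one_le_pow₀ (n := 2) 𝒜.C1, 𝒜.t1_pos]

theorem isOpen_Ω (k : K) : IsOpen (𝒜.Ω k) :=
  ((𝒜.op k).preimage continuous_fst).inter (isOpen_lt continuous_snd.abs continuous_const)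

variable {𝒜} {k : K} {x x' : R2 × ℝ} {v : R2}

theorem mem0 (hv : v ∈ 𝒜.O k) : (v, (0 : ℝ)) ∈ 𝒜.Ω k := ⟨hv, by simpa using 𝒜.t1_pos⟩

theorem Φ0 (v : R2) : 𝒜.Φ k (v, 0) = 𝒜.φ k v := by simp [Φ]

theorem scpos (hv : v ∈ 𝒜.O k) : 0 < 𝒜.sc k v := lt_of_lt_of_le one_pos (𝒜.sc1 k v hv)

theorem jΦ (hx : x ∈ 𝒜.Ω k) :
    JB (𝒜.Φ k) x ‖𝒜.Φ k x‖ (4 * (𝒜.C * 𝒜.sc k x.1)) (4 * (𝒜.C * 𝒜.sc k x.1)) := by
  have h0 := (𝒜.jn k _ hx.1).n0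
  exact (((𝒜.jφ k _ hx.1).comp_fst.add (((JB.snd x).val (hx.2.le.trans 𝒜.t1_le_one)).smul
    (𝒜.jn k _ hx.1).comp_fst)).val le_rfl).mono le_rfl (by linarith) (by linarith)

theorem fderiv_Φ (hx : x ∈ 𝒜.Ω k) (u : R2 × ℝ) : fderiv ℝ (𝒜.Φ k) x u =
    fderiv ℝ (𝒜.φ k) x.1 u.1 + u.2 • n (𝒜.φ k x.1) +
      x.2 • fderiv ℝ (fun v => n (𝒜.φ k v)) x.1 u.1 := by
  rw [show fderiv ℝ (𝒜.Φ k) x = _ from (((𝒜.jφ k _ hx.1).has.comp x hasFDerivAt_fst).add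
    (hasFDerivAt_snd.smul ((𝒜.jn k _ hx.1).has.comp x hasFDerivAt_fst))).fderiv]
  simp only [add_apply, smul_apply, ContinuousLinearMap.comp_apply, ContinuousLinearMap.coe_fst',
    ContinuousLinearMap.smulRight_apply, ContinuousLinearMap.coe_snd', Function.comp]
  abel

theorem lowΦ (hx : x ∈ 𝒜.Ω k) (u : R2 × ℝ) :
    𝒜.sc k x.1 / (2 * 𝒜.C) * ‖u‖ ≤ ‖fderiv ℝ (𝒜.Φ k) x u‖ := by
  have hC := 𝒜.Cpos
  have h1 := 𝒜.low k _ hx.1 u.1 u.2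
  have h2 := (fderiv ℝ (fun v => n (𝒜.φ k v)) x.1).le_of_opNorm_le_of_le (𝒜.jn k _ hx.1).b1
    (norm_fst_le u)
  have h3 := norm_sub_le (fderiv ℝ (𝒜.Φ k) x u) (x.2 • fderiv ℝ (fun v => n (𝒜.φ k v)) x.1 u.1)
  rw [sub_eq_of_eq_add (fderiv_Φ hx u), norm_smul, Real.norm_eq_abs] at h3
  have h4 := mul_le_mul hx.2.le h2 (norm_nonneg _) 𝒜.t1_pos.le
  have h5 := mul_le_mul_of_nonneg_right 𝒜.t1_le (mul_nonneg (scpos hx.1).le (norm_nonneg u))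
  rw [div_mul_eq_mul_div, div_le_iff₀ (by positivity)]
  nlinarith [mul_le_mul_of_nonneg_left (h3.trans (add_le_add_right h4 _)) hC.le]

theorem bijΦ (hx : x ∈ 𝒜.Ω k) :
    Function.Injective (fderiv ℝ (𝒜.Φ k) x) ∧ Function.Surjective (fderiv ℝ (𝒜.Φ k) x) :=
  surj_of_low (by simp) (div_pos (scpos hx.1) (by linarith [𝒜.Cpos])) (lowΦ hx)

theorem n_ne (hv : v ∈ 𝒜.O k) : n (𝒜.φ k v) ≠ 0 := fun h => by
  have h1 := 𝒜.low k v hv 0 1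
  simp [h] at h1
  linarith [scpos hv]

theorem lowφ (hv : v ∈ 𝒜.O k) (u : R2) : 1 / 𝒜.C * ‖u‖ ≤ ‖fderiv ℝ (𝒜.φ k) v u‖ := by
  have h1 := 𝒜.low k v hv u 0
  rw [one_div_mul_eq_div, div_le_iff₀' 𝒜.Cpos]
  simp only [Prod.norm_mk, norm_zero, max_eq_left (norm_nonneg u), zero_smul, add_zero] at h1
  nlinarith [𝒜.sc1 k v hv, norm_nonneg u]

theorem injΦ (hx : x ∈ 𝒜.Ω k) (hx' : x' ∈ 𝒜.Ω k) (e : 𝒜.Φ k x = 𝒜.Φ k x') :
    𝒜.φ k x.1 = 𝒜.φ k x'.1 ∧ x.2 = x'.2 := by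
  have h1 := 𝒜.inj k _ hx.1 _ hx'.1 _ _ (hx.2.trans_le (min_le_left _ _))
    (hx'.2.trans_le (min_le_left _ _)) e
  refine ⟨h1, smul_left_injective ℝ (n_ne hx'.1) ?_⟩
  simpa only [Φ, h1, add_right_inj] using e

theorem wtΦ (hx : x ∈ 𝒜.Ω k) : 1 + ‖𝒜.φ k x.1‖ ≤ 2 * (1 + ‖𝒜.Φ k x‖) := by
  have h1 := norm_sub_le (𝒜.Φ k x) (x.2 • n (𝒜.φ k x.1))
  rw [Φ, add_sub_cancel_right, norm_smul, Real.norm_eq_abs, ← Φ] at h1
  have h2 := mul_le_mul hx.2.le ((𝒜.jn k _ hx.1).b0.trans (mul_le_mul_of_nonneg_left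
    (𝒜.scle k _ hx.1) 𝒜.Cpos.le)) (norm_nonneg _) 𝒜.t1_pos.le
  nlinarith [mul_le_mul_of_nonneg_right 𝒜.t1_le (by positivity : 0 ≤ 1 + ‖𝒜.φ k x.1‖)]

theorem signΦ (hx : x ∈ 𝒜.Ω k) : (0 < w (𝒜.Φ k x) → 0 < x.2) ∧ (w (𝒜.Φ k x) < 0 → x.2 < 0) ∧
    (w (𝒜.Φ k x) = 0 → x.2 = 0) := by
  obtain ⟨h1, h2⟩ := 𝒜.sign k _ hx.1 _ (hx.2.trans_le (min_le_left _ _))
  have h3 : x.2 = 0 → w (𝒜.Φ k x) = 0 := fun e => by simpa [Φ, e] using 𝒜.mem k _ hx.1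
  rcases lt_trichotomy x.2 0 with a | a | a
  · exact ⟨fun b => absurd (h2 a) b.not_gt, fun _ => a, fun b => absurd b (h2 a).ne⟩
  · exact ⟨fun b => absurd (h3 a) b.ne', fun b => absurd (h3 a) b.ne, fun _ => a⟩
  · exact ⟨fun _ => a, fun b => absurd (h1 a) b.not_gt, fun b => absurd b (h1 a).ne'⟩

theorem exists_chart {p : E3} (hp : w p = 0) : ∃ k, ∃ v ∈ 𝒜.O k, 𝒜.φ k v = p := by
  obtain ⟨k, -, hk⟩ := Finset.exists_ne_zero_of_sum_ne_zero ((𝒜.βsum p hp).trans_ne one_ne_zero)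
  exact ⟨k, 𝒜.βO k p hp hk⟩

theorem mem_ev (hv : v ∈ 𝒜.O k) : ∀ᶠ u in 𝓝 v, w (𝒜.φ k u) = 0 :=
  mem_of_superset ((𝒜.op k).mem_nhds hv) (𝒜.mem k)

variable {P Y : Type*} [NormedAddCommGroup P] [NormedSpace ℝ P] [NormedAddCommGroup Y]
  [NormedSpace ℝ Y]

variable (𝒜 k) in
/-- the cutoff of a piece -/
noncomputable def ρ (x : R2 × ℝ) : ℝ :=
  𝒜.β k (𝒜.φ k x.1) * bmp (𝒜.t1 / 4) (by linarith [𝒜.t1_pos]) x.2

open Classical in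
variable (𝒜 k) in
/-- the function on the ambient space given by `ρ • H` in the coordinates `Φ` -/
noncomputable def desc (H : P × R2 × ℝ → Y) (z : P × E3) : Y :=
  if h : ∃ x ∈ 𝒜.Ω k, 𝒜.Φ k x = z.2 then 𝒜.ρ k h.choose • H (z.1, h.choose) else 0

variable (𝒜 k) in
/-- admissible functions -/
structure Ok (H : P × R2 × ℝ → Y) : Prop where
  cd : ∀ a, ∀ x ∈ 𝒜.Ω k, ContDiffAt ℝ 2 H (a, x)
  cmp : ∀ a, ∀ v ∈ 𝒜.O k, ∀ v' ∈ 𝒜.O k, 𝒜.φ k v = 𝒜.φ k v' → ∀ t, H (a, v, t) = H (a, v', t)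

theorem ρ_nonneg (x : R2 × ℝ) : 0 ≤ 𝒜.ρ k x := mul_nonneg (𝒜.β0 _ _) (bmp _ _).nonneg

theorem ρ_small {t : ℝ} (ht : |t| ≤ 𝒜.t1 / 4) : 𝒜.ρ k (v, t) = 𝒜.β k (𝒜.φ k v) := by
  rw [ρ, bmp_one _ ht, mul_one]

variable (𝒜) in
theorem exists_jρ : ∃ c, 1 ≤ c ∧ ∀ k, ∀ x ∈ 𝒜.Ω k, JB (𝒜.ρ k) x c c c := by
  obtain ⟨c, h1, h2⟩ := exists_jb_supp (bmp (𝒜.t1 / 4) (by linarith [𝒜.t1_pos])).contDiff
    (bmp _ _).hasCompactSupport
  have h3 := one_le_mul_of_one_le_of_one_le 𝒜.C1 h1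
  exact ⟨4 * (𝒜.C * c), by linarith, fun k x hx => ((𝒜.jβ k _ hx.1).comp_fst.mul
    (h2 x.2).comp_snd).mono (by linarith) (by linarith) (by linarith)⟩

variable (𝒜) in
/-- the bound for the cutoffs -/
noncomputable def cρ : ℝ := 𝒜.exists_jρ.choose

theorem cρ1 : 1 ≤ 𝒜.cρ := 𝒜.exists_jρ.choose_spec.1

theorem jρ (hx : x ∈ 𝒜.Ω k) : JB (𝒜.ρ k) x 𝒜.cρ 𝒜.cρ 𝒜.cρ := 𝒜.exists_jρ.choose_spec.2 k x hx

variable {H : P × R2 × ℝ → Y}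

theorem Ok.eq (h : 𝒜.Ok k H) (a : P) (hx : x ∈ 𝒜.Ω k) :
    𝒜.desc k H (a, 𝒜.Φ k x) = 𝒜.ρ k x • H (a, x) := by
  have h1 : ∃ x' ∈ 𝒜.Ω k, 𝒜.Φ k x' = (a, 𝒜.Φ k x).2 := ⟨x, hx, rfl⟩
  obtain ⟨h2, h3⟩ := injΦ h1.choose_spec.1 hx h1.choose_spec.2
  rw [desc, dif_pos h1, ρ, ρ, h2, h3]
  exact congrArg _ ((congrArg (fun t => H (a, h1.choose.1, t)) h3).trans
    (h.cmp a _ h1.choose_spec.1.1 _ hx.1 h2 _))

theorem desc_zero (H : P × R2 × ℝ → Y) {z : P × E3} (hz : ¬∃ x ∈ 𝒜.Ω k, 𝒜.Φ k x = z.2) :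
    𝒜.desc k H =ᶠ[𝓝 z] fun _ => 0 := by
  have h0 := 𝒜.t1_pos
  have h2 : 𝒜.t1 ≤ 𝒜.τ := min_le_left _ _
  have h1 := (𝒜.closed k (𝒜.t1 / 2) (by linarith)).isOpen_compl.mem_nhds (x := z.2)
    fun ⟨v, a, t, b, e⟩ =>
      hz ⟨(v, t), ⟨𝒜.AO k a, by simp only; linarith⟩, e.symm⟩
  filter_upwards [continuous_snd.continuousAt.eventually h1] with y hy
  unfold desc
  split_ifs with h
  · obtain ⟨a, b⟩ := h.choose_spec
    refine smul_eq_zero_of_left (mul_eq_zero.2 (or_iff_not_imp_left.2 fun c => bmp_zero _ ?_)) _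
    refine not_lt.1 fun d => hy ⟨_, by_contra fun e => c (𝒜.βA k _ a.1 e), _, ?_, b.symm⟩
    linarith
  · rfl

theorem Ok.cd_desc (h : 𝒜.Ok k H) (a : P) (hx : x ∈ 𝒜.Ω k) :
    ContDiffAt ℝ 2 (𝒜.desc k H) (a, 𝒜.Φ k x) := by
  obtain ⟨Ψ, h1, h2, h3⟩ := ift2 (jΦ hx).cd (bijΦ hx)
  have h4 : ContDiffAt ℝ 2 (fun z : P × E3 => Ψ z.2) (a, 𝒜.Φ k x) :=
    ContDiffAt.comp (g := Ψ) (f := Prod.snd) _ h1 contDiffAt_snd
  have h5 := (ContDiffAt.comp (g := 𝒜.ρ k) _ (by simpa only [h2] using (jρ hx).cd) h4).smul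
    (ContDiffAt.comp (g := H) _ (by simpa only [h2] using h.cd a x hx) (contDiffAt_fst.prodMk h4))
  refine h5.congr_of_eventuallyEq ?_
  filter_upwards [continuous_snd.continuousAt.eventually h3, h4.continuousAt.eventually
    ((𝒜.isOpen_Ω k).mem_nhds (by simpa only [h2] using hx))] with y a1 a2
  have a3 := h.eq y.1 a2
  rw [a1] at a3
  exact a3

theorem Ok.joint (h : 𝒜.Ok k H) {c : ℝ} {q : ℕ} (hc : 0 ≤ c) (hb : ∀ a, ∀ x ∈ 𝒜.Ω k, JB H (a, x)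
    (c * (1 + ‖𝒜.φ k x.1‖) ^ q) (c * (1 + ‖𝒜.φ k x.1‖) ^ q) (c * (1 + ‖𝒜.φ k x.1‖) ^ q))
    (z : P × E3) : let b := 144 * 𝒜.C ^ 5 * 𝒜.cρ * 2 ^ (q + 1) * c * (1 + ‖z.2‖) ^ (q + 1)
      JB (𝒜.desc k H) z b b b := by
  have hC := 𝒜.C1
  have hρ := 𝒜.cρ1
  intro b
  by_cases hz : ∃ x ∈ 𝒜.Ω k, 𝒜.Φ k x = z.2
  swap
  · exact (JB.zero (desc_zero H hz)).mono (by positivity) (by positivity) (by positivity)
  obtain ⟨a, y⟩ := z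
  obtain ⟨x, hx, rfl : 𝒜.Φ k x = y⟩ := hz
  have hf : JB (fun z : P × R2 × ℝ => (z.1, 𝒜.Φ k z.2)) (a, x) _ _ _ :=
    (JB.fst _).prodMk (jΦ hx).comp_snd
  have hd : HasFDerivAt (fun z : P × R2 × ℝ => (z.1, 𝒜.Φ k z.2)) _ (a, x) :=
    hasFDerivAt_fst.prodMk (HasFDerivAt.comp (g := 𝒜.Φ k) (f := Prod.snd) (a, x) (jΦ hx).has
      hasFDerivAt_snd)
  have hl : ∀ u, 1 / (2 * 𝒜.C) * ‖u‖ ≤
      ‖fderiv ℝ (fun z : P × R2 × ℝ => (z.1, 𝒜.Φ k z.2)) (a, x) u‖ := fun u => by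
    rw [hd.fderiv]
    change _ * max ‖u.1‖ ‖u.2‖ ≤ max ‖u.1‖ ‖fderiv ℝ (𝒜.Φ k) x u.2‖
    rw [mul_max_of_nonneg _ _ (by positivity)]
    refine max_le_max (mul_le_of_le_one_left (norm_nonneg _) ?_) (le_trans ?_ (lowΦ hx _))
    · rw [div_le_one (by positivity)]
      linarith
    · gcongr
      exact 𝒜.sc1 k _ hx.1
  have hs : Function.Surjective (fderiv ℝ (fun z : P × R2 × ℝ => (z.1, 𝒜.Φ k z.2)) (a, x)) := by
    rw [hd.fderiv]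
    intro y
    obtain ⟨u, hu⟩ := (bijΦ hx).2 y.2
    exact ⟨(y.1, u), Prod.ext rfl hu⟩
  have h1 := JB.pull (f := fun z : P × R2 × ℝ => (z.1, 𝒜.Φ k z.2)) (x := (a, x)) (h.cd_desc a hx)
    ((jρ hx).comp_snd.smul (hb a x hx)) ((continuous_snd.continuousAt.eventually
    ((𝒜.isOpen_Ω k).mem_nhds hx)).mono fun y hy => (h.eq y.1 hy).symm) hf (by positivity) hs hl
  set W := 1 + ‖𝒜.φ k x.1‖
  have hW : 1 ≤ W := by simp [W]
  have h2 : W ^ (q + 1) ≤ 2 ^ (q + 1) * (1 + ‖𝒜.Φ k x‖) ^ (q + 1) := by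
    rw [← mul_pow]
    exact pow_le_pow_left₀ (by positivity) (wtΦ hx) _
  set e := 𝒜.cρ * (c * W ^ q)
  have he : 0 ≤ e := by positivity
  have h3 : 144 * (𝒜.C ^ 5 * W * e) ≤ b := by
    have := mul_le_mul_of_nonneg_left h2 (by positivity : 0 ≤ 144 * 𝒜.C ^ 5 * 𝒜.cρ * c)
    simp only [b, e]
    refine le_trans (le_of_eq ?_) (this.trans (le_of_eq ?_)) <;> ring
  have h4 : ∀ j, j ≤ 5 → 𝒜.C ^ j * e ≤ 𝒜.C ^ 5 * W * e := fun j hj =>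
    mul_le_mul_of_nonneg_right ((pow_le_pow_right₀ hC hj).trans
      (le_mul_of_one_le_right (by positivity) hW)) he
  have h5 := mul_le_mul_of_nonneg_left (𝒜.scle k _ hx.1) (by positivity : 0 ≤ 𝒜.C ^ 4 * e)
  refine h1.mono ?_ ((le_of_eq (b := 4 * (𝒜.C ^ 1 * e)) (by field_simp; ring)).trans ?_)
    ((le_of_eq (b := 16 * (𝒜.C ^ 2 * e) + 64 * (𝒜.C ^ 4 * e * 𝒜.sc k x.1))
      (by field_simp; ring)).trans ?_)
  · nlinarith [h4 0 (by norm_num), pow_zero 𝒜.C]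
  · nlinarith [h4 1 (by norm_num), mul_nonneg (by positivity : 0 ≤ 𝒜.C ^ 1) he]
  · nlinarith [h4 2 (by norm_num), mul_nonneg (by positivity : 0 ≤ 𝒜.C ^ 2) he]

theorem Ok.slice (h : 𝒜.Ok k H) {c : ℝ} (hc : 0 ≤ c) (a : P) (hb : ∀ x ∈ 𝒜.Ω k,
    JB (fun x => H (a, x)) x (c * 𝒜.sc k x.1) (c * 𝒜.sc k x.1) (c * 𝒜.sc k x.1)) (y : E3) :
    let b := 144 * 𝒜.C ^ 4 * 𝒜.cρ * c
    JB (fun y => 𝒜.desc k H (a, y)) y (b * (1 + ‖y‖)) b b := by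
  have hC := 𝒜.C1
  have hρ := 𝒜.cρ1
  intro b
  by_cases hz : ∃ x ∈ 𝒜.Ω k, 𝒜.Φ k x = y
  swap
  · exact (JB.zero (desc_zero H (z := (a, y)) hz)).slice.mono (by positivity) (by positivity)
      (by positivity)
  obtain ⟨x, hx, rfl⟩ := hz
  have hs := 𝒜.sc1 k _ hx.1
  have h1 := JB.pull (g := fun y => 𝒜.desc k H (a, y))
    ((h.cd_desc a hx).comp _ (contDiffAt_const.prodMk contDiffAt_id)) ((jρ hx).smul (hb x hx))
    (mem_of_superset ((𝒜.isOpen_Ω k).mem_nhds hx) fun y hy => (h.eq a hy).symm) (jΦ hx)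
    (by positivity) (bijΦ hx).2 (lowΦ hx)
  set e := 𝒜.cρ * c
  have he : 0 ≤ e := by positivity
  have h3 : b = 144 * (𝒜.C ^ 4 * e) := by simp only [b, e]; ring
  have h4 : ∀ j, j ≤ 4 → 𝒜.C ^ j * e ≤ 𝒜.C ^ 4 * e := fun j hj =>
    mul_le_mul_of_nonneg_right (pow_le_pow_right₀ hC hj) he
  refine h1.mono ?_ ((le_of_eq (b := 4 * (𝒜.C ^ 1 * e)) (by simp only [e]; field_simp; ring)).trans ?_)
    ((le_of_eq (b := (16 * (𝒜.C ^ 2 * e) + 64 * (𝒜.C ^ 4 * e)) / 𝒜.sc k x.1)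
      (by simp only [e]; field_simp; ring)).trans ((div_le_self (by positivity) hs).trans ?_))
  · have h5 := mul_le_mul_of_nonneg_left ((𝒜.scle k _ hx.1).trans (mul_le_mul_of_nonneg_left
      (wtΦ hx) 𝒜.Cpos.le)) he
    have h6 := mul_le_mul_of_nonneg_right (h4 1 (by norm_num))
      (by positivity : 0 ≤ 1 + ‖𝒜.Φ k x‖)
    have h7 : 0 ≤ 𝒜.C ^ 4 * e * (1 + ‖𝒜.Φ k x‖) := by positivity
    rw [h3, ← mul_assoc]
    nlinarith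
  · nlinarith [h4 1 (by norm_num), mul_nonneg (by positivity : 0 ≤ 𝒜.C ^ 1) he]
  · nlinarith [h4 2 (by norm_num), mul_nonneg (by positivity : 0 ≤ 𝒜.C ^ 2) he]

/-- the value of the extension on `S` -/
theorem sum_desc {H : K → P × R2 × ℝ → Y} (h : ∀ k, 𝒜.Ok k (H k)) (a : P) {p : E3} (hp : w p = 0)
    {b : Y} (hb : ∀ k, ∀ v ∈ 𝒜.O k, 𝒜.φ k v = p → H k (a, v, 0) = b) :
    ∑ k, 𝒜.desc k (H k) (a, p) = b := by
  rw [← one_smul ℝ b, ← 𝒜.βsum p hp, Finset.sum_smul]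
  refine Finset.sum_congr rfl fun k _ => ?_
  by_cases hz : ∃ x ∈ 𝒜.Ω k, 𝒜.Φ k x = p
  · obtain ⟨⟨v, t⟩, hx, rfl⟩ := hz
    obtain rfl : t = 0 := (signΦ hx).2.2 hp
    rw [(h k).eq a hx, ρ_small (by simpa using (div_pos 𝒜.t1_pos four_pos).le),
      hb k v hx.1 (Φ0 v).symm, Φ0]
  · rw [(desc_zero (H k) (z := (a, p)) hz).eq_of_nhds, eq_comm]
    refine smul_eq_zero_of_left (by_contra fun c => hz ?_) _
    obtain ⟨v, hv, e⟩ := 𝒜.βO k p hp c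
    exact ⟨(v, 0), mem0 hv, (Φ0 v).trans e⟩

/-- extension of functions of polynomial growth -/
theorem exists_ext {g : E3 → ℝ} {c : ℝ} {q : ℕ} (hc : 0 ≤ c) (hg : ∀ k, ∀ v ∈ 𝒜.O k,
    JB (fun v => g (𝒜.φ k v)) v (c * (1 + ‖𝒜.φ k v‖) ^ q) (c * (1 + ‖𝒜.φ k v‖) ^ q)
      (c * (1 + ‖𝒜.φ k v‖) ^ q)) : ∃ (ζ : E3 → ℝ) (c' : ℝ), (∀ p, w p = 0 → ζ p = g p) ∧ ∀ y,
      JB ζ y (c' * (1 + ‖y‖) ^ (q + 1)) (c' * (1 + ‖y‖) ^ (q + 1)) (c' * (1 + ‖y‖) ^ (q + 1)) := by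
  have h1 : ∀ k (a : ℝ), ∀ x ∈ 𝒜.Ω k, JB (fun z : ℝ × R2 × ℝ => g (𝒜.φ k z.2.1)) (a, x) _ _ _ :=
    fun k a x hx => JB.comp_snd (g := fun x : R2 × ℝ => g (𝒜.φ k x.1)) (hg k _ hx.1).comp_fst
  have h2 : ∀ k, 𝒜.Ok k fun z : ℝ × R2 × ℝ => g (𝒜.φ k z.2.1) := fun k =>
    ⟨fun a x hx => (h1 k a x hx).cd, fun a v _ v' _ e t => congrArg g e⟩
  refine ⟨fun y => ∑ k, 𝒜.desc k (fun z : ℝ × R2 × ℝ => g (𝒜.φ k z.2.1)) (0, y),
    Fintype.card K * 144 * 𝒜.C ^ 5 * 𝒜.cρ * 2 ^ (q + 1) * c, fun p hp => sum_desc h2 0 hp fun k v _ e => congrArg g e, fun y => ?_⟩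
  simpa only [← mul_assoc] using JB.sum' fun k => ((h2 k).joint hc (h1 k) (0, y)).slice

/-- a defining function with uniform bounds -/
theorem exists_w0 (𝒜 : Atlas w n K) (hw : Continuous w) : ∃ (w0 : E3 → ℝ) (M : ℝ), 1 ≤ M ∧
    (∀ y, JB w0 y |w0 y| M M) ∧ (∀ y, w0 y = 0 ↔ w y = 0) ∧
    ∀ p, w p = 0 → ‖n p‖ ≤ M * fderiv ℝ w0 p (n p) := by
  have hC := 𝒜.C1
  have hρ := 𝒜.cρ1
  set H : K → ℝ × R2 × ℝ → ℝ := fun k z => 𝒜.sc k z.2.1 * z.2.2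
  have h1 : ∀ k, ∀ x ∈ 𝒜.Ω k, JB (fun x : R2 × ℝ => 𝒜.sc k x.1 * x.2) x (3 * 𝒜.C * 𝒜.sc k x.1)
      (3 * 𝒜.C * 𝒜.sc k x.1) (3 * 𝒜.C * 𝒜.sc k x.1) := fun k x hx => by
    have := (𝒜.jsc k _ hx.1).n0
    exact ((𝒜.jsc k _ hx.1).comp_fst.mul ((JB.snd x).val (hx.2.le.trans 𝒜.t1_le_one))).mono
      (by linarith) (by linarith) (by linarith)
  have h2 : ∀ k, 𝒜.Ok k (H k) := fun k => ⟨fun a x hx => (JB.comp_snd (z := (a, x)) (h1 k x hx)).cd,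
    fun a v hv v' hv' e t => congrArg (· * t) (𝒜.sceq k v hv v' hv' e)⟩
  have h3 : ∀ k, 𝒜.Ok k fun _ : ℝ × R2 × ℝ => (1 : ℝ) := fun k =>
    ⟨fun _ _ _ => contDiffAt_const, fun _ _ _ _ _ _ _ => rfl⟩
  set T : K → E3 → ℝ := fun k y => 𝒜.desc k (H k) (0, y)
  set r : K → E3 → ℝ := fun k y => 𝒜.desc k (fun _ : ℝ × R2 × ℝ => (1 : ℝ)) (0, y)
  have jT := fun y => JB.sum' (g := T) fun k => (h2 k).slice (by positivity) 0 (h1 k) y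
  have jr := fun y => JB.sum' (g := r) fun k => (h3 k).slice zero_le_one 0 (fun x hx =>
    (JB.const (1 : ℝ) x).mono (by simpa using 𝒜.sc1 k _ hx.1) (by simpa using (scpos hx.1).le)
      (by simpa using (scpos hx.1).le)) y
  obtain ⟨c, hc, jg⟩ := exists_jb_supp (bmp (1 / 4) (by norm_num)).contDiff
    (bmp _ _).hasCompactSupport
  set g : E3 → ℝ := fun y => bmp (1 / 4) (by norm_num) (∑ k, r k y)
  have jg' := fun y => (jg _).comp (jr y)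
  set s : E3 → ℝ := fun y => if 0 < w y then g y else -g y
  have hs0 : ∀ p, w p = 0 → s =ᶠ[𝓝 p] fun _ => 0 := fun p hp => by
    filter_upwards [continuousAt_const.eventually_lt (jr p).cd.continuousAt
      (show 1 / 2 < _ from one_half_lt_one.trans_eq (sum_desc h3 0 hp fun _ _ _ _ => rfl).symm)]
      with y hy
    have : g y = 0 := bmp_zero _ (le_trans (by linarith) (le_abs_self _))
    simp [s, this]
  have js : ∀ y, JB s y c _ _ := fun y => by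
    rcases lt_trichotomy (w y) 0 with a | a | a
    · exact (jg' y).neg.congr ((hw.continuousAt.eventually_lt continuousAt_const a).mono
        fun x hx => if_neg hx.not_gt)
    · exact (JB.zero (hs0 y a)).mono (jg' y).n0 (jg' y).n1 (jg' y).n2
    · exact (jg' y).congr ((continuousAt_const.eventually_lt hw.continuousAt a).mono
        fun x hx => if_pos hx)
  have hT : ∀ k y, 0 ≤ r k y ∧ ∃ l, T k y = r k y * l ∧ (0 < w y → 0 < l) ∧ (w y < 0 → l < 0) ∧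
      (w y = 0 → l = 0) := fun k y => by
    by_cases hz : ∃ x ∈ 𝒜.Ω k, 𝒜.Φ k x = y
    · obtain ⟨x, hx, rfl⟩ := hz
      obtain ⟨a1, a2, a3⟩ := signΦ hx
      simp only [T, r, (h2 k).eq 0 hx, (h3 k).eq 0 hx, smul_eq_mul, mul_one]
      exact ⟨ρ_nonneg x, _, rfl, fun a => mul_pos (scpos hx.1) (a1 a),
        fun a => mul_neg_of_pos_of_neg (scpos hx.1) (a2 a), fun a => mul_eq_zero_of_right _ (a3 a)⟩
    · simp only [T, r, (desc_zero _ (z := ((0 : ℝ), y)) hz).eq_of_nhds]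
      exact ⟨le_rfl, w y, (zero_mul _).symm, id, id, id⟩
  choose r0 l e1 e2 e3 e4 using hT
  have key : ∀ (y : E3) (l : K → ℝ), (∀ k, 0 < l k) → 0 < ∑ k, r k y * l k + g y := fun y l hl => by
    by_cases a : ∀ k, r k y = 0
    · simp [g, a, bmp_one]
    · obtain ⟨k, hk⟩ := not_forall.1 a
      exact add_pos_of_pos_of_nonneg (Finset.sum_pos' (fun i _ => mul_nonneg (r0 i y) (hl i).le)
        ⟨k, Finset.mem_univ _, mul_pos ((r0 k y).lt_of_ne' hk) (hl k)⟩) (bmp _ _).nonneg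
  have jw := fun y => (jT y).add (js y)
  obtain ⟨M1, M2, jw'⟩ : ∃ M1 M2, ∀ y, JB (fun y => ∑ k, T k y + s y) y |∑ k, T k y + s y| M1 M2 :=
    ⟨_, _, fun y => (jw y).val le_rfl⟩
  have m1 := (jw' 0).n1
  have m2 := (jw' 0).n2
  refine ⟨_, 𝒜.C + M1 + M2, by linarith, fun y => (jw' y).mono le_rfl (by linarith) (by linarith),
    fun y => ⟨fun a => ?_, fun a => ?_⟩, fun p hp => ?_⟩
  · simp only [e1] at a
    rcases lt_trichotomy (w y) 0 with b | b | b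
    · have := key y (fun k => -l k y) fun k => neg_pos.2 (e3 k y b)
      simp only [mul_neg, Finset.sum_neg_distrib, s, if_neg b.not_gt] at this a
      linarith
    · exact b
    · have := key y (fun k => l k y) fun k => e2 k y b
      simp only [s, if_pos b] at a
      linarith
  · simp only [e1, e4 _ y a, (hs0 y a).eq_of_nhds, mul_zero, Finset.sum_const_zero, add_zero]
  have hl : HasDerivAt (fun t : ℝ => p + t • n p) (n p) 0 := by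
    simpa using ((hasDerivAt_id (0 : ℝ)).smul_const (n p)).const_add p
  have hl' : Tendsto (fun t : ℝ => p + t • n p) (𝓝 0) (𝓝 p) := by
    simpa using hl.continuousAt.tendsto
  have hd : ∀ k, ∃ d, HasDerivAt (fun t : ℝ => T k (p + t • n p)) d 0 ∧
      𝒜.β k p * ‖n p‖ ≤ 𝒜.C * d := fun k => by
    by_cases hz : ∃ x ∈ 𝒜.Ω k, 𝒜.Φ k x = p
    · obtain ⟨⟨v, t⟩, hx, rfl⟩ := hz
      obtain rfl : t = 0 := (signΦ hx).2.2 hp
      rw [Φ0]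
      refine ⟨_, (((hasDerivAt_id (0 : ℝ)).const_mul (𝒜.sc k v)).const_mul
        (𝒜.β k (𝒜.φ k v))).congr_of_eventuallyEq ?_, ?_⟩
      · filter_upwards [closedBall_mem_nhds (0 : ℝ) (div_pos 𝒜.t1_pos four_pos)] with t ht
        have ht' : |t| ≤ 𝒜.t1 / 4 := mem_closedBall_zero_iff.1 ht
        exact ((h2 k).eq 0 (x := (v, t)) ⟨hx.1, ht'.trans_lt (by linarith [𝒜.t1_pos])⟩).trans
          (by rw [ρ_small ht']; rfl)
      · have := mul_le_mul_of_nonneg_left (𝒜.jn k v hx.1).b0 (𝒜.β0 k (𝒜.φ k v))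
        linarith
    · refine ⟨0, (hasDerivAt_const _ _).congr_of_eventuallyEq (hl'.eventually
        ((Continuous.prodMk_right (0 : ℝ)).continuousAt.eventually
          (desc_zero (H k) (z := (0, p)) hz))), ?_⟩
      have : 𝒜.β k p = 0 := by_contra fun c => by
        obtain ⟨v, hv, e⟩ := 𝒜.βO k p hp c
        exact hz ⟨(v, 0), mem0 hv, (Φ0 v).trans e⟩
      simp [this]
  choose d d1 d2 using hd
  have a1 := ((HasDerivAt.fun_sum fun k (_ : k ∈ Finset.univ) => d1 k).fun_add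
    ((hasDerivAt_const (0 : ℝ) (0 : ℝ)).congr_of_eventuallyEq (hl'.eventually (hs0 p hp)))).unique
    (HasFDerivAt.comp_hasDerivAt_of_eq (0 : ℝ) (jw' p).has hl (by simp))
  have a2 := Finset.sum_le_sum fun k (_ : k ∈ Finset.univ) => d2 k
  rw [← Finset.sum_mul, 𝒜.βsum p hp, ← Finset.mul_sum, one_mul] at a2
  rw [← a1, add_zero]
  have a3 : 0 ≤ ∑ k, d k := nonneg_of_mul_nonneg_right ((norm_nonneg _).trans a2) 𝒜.Cpos
  nlinarith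

end Atlas

end Vale.Agent.P218N.D6
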