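import Vale.Agent.P218N.D6.Ext

/-! The family of tube functions attached to a family of normal graphs over `S`. -/

open Set Filter Topology Metric
open scoped RealInnerProductSpace

namespace Vale.Agent.P218N.D6

open Vale.Agent.P218.H313 Vale.Agent.P218.H63 Vale.Agent.P218N.H Vale.Agent.P218N.G

set_option linter.unusedSectionVars false
set_option maxSynthPendingDepth 3

theorem wt_mono {E : Type*} [NormedAddCommGroup E] {K K' : ℝ} {q q' : ℕ} (h0 : 0 ≤ K')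
    (hK : K ≤ K') (hq : q ≤ q') (y : E) : K * (1 + ‖y‖) ^ q ≤ K' * (1 + ‖y‖) ^ q' :=
  mul_le_mul hK (pow_le_pow_right₀ (by simp) hq) (by positivity) h0

theorem Dif.mono {P E : Type*} [NormedAddCommGroup P] [NormedSpace ℝ P] [NormedAddCommGroup E]
    [InnerProductSpace ℝ E] {Z : P × E → E} {M M' : ℝ} {q q' : ℕ} (h : Dif Z M q) (hM : M ≤ M')
    (hq : q ≤ q') : Dif Z M' q' :=
  have h1 := wt_mono (E := E) (by linarith [h.one_le]) hM hq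
  ⟨h.one_le.trans hM, fun z => (h.jb z).mono (h1 _) (h1 _) (h1 _), h.near,
    fun a y => (h.d2 a y).trans hM, fun a => (h.z0 a).trans hM⟩

theorem tube_mono {E : Type*} [NormedAddCommGroup E] [InnerProductSpace ℝ E]
    [FiniteDimensional ℝ E] {W : E → ℝ} {c K K' : ℝ} (h : Tube0 W c K) (hK : K ≤ K') :
    Tube0 W c K' :=
  ⟨h.cpos, h.smooth, fun x => (h.b0 x).trans hK, fun x => (h.b1 x).trans hK,
    fun x => (h.b2 x).trans hK, fun x => (h.bx x).trans hK, h.eik⟩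

variable {ι : Type} [Fintype ι] [DecidableEq ι]

theorem exists_cut {α : ℝ} (hα : 0 < α) : ∃ (g : (ι → ℝ) → ι → ℝ) (K : ℝ), 1 ≤ K ∧
    (∀ a, ‖g a‖ ≤ 2 * α) ∧ (∀ a, ‖a‖ ≤ α → g a = a) ∧ ∀ a, JB g a (2 * α) K K := by
  obtain ⟨K, hK, h⟩ := exists_Theta hα
  have h0 : ∀ a : ι → ℝ, ‖fun i => Theta α hα (a i)‖ ≤ 2 * α := fun a =>
    (pi_norm_le_iff_of_nonneg (by positivity)).2 fun i => Theta_le hα _
  refine ⟨fun a i => Theta α hα (a i), Fintype.card ι * (1 + K) + 1, by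
    nlinarith [Nat.cast_nonneg (α := ℝ) (Fintype.card ι)], h0,
    fun a ha => funext fun i => Theta_eq hα ((norm_le_pi_norm a i).trans ha), fun a => ?_⟩
  have h1 := JB.sum' fun i => (JB.comp (f := ContinuousLinearMap.proj (R := ℝ) i) (h _).2
    ((JB.clm _ a).mono le_rfl (ContinuousLinearMap.opNorm_le_bound _ zero_le_one fun x => by
      simpa using norm_le_pi_norm x i) le_rfl)).lin (ContinuousLinearMap.single ℝ (fun _ => ℝ) i)
    (ContinuousLinearMap.norm_single_le_one ℝ _ i)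
  refine ((h1.congr (Eventually.of_forall fun x => ?_)).val (h0 a)).mono le_rfl ?_ ?_
  · exact (Finset.univ_sum_single _).symm
  · nlinarith [Nat.cast_nonneg (α := ℝ) (Fintype.card ι)]
  · nlinarith [Nat.cast_nonneg (α := ℝ) (Fintype.card ι)]

variable {w : E3 → ℝ} {n : E3 → E3} {K : Type} [Fintype K]

/-- a family of small normal graphs `T x` followed by a field `1 + Rm x` of linear maps -/
structure Mid (𝒜 : Atlas w n K) (T : (ι → ℝ) → E3 → ℝ) (Rm : (ι → ℝ) → E3 → E3 →L[ℝ] E3)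
    (ε δ M : ℝ) (q : ℕ) : Prop where
  δ0 : 0 < δ
  M1 : 1 ≤ M
  ε0 : 0 ≤ ε
  εs : Fintype.card K * (144 * 𝒜.C ^ 4 * 𝒜.cρ * (4 * ε * 𝒜.C)) ≤ 1 / 4
  εs' : ε ≤ 1 / 16
  jT : ∀ x, ‖x‖ < δ → ∀ k, ∀ v ∈ 𝒜.O k, JB (fun z : (ι → ℝ) × R2 => T z.1 (𝒜.φ k z.2)) (x, v)
    (M * (1 + ‖𝒜.φ k v‖) ^ q) (M * (1 + ‖𝒜.φ k v‖) ^ q) (M * (1 + ‖𝒜.φ k v‖) ^ q)
  sT : ∀ x, ‖x‖ < δ → ∀ k, ∀ v ∈ 𝒜.O k, JB (fun v => T x (𝒜.φ k v)) v ε ε ε
  rT : ∀ x, ‖x‖ < δ → ∀ k, ∀ v ∈ 𝒜.O k,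
    𝒜.sc k v * |fderiv ℝ (fun v => T x (𝒜.φ k v)) v (𝒜.xi k v)| ≤ M
  T0 : ∀ k, ∀ v ∈ 𝒜.O k, T 0 (𝒜.φ k v) = 0
  jR : ∀ x, ‖x‖ < δ → ∀ y, JB (fun z : (ι → ℝ) × E3 => Rm z.1 z.2) (x, y) M M M
  sR : ∀ x, ‖x‖ < δ → ∀ y, JB (Rm x) y ε (ε / (1 + ‖y‖)) (M / (1 + ‖y‖) ^ 2)
  R0 : ∀ y, Rm 0 y = 0
  rR : ∀ x, ‖x‖ < δ → ∀ k, ∀ v ∈ 𝒜.O k, fderiv ℝ (fun v => Rm x (𝒜.φ k v)) v (𝒜.xi k v) = 0

/-- the ambient maps `Z a` and the tube functions `V a` of the surfaces `Z a (S)` -/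
structure Fam (w : E3 → ℝ) (n : E3 → E3) (T : (ι → ℝ) → E3 → ℝ)
    (Rm : (ι → ℝ) → E3 → E3 →L[ℝ] E3) (Z : (ι → ℝ) × E3 → E3) (V : (ι → ℝ) × E3 → ℝ)
    (α c M : ℝ) (q : ℕ) : Prop where
  α0 : 0 < α
  dif : Dif Z M q
  onS : ∀ a, ‖a‖ ≤ α → ∀ p, w p = 0 → Z (a, p) = p + T a p • n p + Rm a p (p + T a p • n p)
  Z0 : ∀ y, Z (0, y) = y
  tube : ∀ a, Tube0 (fun y => V (a, y)) c M
  jV : ∀ z, JB V z 1 (M * (1 + ‖z.2‖) ^ q) (M * (1 + ‖z.2‖) ^ q)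
  zero : ∀ a y, V (a, Z (a, y)) = 0 ↔ w y = 0
  ric : ∀ a y, |V (a, y)| < c → ∃ p, w p = 0 ∧ ‖y - Z (a, p)‖ = |V (a, y)| ∧
    |ricE (fun y => V (a, y)) y - ricE (fun y => V (a, y)) (Z (a, p))| ≤ M * V (a, y) ^ 2
  ori : ∀ p, w p = 0 → 0 < ⟪grad (fun y => V (0, y)) p, n p⟫

namespace Mid

variable {𝒜 : Atlas w n K} {T : (ι → ℝ) → E3 → ℝ} {Rm : (ι → ℝ) → E3 → E3 →L[ℝ] E3}
  {ε δ M : ℝ} {q : ℕ} (h : Mid 𝒜 T Rm ε δ M q)
include h

theorem rad {x : ι → ℝ} (hx : ‖x‖ < δ) {k : K} {v : R2} (hv : v ∈ 𝒜.O k) {X : R2 → E3}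
    (e : X =ᶠ[𝓝 v] fun v => 𝒜.φ k v + T x (𝒜.φ k v) • n (𝒜.φ k v) +
      Rm x (𝒜.φ k v) (𝒜.φ k v + T x (𝒜.φ k v) • n (𝒜.φ k v))) :
    ‖X v - fderiv ℝ X v (𝒜.xi k v)‖ ≤ 2 * (2 * 𝒜.C + 𝒜.C * M) := by
  have h1 := (𝒜.jφ k v hv).has.fun_add ((h.sT x hx k v hv).has.fun_smul (𝒜.jn k v hv).has)
  have h2 := (JB.comp (f := 𝒜.φ k) (h.sR x hx _) (𝒜.jφ k v hv)).has
  rw [e.fderiv_eq, e.eq_of_nhds, (h1.fun_add (h2.clm_apply h1)).fderiv]
  have h3 := 𝒜.radφ k v hv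
  have h4 := 𝒜.radn k v hv
  have h5 := h.rT x hx k v hv
  have h6 := (h.sT x hx k v hv).b0
  have h7 := (h.sR x hx (𝒜.φ k v)).b0
  have h8 := (𝒜.jn k v hv).b0
  simp only [add_apply, smul_apply, ContinuousLinearMap.comp_apply, h.rR x hx k v hv,
    ContinuousLinearMap.flip_apply, ContinuousLinearMap.smulRight_apply, zero_apply, add_zero]
  set y := 𝒜.φ k v - fderiv ℝ (𝒜.φ k) v (𝒜.xi k v) + T x (𝒜.φ k v) • (n (𝒜.φ k v) -
    fderiv ℝ (fun v => n (𝒜.φ k v)) v (𝒜.xi k v)) -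
    fderiv ℝ (fun v => T x (𝒜.φ k v)) v (𝒜.xi k v) • n (𝒜.φ k v) with hy
  have h9 : ‖y‖ ≤ 2 * 𝒜.C + 𝒜.C * M := by
    refine (norm_sub_le_of_le (norm_add_le_of_le h3 (norm_smul_le _ _)) (norm_smul_le _ _)).trans ?_
    have a1 := mul_le_mul (h6.trans (h.εs'.trans (by norm_num : (1 : ℝ) / 16 ≤ 1))) h4
      (norm_nonneg _) zero_le_one
    have a2 := mul_le_mul_of_nonneg_left h8
      (norm_nonneg (fderiv ℝ (fun v => T x (𝒜.φ k v)) v (𝒜.xi k v)))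
    have a3 := mul_le_mul_of_nonneg_left h5 𝒜.Cpos.le
    rw [← Real.norm_eq_abs] at a3
    linarith
  have h10 := (Rm x (𝒜.φ k v)).le_of_opNorm_le (h7.trans (h.εs'.trans
    (by norm_num : (1 : ℝ) / 16 ≤ 1))) y
  refine le_trans (le_of_eq (congrArg norm ?_)) ((norm_add_le y _).trans (by linarith))
  simp only [hy, map_add, map_sub, map_smul, smul_sub]
  abel

theorem exists_dif : ∃ (Z : (ι → ℝ) × E3 → E3) (g : (ι → ℝ) → ι → ℝ) (M' : ℝ) (q' : ℕ),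
    Dif Z M' q' ∧ (∀ a, ‖g a‖ < δ) ∧ (∀ a, ‖a‖ ≤ δ / 4 → g a = a) ∧ (∀ y, Z (0, y) = y) ∧
    ∀ a p, w p = 0 → Z (a, p) = p + T (g a) p • n p + Rm (g a) p (p + T (g a) p • n p) := by
  have hδ := h.δ0
  have hM := h.M1
  have hC := 𝒜.C1
  have hε := h.ε0
  have hρ := 𝒜.cρ1
  obtain ⟨g, L, hL, g1, g2, g3⟩ := exists_cut (ι := ι) (show 0 < δ / 4 by positivity)
  have g4 : ∀ a, ‖g a‖ < δ := fun a => (g1 a).trans_lt (by linarith)
  set H : K → (ι → ℝ) × R2 × ℝ → E3 := fun k z => T (g z.1) (𝒜.φ k z.2.1) • n (𝒜.φ k z.2.1)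
  have j1 : ∀ k a, ∀ x ∈ 𝒜.Ω k, let b := 4 * (M * ((L + 1) ^ 2 + L)) * 𝒜.C ^ 2 *
      (1 + ‖𝒜.φ k x.1‖) ^ (q + 1)
      JB (H k) (a, x) b b b := fun k a x hx => by
    have a1 := JB.comp (f := fun z : (ι → ℝ) × R2 × ℝ => (g z.1, z.2.1)) (x := (a, x))
      (h.jT _ (g4 a) k _ hx.1) ((g3 a).comp_fst.prodMk (JB.fst x).comp_snd)
    have a2 := (JB.comp_snd (z := (a, x)) (𝒜.jn k _ hx.1).comp_fst)
    have a3 := mul_le_mul_of_nonneg_left (𝒜.scle k _ hx.1) 𝒜.Cpos.le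
    set W := 1 + ‖𝒜.φ k x.1‖
    have a4 : 0 ≤ M * W ^ q := by positivity
    have a5 := (a1.mono (b0 := M * W ^ q * ((L + 1) ^ 2 + L)) (b1 := M * W ^ q * ((L + 1) ^ 2 + L))
      (b2 := M * W ^ q * ((L + 1) ^ 2 + L)) (le_mul_of_one_le_right a4 (by nlinarith))
      (mul_le_mul_of_nonneg_left (by nlinarith) a4) (le_of_eq (by ring))).smul (a2.mono a3 a3 a3)
    have a6 := a5.n0
    intro b
    have a7 : b = 4 * (M * W ^ q * ((L + 1) ^ 2 + L) * (𝒜.C * (𝒜.C * W))) := by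
      simp only [b]
      ring
    exact a5.mono (by linarith) (by linarith) (by linarith)
  have ok : ∀ k, 𝒜.Ok k (H k) := fun k => ⟨fun a x hx => (j1 k a x hx).cd,
    fun a v _ v' _ e t => by simp only [H, e]⟩
  set D : (ι → ℝ) × E3 → E3 := fun z => ∑ k, 𝒜.desc k (H k) z
  obtain ⟨c, hc, jD⟩ : ∃ c, 0 ≤ c ∧ ∀ z : (ι → ℝ) × E3, JB D z (c * (1 + ‖z.2‖) ^ (q + 2))
      (c * (1 + ‖z.2‖) ^ (q + 2)) (c * (1 + ‖z.2‖) ^ (q + 2)) :=
    ⟨Fintype.card K * (144 * 𝒜.C ^ 5 * 𝒜.cρ * 2 ^ (q + 1 + 1) *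
      (4 * (M * ((L + 1) ^ 2 + L)) * 𝒜.C ^ 2)), by positivity, fun z => by
      simpa only [mul_assoc] using JB.sum' fun k => (ok k).joint (by positivity) (j1 k) z⟩
  have sD : ∀ a y, JB (fun y => D (a, y)) y (1 / 4 * (1 + ‖y‖)) (1 / 4) (1 / 4) := fun a y => by
    refine (JB.sum' fun k => (ok k).slice (c := 4 * ε * 𝒜.C) (by positivity) a
      (fun x hx => ?_) y).mono ?_ h.εs h.εs
    · have a1 := ((h.sT _ (g4 a) k _ hx.1).smul (𝒜.jn k _ hx.1)).comp_fst (z := x)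
      have a2 := a1.n0
      exact a1.mono (by linarith) (by linarith) (by linarith)
    · rw [← mul_assoc]
      exact mul_le_mul_of_nonneg_right h.εs (by positivity)
  have sY : ∀ a y, JB (fun y => y + D (a, y)) y (2 * (1 + ‖y‖)) 2 1 := fun a y =>
    ((JB.id' y).add (sD a y)).mono (by linarith [norm_nonneg y]) (by norm_num) (by norm_num)
  have sE : ∀ a y, JB (fun y => Rm (g a) y (y + D (a, y))) y (1 + ‖y‖) (1 / 4) (2 * M + 1) :=
    fun a y => by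
      have hW : 1 ≤ 1 + ‖y‖ := by simp
      have a1 := div_le_self hε hW
      have a2 : M / (1 + ‖y‖) ≤ M := div_le_self (by linarith) hW
      refine ((h.sR _ (g4 a) y).app (sY a y)).mono (by nlinarith [h.εs']) ?_ ?_
      · rw [← mul_assoc, mul_right_comm, div_mul_cancel₀ _ (by positivity)]
        linarith [h.εs']
      · rw [show M / (1 + ‖y‖) ^ 2 * (2 * (1 + ‖y‖)) = 2 * (M / (1 + ‖y‖)) by field_simp]
        linarith [h.εs']
  have jY : ∀ z : (ι → ℝ) × E3, JB (fun z : (ι → ℝ) × E3 => z.2 + D z) z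
      ((1 + c) * (1 + ‖z.2‖) ^ (q + 2)) ((1 + c) * (1 + ‖z.2‖) ^ (q + 2))
      ((1 + c) * (1 + ‖z.2‖) ^ (q + 2)) := fun z => by
    have a1 : (1 + ‖z.2‖) ^ 1 ≤ (1 + ‖z.2‖) ^ (q + 2) := pow_le_pow_right₀ (by simp) (by omega)
    exact ((JB.snd z).add (jD z)).mono (by linarith) (by linarith [norm_nonneg z.2])
      (by linarith [norm_nonneg z.2])
  have jR : ∀ z : (ι → ℝ) × E3, JB (fun z : (ι → ℝ) × E3 => Rm (g z.1) z.2) z
      (M * ((L + 1) ^ 2 + L)) (M * ((L + 1) ^ 2 + L)) (M * ((L + 1) ^ 2 + L)) := fun z =>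
    (JB.comp (f := fun z : (ι → ℝ) × E3 => (g z.1, z.2)) (h.jR _ (g4 z.1) z.2)
      ((g3 z.1).comp_fst.prodMk (JB.snd z))).mono
      (le_mul_of_one_le_right (by linarith) (by nlinarith))
      (mul_le_mul_of_nonneg_left (by nlinarith) (by linarith)) (le_of_eq (by ring))
  set N := M * ((L + 1) ^ 2 + L)
  have hN : M ≤ N := le_mul_of_one_le_right (by linarith) (by nlinarith)
  refine ⟨fun z => z.2 + D z + Rm (g z.1) z.2 (z.2 + D z), g, (1 + 4 * N) * (1 + c), q + 2,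
    ⟨by nlinarith, fun z => ?_, fun a y => ?_, fun a y => ?_, fun a => ?_⟩, g4, g2, fun y => ?_,
    fun a p hp => ?_⟩
  · have a1 := (jY z).n0
    have a2 := mul_nonneg (by linarith : 0 ≤ N) a1
    exact ((jY z).add ((jR z).app (jY z))).mono (by linarith) (by linarith) (by linarith)
  · rw [show fderiv ℝ (fun y => y + D (a, y) + Rm (g a) y (y + D (a, y))) y = _ from
      (((hasFDerivAt_id y).fun_add (sD a y).has).fun_add (sE a y).has).fderiv, add_assoc,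
      add_sub_cancel_left]
    exact (norm_add_le_of_le (sD a y).b1 (sE a y).b1).trans (by norm_num)
  · exact ((sY a y).add (sE a y)).b2.trans (by nlinarith)
  · exact ((sY a 0).add (sE a 0)).b0.trans (by simp only [norm_zero]; nlinarith)
  · have a1 : g 0 = 0 := g2 0 (by rw [norm_zero]; positivity)
    have a2 : D (0, y) = 0 := Finset.sum_eq_zero fun k _ => by
      unfold Atlas.desc
      split_ifs with a
      · simp only [H, a1, h.T0 k _ a.choose_spec.1.1, zero_smul, smul_zero]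
      · rfl
    simp only [a1, a2, h.R0, add_zero, zero_apply]
  · have a1 : D (a, p) = T (g a) p • n p := Atlas.sum_desc ok a hp fun k v _ e => by
      simp only [H, e]
    simp only [a1]

theorem exists_fam (hw : Continuous w) : ∃ Z V α c M' q', α < δ ∧ Fam w n T Rm Z V α c M' q' := by
  obtain ⟨Z, g, M1, q1, h1, g1, g2, h2, h3⟩ := h.exists_dif
  obtain ⟨w0, M0, m0, j0, z0, d0⟩ := 𝒜.exists_w0 hw
  have hC := 𝒜.C1
  have hM := h.M1
  have m1 := h1.one_le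
  have h4 := h1.mono (M' := M1 + M0 + 2 * (2 * 𝒜.C + 𝒜.C * M)) (by nlinarith) le_rfl
  have d1 : ∀ p, w p = 0 → 0 < fderiv ℝ w0 p (n p) := fun p hp => by
    obtain ⟨k, v, hv, rfl⟩ := 𝒜.exists_chart hp
    exact (mul_pos_iff_of_pos_left (by linarith)).1
      ((norm_pos_iff.2 (Atlas.n_ne hv)).trans_le (d0 _ hp))
  obtain ⟨f, M2, q2, hf, e⟩ := h4.exists_lev (w := w0)
    (fun y => (j0 y).mono le_rfl (by nlinarith) (by nlinarith)) (fun y hy => by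
      obtain ⟨k, v, hv, rfl⟩ := 𝒜.exists_chart ((z0 _).1 hy)
      have a1 := (d0 _ ((z0 _).1 hy)).trans (mul_le_mul_of_nonneg_left ((le_abs_self _).trans
        ((fderiv ℝ w0 (𝒜.φ k v)).le_opNorm _)) (by linarith))
      rw [← mul_assoc] at a1
      refine ((le_mul_iff_one_le_left (norm_pos_iff.2 (Atlas.n_ne hv))).1 a1).trans ?_
      exact mul_le_mul_of_nonneg_right (by nlinarith) (norm_nonneg _)) (fun a p ν hp hν ho => by
      obtain ⟨k, v, hv, rfl⟩ := 𝒜.exists_chart ((z0 _).1 hp)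
      have a1 := h.rad (g1 a) hv (X := fun v => Z (a, 𝒜.φ k v))
        ((Atlas.mem_ev hv).mono fun u hu => h3 a _ hu)
      have a2 := ((j0 _).has.comp v (𝒜.jφ k v hv).has).unique ((hasFDerivAt_const (0 : ℝ)
        v).congr_of_eventuallyEq ((Atlas.mem_ev hv).mono fun u hu => (z0 _).2 hu))
      have a3 := ho (fderiv ℝ (𝒜.φ k) v (𝒜.xi k v)) (congrArg (fun L : R2 →L[ℝ] ℝ => L (𝒜.xi k v)) a2)
      rw [show fderiv ℝ (fun v => Z (a, 𝒜.φ k v)) v = _ from (HasFDerivAt.comp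
        (g := fun y => Z (a, y)) v (h1.jb (a, _)).slice.has (𝒜.jφ k v hv).has).fderiv] at a1
      have a4 := abs_real_inner_le_norm ν (Z (a, 𝒜.φ k v) - fderiv ℝ (fun y => Z (a, y)) (𝒜.φ k v)
        (fderiv ℝ (𝒜.φ k) v (𝒜.xi k v)))
      rw [inner_sub_right, a3, sub_zero, hν, one_mul, real_inner_comm] at a4
      exact a4.trans (a1.trans (by linarith)))
  obtain ⟨K1, k1, jV⟩ := hf.exists_jb
  obtain ⟨K2, tV⟩ := hf.exists_tube
  have k2 := (tV 0).K_nonneg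
  have m2 := hf.pos
  have e1 : ∀ a y, f (a, Z (a, y)) = 0 ↔ w y = 0 := fun a y => by
    rw [e, mul_eq_zero, or_iff_right (by nlinarith), z0]
  have hδ := h.δ0
  have k3 : (0 : ℝ) ≤ Module.finrank ℝ E3 * (8 * M2) ^ 3 := by positivity
  have wm := wt_mono (E := E3) (K' := M1 + K1 + K2 + Module.finrank ℝ E3 * (8 * M2) ^ 3)
    (by linarith) (show K1 ≤ _ by linarith) (le_max_right q1 (4 * q2))
  refine ⟨Z, hf.sd, δ / 4, _, M1 + K1 + K2 + Module.finrank ℝ E3 * (8 * M2) ^ 3, max q1 (4 * q2),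
    by linarith, by positivity, h1.mono (by linarith) (le_max_left _ _),
    fun a ha p hp => by rw [h3 a p hp, g2 a ha], h2, fun a => tube_mono (tV a) (by linarith),
    fun z => (jV z).mono le_rfl (wm _) (wm _), fun a y => (hf.sd_zero _).trans (e1 a y),
    fun a y hy => ?_, fun p hp => ?_⟩
  · obtain ⟨p, a1, a2, a3⟩ := hf.riccati hy
    obtain ⟨p, rfl⟩ := h1.surj a p
    exact ⟨p, (e1 a p).1 a1, a2, a3.trans (mul_le_mul_of_nonneg_right (by linarith) (sq_nonneg _))⟩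
  · have a1 : f (0, p) = 0 := by simpa only [h2] using (e1 0 p).2 hp
    have a2 := (hasFDerivAt_slice (hf.diff (0, p))).unique (((j0 p).has.const_mul
      _).congr_of_eventuallyEq (Eventually.of_forall fun y => by simpa only [h2] using e 0 y))
    have a3 := congrArg (fun L : E3 →L[ℝ] ℝ => L (n p)) a2
    rw [(hess_slice hf.cd_sd 0 0).1]
    simp only [gy, inner_gL, hf.fderiv_sd_zero a1, nd, smul_apply, smul_eq_mul]
    refine mul_pos (inv_pos.2 (norm_pos_iff.2 (hf.gy_ne a1))) (lt_of_lt_of_eq ?_ a3.symm)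
    exact mul_pos (by nlinarith) (d1 p hp)

end Mid

end Vale.Agent.P218N.D6
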