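import Mathlib

/-! Bounds for the jets of order two at a point: a small calculus. -/

open Set Filter Topology Metric

namespace Vale.Agent.P218N.D6

set_option linter.unusedSectionVars false
set_option maxSynthPendingDepth 3

variable {X Y Z W : Type*} [NormedAddCommGroup X] [NormedSpace ℝ X] [NormedAddCommGroup Y]
  [NormedSpace ℝ Y] [NormedAddCommGroup Z] [NormedSpace ℝ Z] [NormedAddCommGroup W]
  [NormedSpace ℝ W]

/-- `g` is `C¹` at `x`, with bounds for its value and its derivative -/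
structure J1 (g : X → Y) (x : X) (c0 c1 : ℝ) : Prop where
  cd : ContDiffAt ℝ 1 g x
  b0 : ‖g x‖ ≤ c0
  b1 : ‖fderiv ℝ g x‖ ≤ c1

/-- `g` is `C²` at `x`, with bounds for its value and its first two derivatives -/
structure JB (g : X → Y) (x : X) (c0 c1 c2 : ℝ) : Prop where
  cd : ContDiffAt ℝ 2 g x
  b0 : ‖g x‖ ≤ c0
  b1 : ‖fderiv ℝ g x‖ ≤ c1
  b2 : ‖fderiv ℝ (fderiv ℝ g) x‖ ≤ c2

variable {f g : X → Y} {x : X} {a0 a1 a2 b0 b1 b2 : ℝ}

namespace J1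

theorem has (h : J1 g x a0 a1) : HasFDerivAt g (fderiv ℝ g x) x :=
  (h.cd.differentiableAt one_ne_zero).hasFDerivAt

theorem n0 (h : J1 g x a0 a1) : 0 ≤ a0 := (norm_nonneg _).trans h.b0

theorem n1 (h : J1 g x a0 a1) : 0 ≤ a1 := (norm_nonneg _).trans h.b1

theorem mono (h : J1 g x a0 a1) (h0 : a0 ≤ b0) (h1 : a1 ≤ b1) : J1 g x b0 b1 :=
  ⟨h.cd, h.b0.trans h0, h.b1.trans h1⟩

theorem congr (h : J1 g x a0 a1) (e : f =ᶠ[𝓝 x] g) : J1 f x a0 a1 :=
  ⟨h.cd.congr_of_eventuallyEq e, e.eq_of_nhds ▸ h.b0, e.fderiv_eq (𝕜 := ℝ) ▸ h.b1⟩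

theorem add (hf : J1 f x a0 a1) (hg : J1 g x b0 b1) :
    J1 (fun y => f y + g y) x (a0 + b0) (a1 + b1) :=
  ⟨hf.cd.add hg.cd, norm_add_le_of_le hf.b0 hg.b0, by
    rw [(hf.has.fun_add hg.has).fderiv]
    exact norm_add_le_of_le hf.b1 hg.b1⟩

theorem bilin (B : Y →L[ℝ] Z →L[ℝ] W) (hB : ‖B‖ ≤ 1) {g : X → Z} (hf : J1 f x a0 a1)
    (hg : J1 g x b0 b1) : J1 (fun y => B (f y) (g y)) x (a0 * b0) (a1 * b0 + a0 * b1) := by
  have h0 : ∀ u v, ‖B u v‖ ≤ ‖u‖ * ‖v‖ := fun u v => (B.le_opNorm₂ u v).trans (by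
    rw [mul_assoc]
    exact mul_le_of_le_one_left (by positivity) hB)
  refine ⟨(B.contDiff.contDiffAt.comp x hf.cd).clm_apply hg.cd,
    (h0 _ _).trans (mul_le_mul hf.b0 hg.b0 (norm_nonneg _) hf.n0), ?_⟩
  rw [(B.hasFDerivAt_of_bilinear hf.has hg.has).fderiv]
  refine ContinuousLinearMap.opNorm_le_bound _ (by
    have := hf.n0; have := hf.n1; have := hg.n0; have := hg.n1; positivity) fun v => ?_
  have e1 := (h0 (f x) (fderiv ℝ g x v)).trans (mul_le_mul hf.b0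
    ((fderiv ℝ g x).le_of_opNorm_le hg.b1 v) (norm_nonneg _) hf.n0)
  have e2 := (h0 (fderiv ℝ f x v) (g x)).trans (mul_le_mul
    ((fderiv ℝ f x).le_of_opNorm_le hf.b1 v) hg.b0 (norm_nonneg _)
    (mul_nonneg hf.n1 (norm_nonneg _)))
  refine (norm_add_le_of_le e1 e2).trans (le_of_eq ?_)
  ring

theorem comp {g : Y → Z} (hg : J1 g (f x) a0 a1) (hf : ContDiffAt ℝ 1 f x)
    (h1 : ‖fderiv ℝ f x‖ ≤ b1) : J1 (fun y => g (f y)) x a0 (a1 * b1) :=
  ⟨hg.cd.comp x hf, hg.b0, by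
    rw [show fderiv ℝ (fun y => g (f y)) x = _ from
      (hg.has.comp x (hf.differentiableAt one_ne_zero).hasFDerivAt).fderiv]
    exact (ContinuousLinearMap.opNorm_comp_le _ _).trans
      (mul_le_mul hg.b1 h1 (norm_nonneg _) hg.n1)⟩

end J1

namespace JB

theorem n0 (h : JB g x a0 a1 a2) : 0 ≤ a0 := (norm_nonneg _).trans h.b0

theorem n1 (h : JB g x a0 a1 a2) : 0 ≤ a1 := (norm_nonneg _).trans h.b1

theorem n2 (h : JB g x a0 a1 a2) : 0 ≤ a2 := (norm_nonneg _).trans h.b2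

theorem j1 (h : JB g x a0 a1 a2) : J1 g x a0 a1 := ⟨h.cd.of_le (by norm_num), h.b0, h.b1⟩

theorem d (h : JB g x a0 a1 a2) : J1 (fderiv ℝ g) x a1 a2 :=
  ⟨h.cd.fderiv_right (by norm_num), h.b1, h.b2⟩

theorem has (h : JB g x a0 a1 a2) : HasFDerivAt g (fderiv ℝ g x) x := h.j1.has

theorem ev (h : ContDiffAt ℝ 2 g x) : ∀ᶠ y in 𝓝 x, HasFDerivAt g (fderiv ℝ g y) y :=
  (h.eventually (by simp)).mono fun _ hy => (hy.differentiableAt two_ne_zero).hasFDerivAt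

theorem of_d {g' : X → X →L[ℝ] Y} (h0 : ‖g x‖ ≤ a0) (h : ∀ᶠ y in 𝓝 x, HasFDerivAt g (g' y) y)
    (h' : J1 g' x a1 a2) : JB g x a0 a1 a2 := by
  have e : fderiv ℝ g =ᶠ[𝓝 x] g' := h.mono fun y hy => hy.fderiv
  have h2 := h'.congr e
  refine ⟨?_, h0, h2.b0, h2.b1⟩
  obtain ⟨U, hU, hU'⟩ := h.exists_mem
  exact contDiffAt_succ_iff_hasFDerivAt.2 ⟨g', ⟨U, hU, hU'⟩, h'.cd⟩

theorem mono (h : JB g x a0 a1 a2) (h0 : a0 ≤ b0) (h1 : a1 ≤ b1) (h2 : a2 ≤ b2) :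
    JB g x b0 b1 b2 := ⟨h.cd, h.b0.trans h0, h.b1.trans h1, h.b2.trans h2⟩

theorem congr (h : JB g x a0 a1 a2) (e : f =ᶠ[𝓝 x] g) : JB f x a0 a1 a2 :=
  ⟨h.cd.congr_of_eventuallyEq e, e.eq_of_nhds ▸ h.b0, e.fderiv_eq (𝕜 := ℝ) ▸ h.b1,
    (e.fderiv (𝕜 := ℝ)).fderiv_eq (𝕜 := ℝ) ▸ h.b2⟩

theorem of_cd (h : ContDiffAt ℝ 2 g x) :
    JB g x ‖g x‖ ‖fderiv ℝ g x‖ ‖fderiv ℝ (fderiv ℝ g) x‖ := ⟨h, le_rfl, le_rfl, le_rfl⟩

theorem val (h : JB g x a0 a1 a2) (h0 : ‖g x‖ ≤ b0) : JB g x b0 a1 a2 := ⟨h.cd, h0, h.b1, h.b2⟩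

theorem const (c : Y) (x : X) : JB (fun _ => c) x ‖c‖ 0 0 :=
  ⟨contDiffAt_const, le_rfl, by simp, by simp⟩

theorem zero (h : g =ᶠ[𝓝 x] fun _ => 0) : JB g x 0 0 0 := by
  simpa using (const (0 : Y) x).congr h

theorem clm (L : X →L[ℝ] Y) (x : X) : JB L x ‖L x‖ ‖L‖ 0 :=
  ⟨L.contDiff.contDiffAt, le_rfl, by simp, by
    rw [show fderiv ℝ L = fun _ => L from funext fun _ => L.fderiv]
    simp⟩

theorem id' (x : X) : JB (fun y => y) x ‖x‖ 1 0 :=
  (clm (ContinuousLinearMap.id ℝ X) x).mono le_rfl ContinuousLinearMap.norm_id_le le_rfl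

theorem fst (z : X × Y) : JB Prod.fst z ‖z.1‖ 1 0 :=
  (clm (ContinuousLinearMap.fst ℝ X Y) z).mono le_rfl (ContinuousLinearMap.norm_fst_le ..) le_rfl

theorem snd (z : X × Y) : JB Prod.snd z ‖z.2‖ 1 0 :=
  (clm (ContinuousLinearMap.snd ℝ X Y) z).mono le_rfl (ContinuousLinearMap.norm_snd_le ..) le_rfl

theorem add (hf : JB f x a0 a1 a2) (hg : JB g x b0 b1 b2) :
    JB (fun y => f y + g y) x (a0 + b0) (a1 + b1) (a2 + b2) :=
  of_d (norm_add_le_of_le hf.b0 hg.b0)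
    (((ev hf.cd).and (ev hg.cd)).mono fun _ hy => hy.1.add hy.2) (hf.d.add hg.d)

theorem sum {ι : Type*} {s : Finset ι} {g : ι → X → Y} {c0 c1 c2 : ι → ℝ}
    (h : ∀ i ∈ s, JB (g i) x (c0 i) (c1 i) (c2 i)) :
    JB (fun y => ∑ i ∈ s, g i y) x (∑ i ∈ s, c0 i) (∑ i ∈ s, c1 i) (∑ i ∈ s, c2 i) := by
  classical
  induction s using Finset.induction_on with
  | empty => simpa using const (0 : Y) x
  | insert i s hi ih =>
    simp only [Finset.sum_insert hi]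
    exact (h i (Finset.mem_insert_self _ _)).add
      (ih fun j hj => h j (Finset.mem_insert_of_mem hj))

theorem sum' {ι : Type*} [Fintype ι] {g : ι → X → Y} (h : ∀ i, JB (g i) x a0 a1 a2) :
    JB (fun y => ∑ i, g i y) x (Fintype.card ι * a0) (Fintype.card ι * a1)
      (Fintype.card ι * a2) := by
  simpa using sum (s := Finset.univ) fun i _ => h i

theorem bilin (B : Y →L[ℝ] Z →L[ℝ] W) (hB : ‖B‖ ≤ 1) {g : X → Z} (hf : JB f x a0 a1 a2)
    (hg : JB g x b0 b1 b2) : JB (fun y => B (f y) (g y)) x (a0 * b0) (a1 * b0 + a0 * b1)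
      (a2 * b0 + 2 * (a1 * b1) + a0 * b2) := by
  have h1 := (J1.bilin (B.precompR X) ((B.norm_precompR_le X).trans hB) hf.j1 hg.d).add
    (J1.bilin (B.precompL X) ((B.norm_precompL_le X).trans hB) hf.d hg.j1)
  exact (of_d (g := fun y => B (f y) (g y)) (J1.bilin B hB hf.j1 hg.j1).b0
    (((ev hf.cd).and (ev hg.cd)).mono fun _ hy => B.hasFDerivAt_of_bilinear hy.1 hy.2) h1).mono
    le_rfl (le_of_eq (by ring)) (le_of_eq (by ring))

theorem smul {f : X → ℝ} (hf : JB f x a0 a1 a2) (hg : JB g x b0 b1 b2) :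
    JB (fun y => f y • g y) x (a0 * b0) (a1 * b0 + a0 * b1)
      (a2 * b0 + 2 * (a1 * b1) + a0 * b2) :=
  bilin (ContinuousLinearMap.lsmul ℝ ℝ) ContinuousLinearMap.opNorm_lsmul_le hf hg

theorem mul {f g : X → ℝ} (hf : JB f x a0 a1 a2) (hg : JB g x b0 b1 b2) :
    JB (fun y => f y * g y) x (a0 * b0) (a1 * b0 + a0 * b1)
      (a2 * b0 + 2 * (a1 * b1) + a0 * b2) := hf.smul hg

theorem app {f : X → Y →L[ℝ] Z} (hf : JB f x a0 a1 a2) (hg : JB g x b0 b1 b2) :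
    JB (fun y => f y (g y)) x (a0 * b0) (a1 * b0 + a0 * b1)
      (a2 * b0 + 2 * (a1 * b1) + a0 * b2) :=
  bilin (ContinuousLinearMap.id ℝ (Y →L[ℝ] Z)) ContinuousLinearMap.norm_id_le hf hg

theorem comp {g : Y → Z} (hg : JB g (f x) a0 a1 a2) (hf : JB f x b0 b1 b2) :
    JB (fun y => g (f y)) x a0 (a1 * b1) (a2 * b1 ^ 2 + a1 * b2) := by
  have h1 := J1.bilin (ContinuousLinearMap.compL ℝ X Y Z) (ContinuousLinearMap.norm_compL_le ..)
    (hg.d.comp hf.j1.cd hf.b1) hf.d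
  refine (of_d (g := fun y => g (f y)) hg.b0 ?_ h1).mono le_rfl le_rfl (le_of_eq (by ring))
  filter_upwards [ev hf.cd, hf.cd.continuousAt.eventually (ev hg.cd)] with y h2 h3
  exact h3.comp y h2

theorem lin (L : Y →L[ℝ] Z) (hL : ‖L‖ ≤ b0) (hf : JB f x a0 a1 a2) :
    JB (fun y => L (f y)) x (b0 * a0) (b0 * a1) (b0 * a2) :=
  (((clm L (f x)).mono ((L.le_of_opNorm_le hL _).trans (mul_le_mul_of_nonneg_left hf.b0
    ((norm_nonneg _).trans hL))) hL le_rfl).comp hf).mono le_rfl le_rfl (by simp)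

theorem cmul (c : ℝ) (hf : JB f x a0 a1 a2) :
    JB (fun y => c • f y) x (|c| * a0) (|c| * a1) (|c| * a2) :=
  ((const c x).smul hf).mono le_rfl (by simp) (by simp)

theorem neg (hf : JB f x a0 a1 a2) : JB (fun y => -f y) x a0 a1 a2 := by
  simpa using hf.cmul (-1)

theorem sub (hf : JB f x a0 a1 a2) (hg : JB g x b0 b1 b2) :
    JB (fun y => f y - g y) x (a0 + b0) (a1 + b1) (a2 + b2) := by
  simpa only [sub_eq_add_neg] using hf.add hg.neg

theorem prodMk {g : X → Z} (hf : JB f x a0 a1 a2) (hg : JB g x b0 b1 b2) :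
    JB (fun y => (f y, g y)) x (a0 + b0) (a1 + b1) (a2 + b2) := by
  simpa using (hf.lin _ (ContinuousLinearMap.norm_inl_le_one ℝ Y Z)).add
    (hg.lin _ (ContinuousLinearMap.norm_inr_le_one ℝ Y Z))

theorem slice {g : X × Y → Z} {y : Y} (h : JB g (x, y) a0 a1 a2) :
    JB (fun y => g (x, y)) y a0 a1 a2 := by
  simpa using JB.comp (f := fun y => (x, y)) h ((const x y).prodMk (id' y))

theorem slice' {g : X × Y → Z} {y : Y} (h : JB g (x, y) a0 a1 a2) :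
    JB (fun x => g (x, y)) x a0 a1 a2 := by
  simpa using JB.comp (f := fun x => (x, y)) h ((id' x).prodMk (const y x))

theorem comp_snd {g : Y → Z} {z : X × Y} (h : JB g z.2 a0 a1 a2) :
    JB (fun z : X × Y => g z.2) z a0 a1 a2 := by simpa using h.comp (snd z)

theorem comp_fst {g : X → Z} {z : X × Y} (h : JB g z.1 a0 a1 a2) :
    JB (fun z : X × Y => g z.1) z a0 a1 a2 := by simpa using h.comp (fst z)

end JB

/-- the second derivative of a composition -/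
theorem fderiv2_comp {g : Y → Z} (hg : ContDiffAt ℝ 2 g (f x)) (hf : ContDiffAt ℝ 2 f x)
    (u v : X) : fderiv ℝ (fderiv ℝ fun y => g (f y)) x u v =
      fderiv ℝ (fderiv ℝ g) (f x) (fderiv ℝ f x u) (fderiv ℝ f x v) +
        fderiv ℝ g (f x) (fderiv ℝ (fderiv ℝ f) x u v) := by
  have e : (fderiv ℝ fun y => g (f y)) =ᶠ[𝓝 x] fun y => (fderiv ℝ g (f y)).comp (fderiv ℝ f y) := by
    filter_upwards [JB.ev hf, hf.continuousAt.eventually (JB.ev hg)] with y h2 h3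
    exact (h3.comp y h2).fderiv
  rw [e.fderiv_eq, (HasFDerivAt.clm_comp (c := fun y => fderiv ℝ g (f y))
    ((JB.of_cd hg).d.has.comp x (JB.of_cd hf).has) (JB.of_cd hf).d.has).fderiv]
  simp [add_comm]

/-- a linear map which is bounded below is onto, in equal dimensions -/
theorem surj_of_low [FiniteDimensional ℝ X] [FiniteDimensional ℝ Y]
    (hd : Module.finrank ℝ X = Module.finrank ℝ Y) {L : X →L[ℝ] Y} {m : ℝ} (hm : 0 < m)
    (h : ∀ u, m * ‖u‖ ≤ ‖L u‖) : Function.Injective L ∧ Function.Surjective L := by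
  have hi : Function.Injective L := (injective_iff_map_eq_zero _).2 fun u hu => by
    have := h u
    rw [hu, norm_zero] at this
    exact norm_le_zero_iff.1 (by nlinarith [norm_nonneg u])
  exact ⟨hi, (LinearMap.injective_iff_surjective_of_finrank_eq_finrank hd
    (f := (L : X →ₗ[ℝ] Y))).1 hi⟩

/-- bounds for `g` from bounds for `g ∘ f` -/
theorem JB.pull {g : Y → Z} {G : X → Z} {m : ℝ} (hg : ContDiffAt ℝ 2 g (f x))
    (hG : JB G x a0 a1 a2) (e : G =ᶠ[𝓝 x] fun y => g (f y)) (hf : JB f x b0 b1 b2) (hm : 0 < m)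
    (hs : Function.Surjective (fderiv ℝ f x)) (hl : ∀ u, m * ‖u‖ ≤ ‖fderiv ℝ f x u‖) :
    JB g (f x) a0 (a1 / m) ((a2 + a1 / m * b2) / m ^ 2) := by
  have hG' := hG.congr e.symm
  have h0 := hG.n1
  have h0' := hG.n2
  have h0'' := hf.n2
  have h1 : ‖fderiv ℝ g (f x)‖ ≤ a1 / m := by
    refine ContinuousLinearMap.opNorm_le_bound _ (by positivity) fun y => ?_
    obtain ⟨u, rfl⟩ := hs y
    have h2 := (fderiv ℝ (fun y => g (f y)) x).le_of_opNorm_le hG'.b1 u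
    rw [show fderiv ℝ (fun y => g (f y)) x = _ from
      ((JB.of_cd hg).has.comp x hf.has).fderiv] at h2
    refine h2.trans ?_
    rw [div_mul_eq_mul_div, le_div_iff₀ hm]
    nlinarith [hl u]
  refine ⟨hg, hG'.b0, h1, ContinuousLinearMap.opNorm_le_bound₂ _ (by positivity) fun y y' => ?_⟩
  obtain ⟨u, rfl⟩ := hs y
  obtain ⟨v, rfl⟩ := hs y'
  rw [← sub_eq_iff_eq_add.2 (fderiv2_comp hg hf.cd u v)]
  have h2 := ((fderiv ℝ (fderiv ℝ fun y => g (f y)) x).le_opNorm₂ u v).trans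
    (mul_le_mul_of_nonneg_right (mul_le_mul_of_nonneg_right hG'.b2 (norm_nonneg _))
      (norm_nonneg _))
  have h3 := ((fderiv ℝ g (f x)).le_of_opNorm_le h1 _).trans (mul_le_mul_of_nonneg_left
    (((fderiv ℝ (fderiv ℝ f) x).le_opNorm₂ u v).trans (mul_le_mul_of_nonneg_right
      (mul_le_mul_of_nonneg_right hf.b2 (norm_nonneg _)) (norm_nonneg _))) (by positivity))
  refine (norm_sub_le_of_le h2 h3).trans ?_
  have h4 := mul_le_mul (hl u) (hl v) (by positivity) (norm_nonneg _)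
  rw [mul_assoc ((a2 + a1 / m * b2) / m ^ 2), div_mul_eq_mul_div _ (m ^ 2),
    le_div_iff₀ (by positivity)]
  have h5 : 0 ≤ a2 + a1 / m * b2 := by positivity
  nlinarith [mul_le_mul_of_nonneg_left h4 h5]

/-- series of `C¹` functions -/
theorem J1.tsum [CompleteSpace Y] {g : ℕ → X → Y} {U : Set X} (hU : U ∈ 𝓝 x) {c c0 c1 : ℕ → ℝ}
    (hc : Summable c) (h : ∀ n, ∀ y ∈ U, J1 (g n) y (c n) (c n)) (h0 : Summable c0)
    (h1 : Summable c1) (hx : ∀ n, J1 (g n) x (c0 n) (c1 n)) :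
    J1 (fun y => ∑' n, g n y) x (∑' n, c0 n) (∑' n, c1 n) ∧
      ∀ᶠ y in 𝓝 x, HasFDerivAt (fun y => ∑' n, g n y) (∑' n, fderiv ℝ (g n) y) y := by
  obtain ⟨r, hr, hrU⟩ := Metric.mem_nhds_iff.1 hU
  have hd : ∀ y ∈ ball x r, HasFDerivAt (fun y => ∑' n, g n y) (∑' n, fderiv ℝ (g n) y) y :=
    fun y hy => hasFDerivAt_tsum_of_isPreconnected hc isOpen_ball (convex_ball x r).isPreconnected
      (fun n z hz => (h n z (hrU hz)).has) (fun n z hz => (h n z (hrU hz)).b1) (mem_ball_self hr)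
      (hc.of_norm_bounded fun n => (h n x (hrU (mem_ball_self hr))).b0) hy
  have hcont : ContinuousOn (fun y => ∑' n, fderiv ℝ (g n) y) (ball x r) :=
    continuousOn_tsum (fun n z hz => ((h n z (hrU hz)).cd.continuousAt_fderiv
      one_ne_zero).continuousWithinAt) hc fun n z hz => (h n z (hrU hz)).b1
  refine ⟨⟨contDiffAt_one_iff.2 ⟨_, ball x r, ball_mem_nhds x hr, hcont, hd⟩,
    tsum_of_norm_bounded h0.hasSum fun n => (hx n).b0, ?_⟩,
    mem_of_superset (ball_mem_nhds x hr) hd⟩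
  rw [(hd x (mem_ball_self hr)).fderiv]
  exact tsum_of_norm_bounded h1.hasSum fun n => (hx n).b1

/-- series of `C²` functions -/
theorem JB.tsum [CompleteSpace Y] {g : ℕ → X → Y} {U : Set X} (hU : U ∈ 𝓝 x)
    {c c0 c1 c2 : ℕ → ℝ} (hc : Summable c) (h : ∀ n, ∀ y ∈ U, JB (g n) y (c n) (c n) (c n))
    (h0 : Summable c0) (h1 : Summable c1) (h2 : Summable c2)
    (hx : ∀ n, JB (g n) x (c0 n) (c1 n) (c2 n)) :
    JB (fun y => ∑' n, g n y) x (∑' n, c0 n) (∑' n, c1 n) (∑' n, c2 n) := by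
  have e1 := J1.tsum hU hc (fun n y hy => (h n y hy).j1) h0 h1 fun n => (hx n).j1
  have e2 := J1.tsum hU hc (fun n y hy => (h n y hy).d) h1 h2 fun n => (hx n).d
  exact JB.of_d e1.1.b0 e1.2 e2.1

end Vale.Agent.P218N.D6
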