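import Vale.Agent.P218N.D6.Stm2

/-! Block D6: the linear properties of the model. -/

open MeasureTheory Set Filter Topology Metric
open scoped RealInnerProductSpace ContDiff

namespace Vale.Agent.P218N.D6

open Vale.Agent.P218.H313 Vale.Agent.P218N.H Vale.Agent.P218N.G Vale.Agent.P218F

set_option linter.unusedSectionVars false
set_option maxSynthPendingDepth 3

namespace LinP

variable {ι : Type} [Fintype ι] [DecidableEq ι] {w : E3 → ℝ} {n : E3 → E3} {K : Type} [Fintype K]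

/-- a function which vanishes on `S` has vanishing derivative along the charts -/
theorem tang {𝒜 : Atlas w n K} {k : K} {v : R2} (hv : v ∈ 𝒜.O k) {f : E3 → ℝ}
    (hf : DifferentiableAt ℝ f (𝒜.φ k v)) (h0 : ∀ p, w p = 0 → f p = 0) (u : R2) :
    fderiv ℝ f (𝒜.φ k v) (fderiv ℝ (𝒜.φ k) v u) = 0 := by
  have a := (hf.hasFDerivAt.comp v (𝒜.jφ k v hv).has).unique ((hasFDerivAt_const (0 : ℝ)
    v).congr_of_eventuallyEq ((Atlas.mem_ev hv).mono fun u hu => h0 _ hu))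
  exact congrArg (fun L : R2 →L[ℝ] ℝ => L u) a

/-- the gradient of a tube function of `S` is the unit normal of `S` -/
theorem grad_eq (𝒜 : Atlas w n K) (hw : Shr w) {W : E3 → ℝ} {c M : ℝ} (hW : Tube0 W c M)
    (h0 : ∀ p, w p = 0 → W p = 0) {p : E3} (hp : w p = 0) (hn : 0 < ⟪n p, grad w p⟫)
    (ho : 0 < ⟪grad W p, n p⟫) : grad W p = nuW w p := by
  obtain ⟨k, v, hv, rfl⟩ := 𝒜.exists_chart hp
  have d1 := hw.smooth.differentiable (by simp) (𝒜.φ k v)
  have d2 := hW.smooth.differentiable (by simp) (𝒜.φ k v)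
  set A := ⟪n (𝒜.φ k v), grad w (𝒜.φ k v)⟫ with hA
  set B := ⟪grad W (𝒜.φ k v), n (𝒜.φ k v)⟫ with hB
  have e : A • grad W (𝒜.φ k v) = B • grad w (𝒜.φ k v) := by
    refine ext_inner_right ℝ fun y => ?_
    obtain ⟨u, rfl⟩ := (Atlas.bijΦ (Atlas.mem0 hv)).2 y
    rw [Atlas.fderiv_Φ (Atlas.mem0 hv)]
    simp only [zero_smul, add_zero, real_inner_smul_left, inner_add_right, real_inner_smul_right]
    rw [inner_grad W, inner_grad w, tang hv d1 fun _ h => h, tang hv d2 h0, ← hB,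
      real_inner_comm, ← hA]
    ring
  have e1 : ‖grad W (𝒜.φ k v)‖ = 1 := hW.eik _ (by rw [h0 _ hp, abs_zero]; exact hW.cpos)
  have e2 := congrArg norm e
  rw [norm_smul, norm_smul, e1, mul_one, Real.norm_of_nonneg hn.le,
    Real.norm_of_nonneg ho.le] at e2
  have e3 := norm_pos_iff.2 (hw.ne _ hp)
  refine smul_right_injective E3 hn.ne' (e.trans ?_)
  simp only [nuW, smul_smul, e2]
  rw [mul_assoc, mul_inv_cancel₀ e3.ne', mul_one]

variable {𝒜 : Atlas w n K} {T : (ι → ℝ) → E3 → ℝ} {Rm : (ι → ℝ) → E3 → E3 →L[ℝ] E3}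
  {ε δ M : ℝ} {q1 : ℕ} {Z : (ι → ℝ) × E3 → E3} {V : (ι → ℝ) × E3 → ℝ} {α c' M' : ℝ} {q' : ℕ}

/-- the velocity of the family on `S` -/
theorem vel (h : Mid 𝒜 T Rm ε δ M q1) (hF : Fam w n T Rm Z V α c' M' q') {p : E3} (hp : w p = 0)
    (b : ι → ℝ) : vel0 V b p + ⟪grad (fun y => V (0, y)) p,
      fderiv ℝ (fun x => T x p) 0 b • n p + fderiv ℝ (fun x => Rm x p) 0 b p⟫ = 0 := by
  obtain ⟨k, v, hv, rfl⟩ := 𝒜.exists_chart hp
  have h0 : ‖(0 : ι → ℝ)‖ < δ := by simpa using h.δ0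
  have d1 := (h.jT 0 h0 k v hv).slice'.has
  have d2 := (h.jR 0 h0 (𝒜.φ k v)).slice'.has
  have d3 := (d1.smul_const (n (𝒜.φ k v))).const_add (𝒜.φ k v)
  have d4 := d3.fun_add (d2.clm_apply d3)
  have d5 := (hF.jV (0, 𝒜.φ k v)).has
  have e0 : ((0 : ι → ℝ), 𝒜.φ k v) = ((0 : ι → ℝ), 𝒜.φ k v + T 0 (𝒜.φ k v) • n (𝒜.φ k v) +
      Rm 0 (𝒜.φ k v) (𝒜.φ k v + T 0 (𝒜.φ k v) • n (𝒜.φ k v))) := by
    simp [h.T0 k v hv, h.R0]
  have d6 := (e0 ▸ d5 :).comp (0 : ι → ℝ) ((hasFDerivAt_id (0 : ι → ℝ)).prodMk d4)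
  have d7 := d6.unique ((hasFDerivAt_const (0 : ℝ) (0 : ι → ℝ)).congr_of_eventuallyEq
    (mem_of_superset (closedBall_mem_nhds (0 : ι → ℝ) hF.α0) fun a ha => by
      have := (hF.zero a _).2 hp
      rwa [hF.onS a (mem_closedBall_zero_iff.1 ha) _ hp] at this))
  have d8 := congrArg (fun L : (ι → ℝ) →L[ℝ] ℝ => L b) d7
  rw [inner_grad, (hasFDerivAt_slice d5.differentiableAt).fderiv]
  refine Eq.trans ?_ d8
  change fderiv ℝ V (0, 𝒜.φ k v) (b, 0) + _ = _
  simp only [ContinuousLinearMap.comp_apply, ← map_add, ← e0]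
  congr 1
  simp [h.T0 k v hv, h.R0]

end LinP

open LinP in
theorem linStmt : LinStmt := by
  intro ι J _ _ _ w n K _ 𝒜 T Rm Ψ ε δ M q1 Z V α c' M' q' h hL hF
  have z0 : ∀ p, V (0, p) = 0 ↔ w p = 0 := fun p => by simpa only [hF.Z0] using hF.zero 0 p
  have hg : ∀ p, w p = 0 → grad (fun y => V (0, y)) p = nuW w p := fun p hp =>
    grad_eq 𝒜 hL.shr (hF.tube 0) (fun p hp => (z0 p).2 hp) hp (hL.npos p hp) (hF.ori p hp)
  refine ⟨fun mu hmu => hL.indep mu fun p hp => ?_, fun b hb => hL.inj b fun p hp => ?_,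
    fun f hf hs => ?_⟩
  · have a1 := hmu p ((z0 p).2 hp)
    simp only [psiV, ← mul_assoc, ← Finset.sum_mul] at a1
    exact (mul_eq_zero.1 a1).resolve_right (by rw [real_inner_comm]; exact (hF.ori p hp).ne')
  · have a1 := vel h hF hp b
    rw [hb p ((z0 p).2 hp), zero_add, hg p hp, nuW, real_inner_smul_left, inner_add_right,
      real_inner_smul_right] at a1
    have a2 := (mul_eq_zero.1 a1).resolve_left
      (inv_ne_zero (norm_ne_zero_iff.2 (hL.shr.ne p hp)))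
    rwa [real_inner_comm (n p), real_inner_comm _ (grad w p)] at a2
  · obtain ⟨g, μ, C', q, g1, g2, g3⟩ := hL.solv _ _ _ (hF.tube 0) z0 hg f hf hs
    obtain ⟨ζ, c, e1, e2⟩ := 𝒜.exists_ext (g := g) (c := max C' 0) (q := q) (le_max_right _ _)
      fun k v hv => by
        have a := mul_le_mul_of_nonneg_right (le_max_left C' 0)
          (show 0 ≤ (1 + ‖𝒜.φ k v‖) ^ q by positivity)
        exact (g1 k v hv).mono a a a
    refine ⟨ζ, μ, c, q + 1, e2, fun p hp => ?_, fun j => ?_⟩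
    · have hp' := (z0 p).1 hp
      rw [g2 ζ (contDiff_iff_contDiffAt.2 fun y => (e2 y).cd) e1 p hp']
      simp only [psiV, hg p hp']
    · have e3 : sig 2 (fun y => V (0, y)) = sig 2 w := by
        simp only [sig, z0]
      rw [e3, ← g3 j]
      refine setIntegral_congr_fun 𝒜.measurableSet_zero fun p hp => ?_
      simp only [psiV, hg p hp, e1 p hp]

end Vale.Agent.P218N.D6
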