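import Vale.Agent.P218N.D6.Defs
import Vale.Agent.P218N.G.LIRev
import Vale.Agent.P218N.G.Dens

/-! Block D6: Gaussian moments of the area of the zero set of a tube function. -/

open MeasureTheory Set Filter Topology Metric
open scoped RealInnerProductSpace ContDiff

namespace Vale.Agent.P218N.D6

open Vale.Agent.P218 Vale.Agent.P218.H313 Vale.Agent.P218N.H Vale.Agent.P218N.G

namespace Nd

variable {E : Type*} [NormedAddCommGroup E] [InnerProductSpace ℝ E] [FiniteDimensional ℝ E]
  [MeasurableSpace E] [BorelSpace E] {m : ℕ} {W : E → ℝ} {c K : ℝ}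

theorem int_exp (hE : Module.finrank ℝ E = m + 1) (hW : Tube0 W c K) {a : ℝ} (ha : 0 < a) :
    Integrable (fun x : E => Real.exp (-(a * ‖x‖ ^ 2))) (sig m W) := by
  have hK := hW.K_nonneg
  have hc := hW.cpos
  have := hW.sig_locFin hE
  set r : ℝ := min 1 c / (4 * (K + 1)) with hr
  have hm : 0 < min 1 c := lt_min one_pos hc
  have hr0 : 0 < r := by positivity
  have h1 : K * (2 * r) < min 1 c := by
    rw [hr, show K * (2 * (min 1 c / (4 * (K + 1)))) = min 1 c * (K / (2 * (K + 1))) by
      field_simp; ring]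
    refine mul_lt_of_lt_one_right hm ?_
    rw [div_lt_one (by positivity)]
    linarith
  obtain ⟨C, hC, h⟩ := exists_gauss_bound E ha hr0
  have h2 := h (sig m W) _ fun x => hW.sig_ball_le hE x hr0 (h1.trans_le (min_le_left _ _))
    (h1.trans_le (min_le_right _ _))
  refine ⟨Continuous.aestronglyMeasurable (by fun_prop), ?_⟩
  rw [hasFiniteIntegral_iff_ofReal (Eventually.of_forall fun y => (Real.exp_pos _).le)]
  exact h2.trans_lt (ENNReal.mul_lt_top hC.lt_top ENNReal.ofReal_lt_top)

theorem pow_mul_exp_le {a t : ℝ} (ha : 0 < a) (ht : 0 ≤ t) (q : ℕ) :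
    (1 + t) ^ q * Real.exp (-(a * t ^ 2)) ≤
      Real.exp (q ^ 2 / (2 * a)) * Real.exp (-(a / 2 * t ^ 2)) := by
  have h1 : (1 + t) ^ q ≤ Real.exp (q * t) := by
    rw [Real.exp_nat_mul]
    exact pow_le_pow_left₀ (by positivity) (by linarith [Real.add_one_le_exp t]) q
  refine (mul_le_mul_of_nonneg_right h1 (Real.exp_pos _).le).trans ?_
  rw [← Real.exp_add, ← Real.exp_add]
  refine Real.exp_le_exp.2 ?_
  have h2 : (q : ℝ) ^ 2 / (2 * a) - q * t + a / 2 * t ^ 2 = (q - a * t) ^ 2 / (2 * a) := by
    field_simp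
    ring
  have h3 : 0 ≤ ((q : ℝ) - a * t) ^ 2 / (2 * a) := by positivity
  linarith

theorem int_mom (hE : Module.finrank ℝ E = m + 1) (hW : Tube0 W c K) {a : ℝ} (ha : 0 < a)
    (q : ℕ) : Integrable (fun x : E => (1 + ‖x‖) ^ q * Real.exp (-(a * ‖x‖ ^ 2))) (sig m W) := by
  refine ((int_exp hE hW (half_pos ha)).const_mul (Real.exp (q ^ 2 / (2 * a)))).mono'
    (Continuous.aestronglyMeasurable (by fun_prop)) (Eventually.of_forall fun x => ?_)
  rw [Real.norm_of_nonneg (by positivity)]
  exact pow_mul_exp_le ha (norm_nonneg x) q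

theorem int_rho (hE : Module.finrank ℝ E = m + 1) (hW : Tube0 W c K) (q : ℕ) :
    Integrable (fun x : E => (1 + ‖x‖) ^ q * rho x) (sig m W) := by
  refine (int_mom hE hW (a := 1 / 4) (by norm_num) q).congr (Eventually.of_forall fun x => ?_)
  simp only [rho]
  congr 2
  ring

/-- functions of polynomial growth are integrable against the Gaussian -/
theorem int_PB (hE : Module.finrank ℝ E = m + 1) (hW : Tube0 W c K) {f : E → ℝ}
    (hf : AEStronglyMeasurable f (sig m W)) (hb : PB f) :
    Integrable (fun x => f x * rho x) (sig m W) := by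
  obtain ⟨C, p, -, h⟩ := hb
  refine ((int_rho hE hW p).const_mul C).mono'
    (hf.mul (Continuous.aestronglyMeasurable (by unfold rho; fun_prop)))
    (Eventually.of_forall fun x => ?_)
  rw [norm_mul, Real.norm_of_nonneg (rho_pos x).le, ← mul_assoc]
  exact mul_le_mul_of_nonneg_right (h x) (rho_pos x).le

end Nd

theorem finrank_E3 : Module.finrank ℝ E3 = 2 + 1 := by simp

/-- Gaussian moments of the area of the zero set of a tube function -/
theorem gaussStmt : GaussStmt := fun _ _ _ hW _ q ha => Nd.int_mom finrank_E3 hW ha q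

end Vale.Agent.P218N.D6
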