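import Vale.Agent.P218N.D6.Stm2
import Vale.Agent.P218N.D6.NdG

/-! Block D6: the Lojasiewicz inequality for the family of tube functions. -/

open MeasureTheory Set Filter Topology Metric
open scoped RealInnerProductSpace

namespace Vale.Agent.P218N.D6

open Vale.Agent.P218.H313 Vale.Agent.P218N.H Vale.Agent.P218N.G Vale.Agent.P218F
  Vale.Agent.P218N.End

set_option linter.unusedSectionVars false
set_option maxSynthPendingDepth 3

namespace LojP

/-- the standard basis -/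
noncomputable def ee (i : Fin 3) : E3 := EuclideanSpace.single i 1

theorem norm_ee (i : Fin 3) : ‖ee i‖ = 1 := by simp [ee]

/-- the cofactor map -/
noncomputable def cof (L : E3 →L[ℝ] E3) (z : E3) : E3 :=
  z 0 • crs (L (ee 1)) (L (ee 2)) + z 1 • crs (L (ee 2)) (L (ee 0)) +
    z 2 • crs (L (ee 0)) (L (ee 1))

theorem expand (a : E3) : a = a 0 • ee 0 + a 1 • ee 1 + a 2 • ee 2 := by
  ext i
  fin_cases i <;> simp [ee]

theorem crs_map (L : E3 →L[ℝ] E3) (a b : E3) : crs (L a) (L b) = cof L (crs a b) := by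
  have e : ∀ a : E3, L a = a 0 • L (ee 0) + a 1 • L (ee 1) + a 2 • L (ee 2) := fun a => by
    conv_lhs => rw [expand a]
    simp only [map_add, map_smul]
  rw [e a, e b]
  ext i
  fin_cases i <;> simp [crs, cof] <;> ring

theorem cof_smul (L : E3 →L[ℝ] E3) (t : ℝ) (z : E3) : cof L (t • z) = t • cof L z := by
  simp only [cof, PiLp.smul_apply, smul_eq_mul, smul_add, mul_smul]

theorem norm_cof_le {L : E3 →L[ℝ] E3} (hL : ‖L‖ ≤ 2) (z : E3) : ‖cof L z‖ ≤ 12 * ‖z‖ := by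
  have h1 : ∀ i, ‖L (ee i)‖ ≤ 2 := fun i => (L.unit_le_opNorm _ (norm_ee i).le).trans hL
  have h2 : ∀ i j k, ‖z i • crs (L (ee j)) (L (ee k))‖ ≤ ‖z‖ * (2 * 2) := fun i j k =>
    (norm_smul_le _ _).trans (mul_le_mul (PiLp.norm_apply_le z i) ((norm_crs_le _ _).trans
      (mul_le_mul (h1 j) (h1 k) (norm_nonneg _) zero_le_two)) (norm_nonneg _) (norm_nonneg _))
  exact (norm_add₃_le.trans (add_le_add (add_le_add (h2 _ _ _) (h2 _ _ _)) (h2 _ _ _))).trans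
    (le_of_eq (by ring))

theorem cont_crs {X : Type*} [TopologicalSpace X] {a b : X → E3} (ha : Continuous a)
    (hb : Continuous b) : Continuous fun x => crs (a x) (b x) := by
  refine (PiLp.continuous_toLp 2 _).comp (continuous_pi fun i => ?_)
  fin_cases i <;> simp <;> fun_prop

theorem cont_cof {X : Type*} [TopologicalSpace X] {L : X → E3 →L[ℝ] E3} {z : X → E3}
    (hL : Continuous L) (hz : Continuous z) : Continuous fun x => cof (L x) (z x) := by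
  have h1 : ∀ i j k, Continuous fun x => z x i • crs (L x (ee j)) (L x (ee k)) := fun i j k =>
    (show Continuous fun x => z x i by fun_prop).smul
      (cont_crs (hL.clm_apply continuous_const) (hL.clm_apply continuous_const))
  exact ((h1 _ _ _).add (h1 _ _ _)).add (h1 _ _ _)

theorem contAt_ar {X : R2 → E3} {v : R2} (h : ContDiffAt ℝ 2 X v) : ContinuousAt (ar X) v := by
  have h1 : Continuous fun L : R2 →L[ℝ] E3 => ‖crs (L (1, 0)) (L (0, 1))‖ :=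
    (cont_crs (by fun_prop) (by fun_prop)).norm
  rw [show ar X = fun v => ‖crs (fderiv ℝ X v (1, 0)) (fderiv ℝ X v (0, 1))‖ from
    funext (ar_eq X)]
  exact h1.continuousAt.comp (JB.of_cd h).d.cd.continuousAt

theorem cont_rho : Continuous (rho : E3 → ℝ) := by
  unfold rho
  fun_prop

variable {ι J : Type} [Fintype ι] [DecidableEq ι] [Fintype J] {w : E3 → ℝ} {n : E3 → E3} {K : Type}
  [Fintype K] {𝒜 : Atlas w n K} {T : (ι → ℝ) → E3 → ℝ} {Rm : (ι → ℝ) → E3 → E3 →L[ℝ] E3}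
  {Z : (ι → ℝ) × E3 → E3} {V : (ι → ℝ) × E3 → ℝ} {α c' M' : ℝ} {q' : ℕ}

/-- the density of the Gaussian area of `Z a (S)` with respect to the area of `S` -/
noncomputable def Jc (Z : (ι → ℝ) × E3 → E3) (V : (ι → ℝ) × E3 → ℝ) (a : ι → ℝ) (p : E3) : ℝ :=
  ‖cof (fderiv ℝ (fun y => Z (a, y)) p) (grad (fun y => V (0, y)) p)‖

section fam

variable (hF : Fam w n T Rm Z V α c' M' q')
include hF

theorem zero_iff (y : E3) : V (0, y) = 0 ↔ w y = 0 := by simpa only [hF.Z0] using hF.zero 0 y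

theorem sig_eq : (sig 2 fun y => V (0, y)) = sig 2 w := by simp only [sig, zero_iff hF]

theorem cdZ (a : ι → ℝ) : ContDiff ℝ 2 fun y => Z (a, y) :=
  contDiff_iff_contDiffAt.2 fun y => (hF.dif.jb (a, y)).slice.cd

theorem jc_ar (a : ι → ℝ) {k : K} {v : R2} (hv : v ∈ 𝒜.O k) :
    Jc Z V a (𝒜.φ k v) * ar (𝒜.φ k) v = ar (fun v => Z (a, 𝒜.φ k v)) v := by
  have h0 := (zero_iff hF _).2 (𝒜.mem k v hv)
  have h1 : ‖grad (fun y => V (0, y)) (𝒜.φ k v)‖ = 1 :=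
    (hF.tube 0).eik _ (by simpa only [h0, abs_zero] using (hF.tube 0).cpos)
  have h2 := (((hF.tube 0).diff (𝒜.φ k v)).hasFDerivAt.comp v (𝒜.jφ k v hv).has).unique
    ((hasFDerivAt_const (0 : ℝ) v).congr_of_eventuallyEq
      ((Atlas.mem_ev hv).mono fun u hu => (zero_iff hF _).2 hu))
  have h3 : ∀ e, ⟪grad (fun y => V (0, y)) (𝒜.φ k v), fderiv ℝ (𝒜.φ k) v e⟫ = 0 := fun e => by
    rw [inner_grad]
    exact congrArg (fun L : R2 →L[ℝ] ℝ => L e) h2
  have h4 := ar_pos (𝒜.dinj k v hv)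
  have h5 := eq_smul_of_orth (by rw [← par_sq]; exact (pow_pos h4 2).ne') h1 (h3 (1, 0))
    (h3 (0, 1)) (inner_crs_left _ _) (inner_crs_right _ _)
  have h6 := congrArg norm h5
  rw [norm_smul, h1, mul_one, ← ar_eq] at h6
  rw [ar_eq fun v => Z (a, 𝒜.φ k v), show fderiv ℝ (fun v => Z (a, 𝒜.φ k v)) v = _ from
    (HasFDerivAt.comp (g := fun y => Z (a, y)) v (hF.dif.jb (a, _)).slice.has
      (𝒜.jφ k v hv).has).fderiv, ContinuousLinearMap.comp_apply, ContinuousLinearMap.comp_apply,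
    crs_map, h5, cof_smul, norm_smul, ← h6, mul_comm, Jc]

theorem cont_g (a : ι → ℝ) : Continuous fun p => rho (Z (a, p)) * Jc Z V a p :=
  (cont_rho.comp (cdZ hF a).continuous).mul (cont_cof ((cdZ hF a).continuous_fderiv (by norm_num))
    (hF.tube 0).grad_cd.continuous).norm

theorem g_le (a : ι → ℝ) (p : E3) : ‖rho (Z (a, p)) * Jc Z V a p‖ ≤
    12 * M' * Real.exp (M' ^ 2) * Real.exp (-(1 / 32 * ‖p‖ ^ 2)) := by
  have h1 := hF.dif.anti a p 0
  have h2 := norm_sub_le (Z (a, p)) (Z (a, 0))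
  have h3 := hF.dif.z0 a
  have h4 := hF.dif.one_le
  rw [sub_zero] at h1
  have h5 : ‖p‖ ^ 2 ≤ (2 * (‖Z (a, p)‖ + M')) ^ 2 :=
    pow_le_pow_left₀ (norm_nonneg _) (by linarith) 2
  rw [norm_mul, mul_comm, mul_assoc, ← Real.exp_add, Jc, norm_norm, rho, Real.norm_eq_abs,
    Real.abs_exp]
  refine mul_le_mul ((norm_cof_le (hF.dif.up a p) _).trans
    (mul_le_mul_of_nonneg_left ((hF.tube 0).b1 p) (by norm_num))) (Real.exp_le_exp.2 ?_)
    (by positivity) (by positivity)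
  nlinarith [sq_nonneg (‖Z (a, p)‖ - M'), sq_nonneg M']

theorem gauss {a : ℝ} (ha : 0 < a) (Q : ℕ) :
    Integrable (fun x => (1 + ‖x‖) ^ Q * Real.exp (-(a * ‖x‖ ^ 2))) (sig 2 w) :=
  sig_eq hF ▸ gaussStmt _ _ _ (hF.tube 0) a Q ha

theorem int_g (a : ι → ℝ) : Integrable (fun p => rho (Z (a, p)) * Jc Z V a p) (sig 2 w) :=
  ((gauss hF (show (0 : ℝ) < 1 / 32 by norm_num) 0).const_mul (12 * M' * Real.exp (M' ^ 2))).mono'
    (cont_g hF a).aestronglyMeasurable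
    (Eventually.of_forall fun p => by simpa only [pow_zero, one_mul] using g_le hF a p)

include 𝒜 in
theorem FA_eq (a : ι → ℝ) :
    FA (sig 2 fun y => V (a, y)) = ∫ p, rho (Z (a, p)) * Jc Z V a p ∂(sig 2 w) :=
  (areaStmt w n K 𝒜).2 (fun y => Z (a, y)) _ (Jc Z V a) rho ((cdZ hF a).of_le (by norm_num))
    (hF.dif.inj a) (fun y => (injective_iff_map_eq_zero _).2 fun u hu => by
      have := hF.dif.low a y u
      rw [hu, norm_zero] at this
      exact norm_le_zero_iff.1 (by linarith))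
    (hF.zero a) (hF.dif.surj a) (fun _ _ hv => jc_ar hF a hv) (int_g hF a)

end fam

/-- the admissible tuples -/
structure Ix (𝒜 : Atlas w n K) (σ : E3 → ℝ) (I : Finset ι) (c δ : ℝ) (R1 : ℕ) where
  a : ι → ℝ
  R : ℕ
  k : K
  v : R2
  ha : ‖a‖ < δ
  hR : Adm I c R1 a R
  hv : v ∈ 𝒜.O k
  hσ : σ (𝒜.φ k v) < R / 4

variable {L : (ι → ℝ) → J → ℝ} {σ : E3 → ℝ} {I : Finset ι} {c κ C A δ f0 θ : ℝ} {q N R1 : ℕ}
  {u : ℕ → (ι → ℝ) → E3 → ℝ} {l : ℕ → (ι → ℝ) → J → ℝ} {F : ℕ → (ι → ℝ) → ℝ}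
  {Ψ : J → E3 → ℝ} {lag : ℕ → (ι → ℝ) → E3 → ℝ} {ε M : ℝ} {q1 : ℕ}
  (hM : Mid 𝒜 T Rm ε δ M q1) (hC : Ctx 𝒜 T Rm L σ I c κ C A δ f0 θ q N R1 u l F Ψ lag)
include hM hC

theorem near : (∀ i : Ix 𝒜 σ I c δ R1,
    ContDiffAt ℝ 2 (fun v => XR n (Rm i.a) (u i.R i.a) (𝒜.φ i.k v)) i.v) ∧
    PO (fun i : Ix 𝒜 σ I c δ R1 => 𝒜.φ i.k i.v) (fun i =>
      |rho (XR n (Rm i.a) (T i.a) (𝒜.φ i.k i.v)) *
          ar (fun v => XR n (Rm i.a) (T i.a) (𝒜.φ i.k v)) i.v -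
        rho (XR n (Rm i.a) (u i.R i.a) (𝒜.φ i.k i.v)) *
          ar (fun v => XR n (Rm i.a) (u i.R i.a) (𝒜.φ i.k v)) i.v|)
      fun i => Real.exp (-(κ * i.R)) := by
  set W := fun i : Ix 𝒜 σ I c δ R1 => 𝒜.φ i.k i.v
  have o : ∀ _ : Ix 𝒜 σ I c δ R1, (0 : ℝ) ≤ 1 := fun _ => zero_le_one
  have d0 : ∀ i : Ix 𝒜 σ I c δ R1, 0 ≤ Real.exp (-(κ * i.R)) := fun _ => (Real.exp_pos _).le
  have p1 : PO W (fun i => 𝒜.C * 𝒜.sc i.k i.v) fun _ => 1 := .le_trans (fun i => by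
    rw [pow_one, mul_assoc]
    exact mul_le_mul_of_nonneg_left (𝒜.scle _ _ i.hv) 𝒜.C_pos.le) (.wt (𝒜.C * 𝒜.C) 1)
  have jφ : JP W (fun _ => 1) (fun i v => 𝒜.φ i.k v) fun i => i.v :=
    .of o (fun i => 𝒜.jφ _ _ i.hv) (.le_trans (fun i => by simp [W]) (.wt 1 1)) p1 p1
  have jn : JP W (fun _ => 1) (fun i v => n (𝒜.φ i.k v)) fun i => i.v :=
    ⟨_, fun i => 𝒜.jn _ _ i.hv, p1⟩
  have jT : JP W (fun _ => 1) (fun i v => T i.a (𝒜.φ i.k v)) fun i => i.v :=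
    ⟨_, fun i => hM.sT _ i.ha _ _ i.hv, .const ε⟩
  have jR : JP W (fun _ => 1) (fun i v => Rm i.a (𝒜.φ i.k v)) fun i => i.v :=
    JP.comp (G := fun i => Rm i.a) ⟨_, fun i => (hM.jR _ i.ha _).slice, .const M⟩ jφ
  have jD : JP W (fun i => Real.exp (-(κ * i.R)))
      (fun i v => T i.a (𝒜.φ i.k v) - u i.R i.a (𝒜.φ i.k v)) fun i => i.v :=
    ⟨_, fun i => hC.nearT _ i.ha _ i.hR _ _ i.hv i.hσ, .cmul C hC.C0 .refl⟩
  have ju : JP W (fun _ => 1) (fun i v => u i.R i.a (𝒜.φ i.k v)) fun i => i.v :=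
    (jT.sub o (jD.mono (.of_le fun i => Real.exp_le_one_iff.2
      (neg_nonpos.2 (mul_nonneg hC.κ0.le (Nat.cast_nonneg _)))))).congr fun i =>
      Eventually.of_forall fun v => (sub_sub_cancel _ _).symm
  have jX : ∀ f : Ix 𝒜 σ I c δ R1 → E3 → ℝ,
      (JP W (fun _ => 1) (fun i v => f i (𝒜.φ i.k v)) fun i => i.v) →
      JP W (fun _ => 1) (fun i v => XR n (Rm i.a) (f i) (𝒜.φ i.k v)) fun i => i.v := fun f h =>
    (jφ.add o (h.smul jn)).add o (jR.app (jφ.add o (h.smul jn)))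
  refine ⟨(jX _ ju).cd, (JP.mc d0 (jX _ jT) (jX _ ju)
    (((jD.smul jn).add d0 (jR.app (jD.smul jn))).congr fun i =>
      Eventually.of_forall fun v => ?_)).2⟩
  simp only [XR, map_add, map_sub, sub_smul]
  abel

theorem lag_meas {a : ι → ℝ} (ha : ‖a‖ < δ) {R : ℕ} (hR : Adm I c R1 a R) :
    AEStronglyMeasurable (lag R a) ((sig 2 w).restrict {p | σ p < R / 8}) := by
  refine (areaStmt w n K 𝒜).1 _ _ (isOpen_lt hC.σc continuous_const).measurableSet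
    fun k v hv h => ?_
  have h1 : σ (𝒜.φ k v) < R / 4 := lt_of_lt_of_le h (by linarith [Nat.cast_nonneg (α := ℝ) R])
  have h2 := (near hM hC).1 ⟨a, R, k, v, ha, hR, hv, h1⟩
  have h3 := (𝒜.jφ k v hv).cd
  refine (((cont_rho.continuousAt.comp h2.continuousAt).mul (contAt_ar h2)).div (contAt_ar h3)
    (ar_pos (𝒜.dinj k v hv)).ne').congr ?_
  filter_upwards [(𝒜.op k).mem_nhds hv,
    (hC.σc.continuousAt.comp h3.continuousAt).eventually (gt_mem_nhds h1)] with y h4 h5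
  exact (eq_div_of_mul_eq (ar_pos (𝒜.dinj k y h4)).ne' (hC.lagc a ha R hR k y h4 h5)).symm

variable (hF : Fam w n T Rm Z V α c' M' q')
include hF

theorem ptw : ∃ (B k : ℝ) (Q : ℕ), 0 ≤ B ∧ 0 < k ∧ k ≤ κ ∧ ∀ a, ‖a‖ < δ → ‖a‖ ≤ α → ∀ R : ℕ,
    Adm I c R1 a R → ∀ p, w p = 0 →
    ‖rho (Z (a, p)) * Jc Z V a p - indicator {p | σ p < R / 8} (lag R a) p‖ ≤
      B * Real.exp (-(k * R)) * ((1 + ‖p‖) ^ Q * Real.exp (-(k * ‖p‖ ^ 2))) := by
  obtain ⟨B, Q, hB, h⟩ := (near hM hC).2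
  have hκ := hC.κ0
  have hm := hF.dif.one_le
  set k := min (κ / 4) (1 / 288)
  have k0 : 0 < k := by positivity
  have k1 : k ≤ κ / 4 := min_le_left _ _
  have k2 : k ≤ 1 / 288 := min_le_right _ _
  refine ⟨B * 𝒜.C ^ 2 + 12 * M' * Real.exp (M' ^ 2), k, Q, by positivity, k0, by linarith,
    fun a ha ha' R hR p hp => ?_⟩
  have hg := hC.geo R hR.1 p hp
  have R0 := Nat.cast_nonneg (α := ℝ) R
  rw [mul_left_comm, mul_assoc, ← Real.exp_add, ← mul_assoc, mul_comm (_ ^ Q)]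
  by_cases hs : σ p < R / 8
  · obtain ⟨j, v, hv, rfl⟩ := 𝒜.exists_chart hp
    have h1 : σ (𝒜.φ j v) < R / 4 := hs.trans_le (by linarith)
    have h2 := h ⟨a, R, j, v, ha, hR, hv, h1⟩
    have h3 : (fun v => XR n (Rm a) (T a) (𝒜.φ j v)) =ᶠ[𝓝 v] fun v => Z (a, 𝒜.φ j v) :=
      (Atlas.mem_ev hv).mono fun y hy => (hF.onS a ha' _ hy).symm
    have h4 : ar (fun v => XR n (Rm a) (T a) (𝒜.φ j v)) v = ar (fun v => Z (a, 𝒜.φ j v)) v := by
      simp only [ar, h3.fderiv_eq]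
    have h5 : 1 ≤ ar (𝒜.φ j) v * 𝒜.C ^ 2 := by
      have := 𝒜.ar_ge j hv
      rw [div_pow, div_le_iff₀ (pow_pos 𝒜.C_pos 2)] at this
      exact (one_le_pow₀ (𝒜.sc1 j v hv)).trans this
    simp only at h2
    rw [← hC.lagc a ha R hR j v hv h1, h4, ← jc_ar hF a hv, show XR n (Rm a) (T a) (𝒜.φ j v) = _
      from h3.eq_of_nhds, ← mul_assoc, ← sub_mul, abs_mul, abs_of_nonneg (ar_nonneg _ _)] at h2
    rw [indicator_of_mem (show 𝒜.φ j v ∈ {p | σ p < R / 8} from hs), Real.norm_eq_abs]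
    refine ((le_mul_of_one_le_right (abs_nonneg _) h5).trans ?_).trans
      (mul_le_mul (mul_le_mul_of_nonneg_right (le_add_of_nonneg_right (by positivity))
        (by positivity)) (Real.exp_le_exp.2 (show -(κ * R) ≤ _ by nlinarith [hg.1 h1]))
        (by positivity) (by positivity))
    rw [← mul_assoc]
    exact (mul_le_mul_of_nonneg_right h2 (by positivity)).trans (le_of_eq (by ring))
  · rw [indicator_of_notMem (show p ∉ {p | σ p < R / 8} from hs), sub_zero]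
    refine (g_le hF a p).trans (mul_le_mul ((le_add_of_nonneg_left (by positivity)).trans
      (le_mul_of_one_le_right (by positivity) (one_le_pow₀ (by simp)))) (Real.exp_le_exp.2 ?_)
      (by positivity) (by positivity))
    nlinarith [hg.2 (not_lt.1 hs), sq_nonneg ‖p‖]

theorem key : ∃ B k : ℝ, 0 ≤ B ∧ 0 < k ∧ k ≤ κ ∧ ∀ a, ‖a‖ < δ → ‖a‖ ≤ α → ∀ R : ℕ,
    Adm I c R1 a R → |A * FA (sig 2 fun y => V (a, y)) - F R a| ≤ B * Real.exp (-(k * R)) := by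
  obtain ⟨B, k, Q, hB, k0, k1, h⟩ := ptw hM hC hF
  have hI := gauss hF k0 Q
  have I0 : 0 ≤ ∫ x, (1 + ‖x‖) ^ Q * Real.exp (-(k * ‖x‖ ^ 2)) ∂(sig 2 w) :=
    integral_nonneg fun x => by positivity
  have hA := hC.A0
  have C0 := hC.C0
  refine ⟨A * B * (∫ x, (1 + ‖x‖) ^ Q * Real.exp (-(k * ‖x‖ ^ 2)) ∂(sig 2 w)) + C, k,
    by positivity, k0, k1, fun a ha ha' R hR => ?_⟩
  have hG : MeasurableSet {p | σ p < R / 8} := (isOpen_lt hC.σc continuous_const).measurableSet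
  have h1 : ∀ᵐ p ∂(sig 2 w), _ :=
    (ae_restrict_mem 𝒜.measurableSet_zero).mono fun p hp => h a ha ha' R hR p hp
  have h2 := (hI.const_mul _).mono' ((cont_g hF a).aestronglyMeasurable.sub
    ((aestronglyMeasurable_indicator_iff hG).2 (lag_meas hM hC ha hR))) h1
  have h3 := norm_integral_le_of_norm_le (hI.const_mul _) h1
  have h4 : Integrable (indicator {p | σ p < R / 8} (lag R a)) (sig 2 w) := by
    simpa using (int_g hF a).sub h2
  rw [integral_sub (int_g hF a) h4, integral_indicator hG, ← FA_eq (𝒜 := 𝒜) hF, integral_const_mul,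
    Real.norm_eq_abs] at h3
  have h5 := hC.area a ha R hR
  have h6 := mul_le_mul_of_nonneg_left (Real.exp_le_exp.2 (neg_le_neg (mul_le_mul_of_nonneg_right
    k1 (Nat.cast_nonneg (α := ℝ) R)))) C0
  have h7 := mul_le_mul_of_nonneg_left h3 hA.le
  rw [← abs_of_pos hA, ← abs_mul, abs_of_pos hA, mul_sub] at h7
  exact (abs_sub_le _ _ _).trans ((add_le_add h7 (h5.trans h6)).trans (le_of_eq (by ring)))

end LojP

/-- the Lojasiewicz inequality -/
theorem lojStmt : LojStmt := by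
  intro ι J _ _ _ w n K _ 𝒜 T Rm L σ I c κ C A δ f0 θ q N R1 u l F Ψ lag ε M q1 Z V α c' M' q'
    hM hC hF
  obtain ⟨B, k, hB, k0, k1, h⟩ := LojP.key hM hC hF
  have hA := hC.A0
  have C0 := hC.C0
  have θ0 : 0 < θ := by linarith [hC.θ0]
  have h0 : A * FA (sig 2 fun y => V (0, y)) = f0 := by
    have a1 : Tendsto (fun R : ℕ => B * Real.exp (-(k * R))) atTop (𝓝 (B * 0)) :=
      (Real.tendsto_exp_neg_atTop_nhds_zero.comp
        (tendsto_natCast_atTop_atTop.const_mul_atTop k0)).const_mul B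
    have a2 := le_of_tendsto_of_tendsto (hC.lim.const_sub _).abs a1
      ((eventually_ge_atTop R1).mono fun R hR => h 0 (by simpa using hM.δ0)
        (by simpa using hF.α0.le) R ⟨hR, fun i _ => by simpa using hC.c0.le⟩)
    rwa [mul_zero, abs_nonpos_iff, sub_eq_zero] at a2
  obtain ⟨C', hC', hs⟩ := hC.sel hM.δ0
  obtain ⟨R2, h2⟩ := eventually_atTop.1 (ev_exp (half_pos k0) (show 0 < 1 / C' by positivity)
    (N + 1))
  refine ⟨(B + (2 * C) ^ θ⁻¹) / A, ?_⟩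
  filter_upwards [hs R2, closedBall_mem_nhds 0 hF.α0] with x hx hx'
  rw [mem_closedBall_zero_iff] at hx'
  have a1 : Tendsto (fun η : ℝ => (B + (2 * C) ^ θ⁻¹) / A * (‖L x‖ + η) ^ θ⁻¹) (𝓝[>] 0)
      (𝓝 ((B + (2 * C) ^ θ⁻¹) / A * (‖L x‖ + 0) ^ θ⁻¹)) :=
    (((continuous_const.add continuous_id).rpow_const fun _ => Or.inr (by positivity)).const_mul
      _).continuousWithinAt
  rw [add_zero] at a1
  refine ge_of_tendsto a1 (eventually_nhdsWithin_of_forall fun η (hη : 0 < η) => ?_)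
  obtain ⟨R, hR, ad, a2⟩ := hx.2 η hη
  have s0 : 0 < ‖L x‖ + η := add_pos_of_nonneg_of_pos (norm_nonneg _) hη
  have R0 := Nat.cast_nonneg (α := ℝ) R
  have a3 : Real.exp (-(k / 2 * R)) ≤ ‖L x‖ + η := by
    have b1 := mul_le_mul_of_nonneg_left (h2 R hR) (show 0 ≤ C' * (‖L x‖ + η) by positivity)
    have b2 := mul_le_mul_of_nonneg_right a2 (Real.exp_pos (-(k / 2 * R))).le
    rw [mul_one_div, mul_div_cancel_left₀ _ (by positivity)] at b1
    linarith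
  have a4 : Real.exp (-(k * R)) ≤ (‖L x‖ + η) ^ θ⁻¹ := by
    refine le_trans ?_ (Real.rpow_le_rpow (Real.exp_pos _).le a3 (by positivity))
    rw [← Real.exp_mul, Real.exp_le_exp, ← div_eq_mul_inv, le_div_iff₀ θ0]
    nlinarith [hC.θ0, mul_nonneg k0.le R0]
  have a5 : |F R x - f0| ≤ (2 * C) ^ θ⁻¹ * (‖L x‖ + η) ^ θ⁻¹ := by
    rw [← Real.mul_rpow (by positivity) s0.le, Real.le_rpow_inv_iff_of_pos (abs_nonneg _)
      (by positivity) θ0]
    have b1 : Real.exp (-(κ * R)) ≤ Real.exp (-(k / 2 * R)) := Real.exp_le_exp.2 (by nlinarith)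
    exact (hC.con x hx.1 R ad).2.trans (by nlinarith [hη.le])
  have a6 := (h x hx.1 hx' R ad).trans (mul_le_mul_of_nonneg_left a4 hB)
  rw [div_mul_eq_mul_div, le_div_iff₀' hA, mul_sub, h0]
  linarith [le_abs_self (A * FA (sig 2 fun y => V (x, y)) - F R x), le_abs_self (F R x - f0)]

end Vale.Agent.P218N.D6
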