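import Vale.Agent.P218N.D6.NdD
import Vale.Agent.P218N.G.Static
import Vale.Agent.P218N.H.Slice

/-! Block D6: weak solutions of the Jacobi equation are velocities of the family. -/

open MeasureTheory Set Filter Topology Metric
open scoped RealInnerProductSpace ContDiff

namespace Vale.Agent.P218N.D6

open Vale.Agent.P218 Vale.Agent.P218.H313 Vale.Agent.P218N.H Vale.Agent.P218N.G

set_option maxSynthPendingDepth 3
set_option linter.unusedSectionVars false

namespace Nd

section general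

variable {E : Type*} [NormedAddCommGroup E] [InnerProductSpace ℝ E] [FiniteDimensional ℝ E]
  [MeasurableSpace E] [BorelSpace E] {m : ℕ} {W : E → ℝ} {c K : ℝ} {J : Type*} [Fintype J]
  {psi : J → E → ℝ}

theorem pb_jac (hW : Tube0 W c K) {ζ : E → ℝ} (hζ : ContDiff ℝ 2 ζ) (hc : HasCompactSupport ζ) :
    PB (jac W ζ) := by
  obtain ⟨B, hB⟩ := exists_JB hζ hc
  exact PB.of_le (C := (Module.finrank ℝ E + K ^ 2 + 1 + Module.finrank ℝ E * K ^ 2) * B)
    (p := 1) fun x => (jac_le hW (hB x)).trans (le_of_eq (by ring))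

theorem weak_sub (hE : Module.finrank ℝ E = m + 1) (hW : Tube0 W c K) {u v : E → ℝ}
    {mu nu : J → ℝ} (hu : Weak m W psi u mu) (hv : Weak m W psi v nu) :
    Weak m W psi (fun x => u x - v x) (mu - nu) := by
  refine ⟨hu.meas.sub hv.meas, ((hu.int.const_mul 2).add (hv.int.const_mul 2)).mono'
    (((hu.meas.sub hv.meas).pow 2).mul cont_rho.aestronglyMeasurable)
    (Eventually.of_forall fun x => ?_), fun ζ hζ hc => ?_⟩
  · have h1 := rho_pos x
    rw [Real.norm_of_nonneg (by positivity), Pi.add_apply]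
    nlinarith [mul_nonneg (sq_nonneg (u x + v x)) h1.le]
  · have h2 : ContDiff ℝ 2 ζ := hζ.of_le (by norm_cast)
    simp only [sub_mul, Pi.sub_apply, Finset.sum_sub_distrib]
    rw [integral_sub (int_u_mul hE hW hu.meas hu.int (hW.continuous_jac h2) (pb_jac hW h2 hc))
      (int_u_mul hE hW hv.meas hv.int (hW.continuous_jac h2) (pb_jac hW h2 hc)),
      hu.eq ζ hζ hc, hv.eq ζ hζ hc]

variable {P : Type*} [NormedAddCommGroup P] [NormedSpace ℝ P] {V : P → E → ℝ}
  {V' : P →ₗ[ℝ] (E → ℝ)} {lam : P → J → ℝ} {q : ℕ}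

theorem lip0 (hM : PreModel V V' psi lam c K q) :
    ∀ᶠ a in 𝓝 (0 : P), ∀ x, |V a x - V 0 x| ≤ (K + 1) * ‖a‖ * (1 + ‖x‖) ^ q := by
  have h1 : Tendsto (fun a : P => ((0 : P), a)) (𝓝 0) (𝓝 0) :=
    (continuous_const.prodMk continuous_id).tendsto' 0 0 rfl
  filter_upwards [h1.eventually (hM.strict 1 one_pos)] with a ha x
  have h2 := ha x
  simp only [sub_zero, one_mul] at h2
  have h3 := hM.db a x
  have h4 := abs_add_le (V a x - V 0 x - V' a x) (V' a x)
  rw [sub_add_cancel] at h4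
  linarith

theorem abs_sum_le (hM : PreModel V V' psi lam c K q) (mu : J → ℝ) (x : E) :
    |∑ j, mu j * psi j x| ≤ Fintype.card J * K * ‖mu‖ * (1 + ‖x‖) ^ q := by
  refine (Finset.abs_sum_le_sum_abs _ _).trans ?_
  have h1 : ∀ j ∈ (Finset.univ : Finset J), |mu j * psi j x| ≤ ‖mu‖ * (K * (1 + ‖x‖) ^ q) := by
    intro j _
    rw [abs_mul]
    exact mul_le_mul (norm_le_pi_norm mu j) (hM.pb j x) (abs_nonneg _) (norm_nonneg _)
  refine (Finset.sum_le_sum h1).trans (le_of_eq ?_)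
  simp only [Finset.sum_const, Finset.card_univ, nsmul_eq_mul]
  ring

theorem tendsto_ray (b : P) : Tendsto (fun t : ℝ => t • b) (𝓝[>] 0) (𝓝 0) :=
  ((continuous_id.smul continuous_const).tendsto' 0 0 (zero_smul ℝ b)).mono_left
    nhdsWithin_le_nhds

theorem tendsto_quot (hM : PreModel V V' psi lam c K q) (b : P) {x : E} (hx : V 0 x = 0) :
    Tendsto (fun t : ℝ => t⁻¹ * V (t • b) x) (𝓝[>] 0) (𝓝 (V' b x)) := by
  have h1 : Tendsto (fun t : ℝ => ((0 : P), t • b)) (𝓝[>] 0) (𝓝 0) :=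
    tendsto_const_nhds.prodMk_nhds (tendsto_ray b)
  refine Metric.tendsto_nhds.2 fun ε hε => ?_
  have hB : 0 < ‖b‖ * (1 + ‖x‖) ^ q + 1 := by positivity
  filter_upwards [h1.eventually (hM.strict _ (div_pos hε hB)), self_mem_nhdsWithin] with t h ht
  have ht' : (0 : ℝ) < t := ht
  have h2 := h x
  simp only [hx, sub_zero, map_smul, Pi.smul_apply, smul_eq_mul, norm_smul,
    Real.norm_of_nonneg ht'.le] at h2
  have h3 : t⁻¹ * V (t • b) x - V' b x = t⁻¹ * (V (t • b) x - t * V' b x) := by field_simp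
  rw [Real.dist_eq, h3, abs_mul, abs_of_pos (inv_pos.2 ht'), inv_mul_lt_iff₀ ht']
  refine h2.trans_lt ?_
  rw [show ε / (‖b‖ * (1 + ‖x‖) ^ q + 1) * (t * ‖b‖) * (1 + ‖x‖) ^ q =
    t * (ε * (‖b‖ * (1 + ‖x‖) ^ q / (‖b‖ * (1 + ‖x‖) ^ q + 1))) by ring]
  refine mul_lt_mul_of_pos_left (mul_lt_of_lt_one_right hε ?_) ht'
  rw [div_lt_one hB]
  linarith

theorem tendsto_int (hE : Module.finrank ℝ E = m + 1) (hM : PreModel V V' psi lam c K q) (b : P)
    {ζ : E → ℝ} (hζ : ContDiff ℝ 2 ζ) (hc : HasCompactSupport ζ) :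
    Tendsto (fun t : ℝ => ∫ x, t⁻¹ * V (t • b) x * jac (V (t • b)) ζ x * rho x ∂(sig m (V 0)))
      (𝓝[>] 0) (𝓝 (∫ x, V' b x * jac (V 0) ζ x * rho x ∂(sig m (V 0)))) := by
  have hW : Tube0 (V 0) c K := hM.tube.self_of_nhds
  have hK := hW.K_nonneg
  obtain ⟨B, hB⟩ := exists_JB hζ hc
  refine tendsto_integral_filter_of_dominated_convergence _ ?_ ?_
    ((int_rho hE hW (q + 1)).const_mul ((K + 1) * ‖b‖ *
      ((Module.finrank ℝ E + K ^ 2 + 1 + Module.finrank ℝ E * K ^ 2) * B))) ?_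
  · filter_upwards [(tendsto_ray b).eventually hM.tube] with t ht
    exact (((continuous_const.mul ht.cont).mul (ht.continuous_jac hζ)).mul
      cont_rho).aestronglyMeasurable
  · filter_upwards [(tendsto_ray b).eventually hM.tube, (tendsto_ray b).eventually (lip0 hM),
      self_mem_nhdsWithin] with t ht hl h0
    have h0' : (0 : ℝ) < t := h0
    filter_upwards [hW.ae_zero] with x hx
    have h1 := hl x
    rw [hx, sub_zero, norm_smul, Real.norm_of_nonneg h0'.le] at h1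
    have h2 : |t⁻¹ * V (t • b) x| ≤ (K + 1) * ‖b‖ * (1 + ‖x‖) ^ q := by
      rw [abs_mul, abs_of_pos (inv_pos.2 h0'), inv_mul_le_iff₀ h0']
      exact h1.trans (le_of_eq (by ring))
    rw [norm_mul, norm_mul, Real.norm_of_nonneg (rho_pos x).le, Real.norm_eq_abs, Real.norm_eq_abs]
    refine (mul_le_mul_of_nonneg_right (mul_le_mul h2 (jac_le ht (hB x)) (abs_nonneg _)
      (by positivity)) (rho_pos x).le).trans (le_of_eq ?_)
    ring
  · filter_upwards [hW.ae_zero] with x hx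
    refine ((tendsto_quot hM b hx).mul (Metric.tendsto_nhds.2 fun ε hε => ?_)).mul_const _
    filter_upwards [(tendsto_ray b).eventually (hM.c2.jac hW hM.tube hζ hc (half_pos hε))]
      with t ht
    exact (ht x).trans_lt (half_lt_self hε)

/-- The velocities of the family are weak solutions. -/
theorem weak_vel [FiniteDimensional ℝ (J → ℝ)] (hE : Module.finrank ℝ E = m + 1)
    (hM : PreModel V V' psi lam c K q) {T : E → Submodule ℝ E} {H : E → E}
    (hS : GSlice m (sig m (V 0)) T H) (h0 : ∀ᵐ x ∂(sig m (V 0)), vel T H x = 0) (b : P) :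
    ∃ mu, Weak m (V 0) psi (V' b) mu := by
  have hW : Tube0 (V 0) c K := hM.tube.self_of_nhds
  have hK := hW.K_nonneg
  have hpb : ∀ j, PB (psi j) := fun j => PB.of_le (C := K) (p := q) fun x => hM.pb j x
  have hVb : PB (V' b) := PB.of_le (C := K * ‖b‖) (p := q) fun x => hM.db b x
  have hl : ∀ᶠ t : ℝ in 𝓝[>] 0, ‖lam (t • b)‖ ≤ t * (K * ‖b‖) := by
    filter_upwards [(tendsto_ray b).eventually hM.lamb, self_mem_nhdsWithin] with t h ht
    rw [norm_smul, Real.norm_of_nonneg (le_of_lt ht)] at h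
    exact h.trans (le_of_eq (by ring))
  have hU : (Ultrafilter.of (𝓝[>] (0 : ℝ)) : Filter ℝ) ≤ 𝓝[>] 0 := Ultrafilter.of_le _
  obtain ⟨mu, -, hmu⟩ := (isCompact_closedBall (0 : J → ℝ) (K * ‖b‖)).ultrafilter_le_nhds
    ((Ultrafilter.of (𝓝[>] (0 : ℝ))).map fun t => t⁻¹ • lam (t • b)) (by
      refine le_principal_iff.2 (hU ?_)
      filter_upwards [hl, self_mem_nhdsWithin] with t h ht
      have ht' : (0 : ℝ) < t := ht
      rw [mem_preimage, mem_closedBall_zero_iff, norm_smul, norm_inv, Real.norm_of_nonneg ht'.le,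
        inv_mul_le_iff₀ ht']
      exact h)
  refine ⟨mu, (hM.dcont b).aestronglyMeasurable,
    int_PB hE hW ((hM.dcont b).pow 2).aestronglyMeasurable (hVb.pow 2), fun ζ hζ' hc => ?_⟩
  have hζ : ContDiff ℝ 2 ζ := hζ'.of_le (by norm_cast)
  obtain ⟨C, hC, hest⟩ := exists_jac_estF hE hW.cpos hK hζ hc
  set M1 := ∫ x, (1 + ‖x‖) ^ q * rho x ∂(sig m (V 0)) with hM1
  set M2 := ∫ x, (1 + ‖x‖) ^ (2 * q) * rho x ∂(sig m (V 0)) with hM2
  have p1 : 0 ≤ M1 := integral_nonneg fun x => by have := rho_pos x; positivity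
  have p2 : 0 ≤ M2 := integral_nonneg fun x => by have := rho_pos x; positivity
  have l1 := ((tendsto_int hE hM b hζ hc).mono_left hU).sub (tendsto_finsetSum Finset.univ
    fun j _ => (((continuous_apply j).tendsto mu).comp hmu).mul_const
      (∫ x, psi j x * ζ x * rho x ∂(sig m (V 0))))
  have hdis : dis (sig m (V 0)) T H = 0 :=
    integral_eq_zero_of_ae (h0.mono fun x hx => by simp [hx])
  have hvel : ∫ x, ‖vel T H x‖ * rho x ∂(sig m (V 0)) = 0 :=
    integral_eq_zero_of_ae (h0.mono fun x hx => by simp [hx])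
  refine sub_eq_zero.1 (abs_nonpos_iff.1 (le_of_forall_pos_le_add fun δ hδ => ?_))
  have hD : 0 < C * (K * ‖b‖ * M1) + 1 := by positivity
  set ε := δ / (C * (K * ‖b‖ * M1) + 1) with hε
  have hε0 : 0 < ε := div_pos hδ hD
  set A := ((K + 1) * ‖b‖) ^ 2 * M2 + (Fintype.card J * K * (K * ‖b‖)) ^ 2 * M2 +
    (ε * (K * ‖b‖)) ^ 2 * M2 with hA
  have l2 : Tendsto (fun t : ℝ => C * (t * A + ε * (K * ‖b‖ * M1))) (𝓝[>] 0)
      (𝓝 (C * (0 * A + ε * (K * ‖b‖ * M1)))) :=
    (((tendsto_id.mono_left nhdsWithin_le_nhds).mul_const A).add_const _).const_mul C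
  refine (le_of_tendsto_of_tendsto l1.abs (l2.mono_left hU) (hU ?_)).trans ?_
  · filter_upwards [hl, self_mem_nhdsWithin, (tendsto_ray b).eventually hM.tube,
      (tendsto_ray b).eventually (lip0 hM), (tendsto_ray b).eventually (hM.ric ε hε0)]
      with t h1 ht h2 h3 h4
    have ht' : (0 : ℝ) < t := ht
    have cf : Continuous fun x => ∑ j, lam (t • b) j * psi j x :=
      continuous_finsetSum _ fun j _ => continuous_const.mul (hM.pcont j)
    have h5 := hest _ _ _ (h2.tubeF cf (PB.of_le fun x => abs_sum_le hM (lam (t • b)) x) h4) _ T H hS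
    have e1 : DD (sig m (V 0)) (V (t • b)) 0 ≤ ((K + 1) * ‖t • b‖) ^ 2 * M2 := by
      refine le_of_eq_of_le ?_ (DD_le_of_bound hS (h2.cont.sub hW.cont) h3 le_rfl)
      exact integral_congr_ae (hW.ae_zero.mono fun x hx => by
        simp only [Pi.sub_apply, hx, sub_zero])
    have e2 := DD_le_of_bound hS cf (abs_sum_le hM (lam (t • b))) le_rfl
    have e3 := DD_le_of_bound hS (g := fun x => |ε * ‖lam (t • b)‖| * (1 + ‖x‖) ^ q)
      (continuous_const.mul (cont_w q)) (L := ε * ‖lam (t • b)‖) (q := q) (fun x => by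
        rw [abs_of_nonneg (by positivity), abs_of_nonneg (by positivity)]) le_rfl
    have e4 : ∫ x, |ε * ‖lam (t • b)‖| * (1 + ‖x‖) ^ q * rho x ∂(sig m (V 0)) =
        ε * ‖lam (t • b)‖ * M1 := by
      rw [abs_of_nonneg (by positivity), hM1, ← integral_const_mul]
      simp only [mul_assoc]
    have e5 : ∫ x, ζ x * (∑ j, lam (t • b) j * psi j x) * rho x ∂(sig m (V 0)) =
        ∑ j, lam (t • b) j * ∫ x, psi j x * ζ x * rho x ∂(sig m (V 0)) := by
      have i1 : ∀ j, Integrable (fun x => psi j x * ζ x * rho x) (sig m (V 0)) := fun j =>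
        int_PB hE hW ((hM.pcont j).mul hζ.continuous).aestronglyMeasurable
          ((hpb j).mul (PB.of_compact hζ.continuous hc))
      simp only [← integral_const_mul]
      rw [← integral_finsetSum _ fun j _ => (i1 j).const_mul _]
      congr 1
      funext x
      rw [Finset.mul_sum, Finset.sum_mul]
      exact Finset.sum_congr rfl fun j _ => by ring
    have e6 : (∫ x, t⁻¹ * V (t • b) x * jac (V (t • b)) ζ x * rho x ∂(sig m (V 0))) -
        ∑ j, (t⁻¹ • lam (t • b)) j * ∫ x, psi j x * ζ x * rho x ∂(sig m (V 0)) =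
        t⁻¹ * ((∫ x, V (t • b) x * jac (V (t • b)) ζ x * rho x ∂(sig m (V 0))) -
          ∑ j, lam (t • b) j * ∫ x, psi j x * ζ x * rho x ∂(sig m (V 0))) := by
      rw [mul_sub, ← integral_const_mul, Finset.mul_sum]
      simp only [Pi.smul_apply, smul_eq_mul, mul_assoc]
    rw [hdis, hvel, e4, e5] at h5
    rw [norm_smul, Real.norm_of_nonneg ht'.le] at e1
    change |(∫ x, t⁻¹ * V (t • b) x * jac (V (t • b)) ζ x * rho x ∂(sig m (V 0))) -
        ∑ j, (t⁻¹ • lam (t • b)) j * ∫ x, psi j x * ζ x * rho x ∂(sig m (V 0))| ≤ _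
    rw [e6, abs_mul, abs_of_pos (inv_pos.2 ht'), inv_mul_le_iff₀ ht']
    refine h5.trans ?_
    have n0 := norm_nonneg (lam (t • b))
    have f2 : (Fintype.card J * K * ‖lam (t • b)‖) ^ 2 * M2 ≤
        (Fintype.card J * K * (t * (K * ‖b‖))) ^ 2 * M2 := by gcongr
    have f3 : (ε * ‖lam (t • b)‖) ^ 2 * M2 ≤ (ε * (t * (K * ‖b‖))) ^ 2 * M2 := by gcongr
    have f4 : ε * ‖lam (t • b)‖ * M1 ≤ ε * (t * (K * ‖b‖)) * M1 := by gcongr
    rw [mul_left_comm t C]
    refine mul_le_mul_of_nonneg_left ?_ hC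
    have f5 : t * (t * A + ε * (K * ‖b‖ * M1)) = ((K + 1) * (t * ‖b‖)) ^ 2 * M2 +
        (Fintype.card J * K * (t * (K * ‖b‖))) ^ 2 * M2 + (ε * (t * (K * ‖b‖))) ^ 2 * M2 +
        ε * (t * (K * ‖b‖)) * M1 := by
      rw [hA]
      ring
    linarith
  · have h1 : ε * (C * (K * ‖b‖ * M1) + 1) = δ := div_mul_cancel₀ _ hD.ne'
    nlinarith

end general

theorem gslice {w W : E3 → ℝ} {c K : ℝ} (hw : Shr w) (hW : Tube0 W c K)
    (h : ∀ x, W x = 0 ↔ w x = 0) : ∃ (T : E3 → Submodule ℝ E3) (H : E3 → E3),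
      GSlice 2 (sig 2 W) T H ∧ ∀ᵐ x ∂(sig 2 W), vel T H x = 0 := by
  have h1 : ∀ p ∈ {x | W x = 0}, LocDef {x | W x = 0} {x | grad w x ≠ 0} w := fun p _ =>
    ⟨isOpen_ne_fun (continuous_grad (hw.smooth.of_le (by norm_cast))) continuous_const, hw.smooth,
      fun _ hx => hx, fun x _ => h x⟩
  have h2 : Surf {x | W x = 0} := fun p hp => ⟨w, _, hw.ne p ((h p).1 hp), h1 p hp⟩
  have h3 : ∀ᵐ x ∂(sig 2 W), vel (tanP {x | W x = 0}) (Hv {x | W x = 0}) x = 0 :=
    hW.ae_zero.mono fun x hx => by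
      obtain ⟨σ, -, e1, e2⟩ := (h1 x hx).exists_sign (hw.ne x ((h x).1 hx)) hx
      rw [h2.vel_eq hx, e1, e2, tr_smul, hw.eq x ((h x).1 hx), real_inner_smul_left,
        real_inner_comm x]
      rw [show σ * ⟪x, nuW w x⟫ / 2 - σ * (⟪x, nuW w x⟫ / 2) = 0 by ring, zero_smul]
  refine ⟨_, _, ⟨h2.slice finrank_E3 hW.isClosed, int_rho finrank_E3 hW, fun p => ?_⟩, h3⟩
  exact (integrable_zero _ _ _).congr (h3.mono fun x hx => by simp [hx])

end Nd

open Nd in
/-- weak solutions are velocities of the family -/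
theorem ndStmt : NdStmt := by
  intro ι J _ _ w V V' psi lam c K q hw h0 hM hU hcard u mu hu
  have hW : Tube0 (V 0) c K := hM.tube.self_of_nhds
  obtain ⟨T, H, hS, hv⟩ := gslice hw hW h0
  have hpb : ∀ j, PB (psi j) := fun j => PB.of_le (C := K) (p := q) fun x => hM.pb j x
  have hi : ∀ b j, Integrable (fun x => V' b x * psi j x * rho x) (sig 2 (V 0)) := fun b j =>
    int_PB finrank_E3 hW ((hM.dcont b).mul (hM.pcont j)).aestronglyMeasurable
      ((PB.of_le (C := K * ‖b‖) (p := q) fun x => hM.db b x).mul (hpb j))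
  let Φ : (ι → ℝ) →ₗ[ℝ] (J → ℝ) :=
    { toFun := fun b j => ∫ x, V' b x * psi j x * rho x ∂(sig 2 (V 0))
      map_add' := fun b b' => funext fun j => by
        rw [Pi.add_apply, ← integral_add (hi b j) (hi b' j)]
        simp only [map_add, Pi.add_apply, add_mul]
      map_smul' := fun t b => funext fun j => by
        simp only [map_smul, Pi.smul_apply, smul_eq_mul, RingHom.id_apply, mul_assoc,
          integral_const_mul] }
  have h1 : Function.Injective Φ := (injective_iff_map_eq_zero Φ).2 fun b hb => by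
    obtain ⟨nu, hn⟩ := weak_vel finrank_E3 hM hS hv b
    exact hM.inj b fun x hx => hW.eq_zero_of_ae finrank_E3 (hM.dcont b)
      (hU _ _ hn fun j => congrFun hb j) hx
  obtain ⟨b, hb⟩ := (LinearMap.injective_iff_surjective_of_finrank_eq_finrank
    (by simp [hcard])).1 h1 fun j => ∫ x, u x * psi j x * rho x ∂(sig 2 (V 0))
  obtain ⟨nu, hn⟩ := weak_vel finrank_E3 hM hS hv b
  refine ⟨b, (hU _ _ (weak_sub finrank_E3 hW hu hn) fun j => ?_).mono fun x hx =>
    sub_eq_zero.1 hx⟩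
  simp only [sub_mul]
  rw [integral_sub (int_u_mul finrank_E3 hW hu.meas hu.int (hM.pcont j) (hpb j)) (hi b j)]
  exact sub_eq_zero.2 (congrFun hb j).symm

end Vale.Agent.P218N.D6
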