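import Vale.Agent.P218N.D6.NdG
import Vale.Agent.P218N.G.Jac

/-! Block D6: the weak Jacobi equation for `C²` test functions of polynomial growth; duality. -/

open MeasureTheory Set Filter Topology Metric
open scoped RealInnerProductSpace ContDiff Convolution

namespace Vale.Agent.P218N.D6

open Vale.Agent.P218 Vale.Agent.P218.H313 Vale.Agent.P218N.H Vale.Agent.P218N.G

set_option maxSynthPendingDepth 3
set_option linter.unusedSectionVars false

namespace Nd

variable {E : Type*} [NormedAddCommGroup E] [InnerProductSpace ℝ E] [FiniteDimensional ℝ E]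
  [MeasurableSpace E] [BorelSpace E] {m : ℕ} {W : E → ℝ} {c K : ℝ} {J : Type*} [Fintype J]
  {psi : J → E → ℝ} {u : E → ℝ} {mu : J → ℝ}

theorem norm_riesz (l : E →L[ℝ] ℝ) : ‖riesz E l‖ = ‖l‖ := by
  unfold riesz
  simp

theorem hess_eq {ζ : E → ℝ} {x : E} (hζ : ContDiffAt ℝ 2 ζ x) :
    fderiv ℝ (grad ζ) x = (riesz E).comp (fderiv ℝ (fderiv ℝ ζ) x) := by
  have h1 : DifferentiableAt ℝ (fderiv ℝ ζ) x :=
    (hζ.fderiv_right (m := 1) (by norm_num)).differentiableAt (by norm_num)
  rw [grad_eq]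
  exact ((riesz E).hasFDerivAt.comp x h1.hasFDerivAt).fderiv

theorem norm_hess_le {ζ : E → ℝ} {x : E} (hζ : ContDiffAt ℝ 2 ζ x) :
    ‖fderiv ℝ (grad ζ) x‖ ≤ ‖fderiv ℝ (fderiv ℝ ζ) x‖ := by
  rw [hess_eq hζ]
  refine ContinuousLinearMap.opNorm_le_bound _ (norm_nonneg _) fun v => ?_
  rw [ContinuousLinearMap.comp_apply, norm_riesz]
  exact ContinuousLinearMap.le_opNorm _ _

theorem jac_le (hW : Tube0 W c K) {ζ : E → ℝ} {x : E} {b : ℝ} (h : JB ζ x b b b) :
    |jac W ζ x| ≤ (Module.finrank ℝ E + K ^ 2 + 1 + Module.finrank ℝ E * K ^ 2) *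
      ((1 + ‖x‖) * b) := by
  have hb := h.n0
  have hK := hW.K_nonneg
  have hx := norm_nonneg x
  have h0 : |ζ x| ≤ b := h.b0
  have h1 : ‖grad ζ x‖ ≤ b := (norm_grad ζ x).trans_le h.b1
  have h2 : ‖fderiv ℝ (grad ζ) x‖ ≤ b := (norm_hess_le h.cd).trans h.b2
  have hd : (0 : ℝ) ≤ Module.finrank ℝ E := Nat.cast_nonneg _
  have e1 : |tr (fderiv ℝ (grad ζ) x)| ≤ Module.finrank ℝ E * b :=
    (abs_tr_le _).trans (mul_le_mul_of_nonneg_left h2 hd)
  have e2 : |⟪fderiv ℝ (grad ζ) x (grad W x), grad W x⟫| ≤ b * K * K :=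
    (abs_real_inner_le_norm _ _).trans (mul_le_mul ((ContinuousLinearMap.le_opNorm _ _).trans
      (mul_le_mul h2 (hW.b1 x) (norm_nonneg _) hb)) (hW.b1 x) (norm_nonneg _) (by positivity))
  have e3 : |1 / 2 * ⟪x, grad ζ x⟫| ≤ 1 / 2 * (‖x‖ * b) := by
    rw [abs_mul, abs_of_pos (by norm_num : (0 : ℝ) < 1 / 2)]
    exact mul_le_mul_of_nonneg_left ((abs_real_inner_le_norm _ _).trans
      (mul_le_mul_of_nonneg_left h1 hx)) (by norm_num)
  have e4 : |(tr ((fderiv ℝ (grad W) x).comp (fderiv ℝ (grad W) x)) + 1 / 2) * ζ x| ≤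
      (Module.finrank ℝ E * K ^ 2 + 1 / 2) * b := by
    rw [abs_mul]
    refine mul_le_mul ((abs_add_le _ _).trans (add_le_add (hW.q_le x) (le_of_eq ?_))) h0
      (abs_nonneg _) (by positivity)
    exact abs_of_pos (by norm_num)
  unfold jac
  refine ((abs_add_le _ _).trans (add_le_add ((abs_sub _ _).trans
    (add_le_add ((abs_sub _ _).trans (add_le_add e1 e2)) e3)) e4)).trans ?_
  have h3 : 0 ≤ ‖x‖ * b := by positivity
  have h4 : 0 ≤ (Module.finrank ℝ E + K ^ 2 + Module.finrank ℝ E * K ^ 2) * (‖x‖ * b) := by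
    positivity
  nlinarith

theorem tendsto_jac {ζ : E → ℝ} {z : ℕ → E → ℝ} {x : E} (hζ : ContDiffAt ℝ 2 ζ x)
    (hz : ∀ n, ContDiffAt ℝ 2 (z n) x) (h0 : Tendsto (fun n => z n x) atTop (𝓝 (ζ x)))
    (h1 : Tendsto (fun n => fderiv ℝ (z n) x) atTop (𝓝 (fderiv ℝ ζ x)))
    (h2 : Tendsto (fun n => fderiv ℝ (fderiv ℝ (z n)) x) atTop (𝓝 (fderiv ℝ (fderiv ℝ ζ) x))) :
    Tendsto (fun n => jac W (z n) x) atTop (𝓝 (jac W ζ x)) := by
  have g1 : Tendsto (fun n => grad (z n) x) atTop (𝓝 (grad ζ x)) :=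
    ((riesz E).continuous.tendsto _).comp h1
  have g2 : Tendsto (fun n => fderiv ℝ (grad (z n)) x) atTop (𝓝 (fderiv ℝ (grad ζ) x)) := by
    simp only [hess_eq hζ, hess_eq (hz _)]
    exact ((continuous_const.clm_comp continuous_id).tendsto _).comp h2
  have g3 : Tendsto (fun n => fderiv ℝ (grad (z n)) x (grad W x)) atTop
      (𝓝 (fderiv ℝ (grad ζ) x (grad W x))) :=
    ((continuous_id.clm_apply continuous_const).tendsto _).comp g2
  unfold jac
  exact (((((trL E).continuous.tendsto _).comp g2).sub (g3.inner tendsto_const_nhds)).sub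
    ((tendsto_const_nhds.inner g1).const_mul _)).add (h0.const_mul _)

/-- the weak equation for the test function `ζ` -/
def WEq (m : ℕ) (W : E → ℝ) (psi : J → E → ℝ) (u : E → ℝ) (mu : J → ℝ) (ζ : E → ℝ) : Prop :=
  ∫ x, u x * jac W ζ x * rho x ∂(sig m W) = ∑ j, mu j * ∫ x, psi j x * ζ x * rho x ∂(sig m W)

theorem cont_rho : Continuous (rho : E → ℝ) := by unfold rho; fun_prop

theorem int_u (hE : Module.finrank ℝ E = m + 1) (hW : Tube0 W c K)
    (h1 : AEStronglyMeasurable u (sig m W)) (h2 : Integrable (fun x => u x ^ 2 * rho x) (sig m W))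
    (q : ℕ) : Integrable (fun x => |u x| * (1 + ‖x‖) ^ q * rho x) (sig m W) := by
  refine (h2.add (int_rho hE hW (2 * q))).mono'
    ((h1.norm.mul (Continuous.aestronglyMeasurable (by fun_prop))).mul
      cont_rho.aestronglyMeasurable) (Eventually.of_forall fun x => ?_)
  have h3 := rho_pos x
  rw [Real.norm_of_nonneg (by positivity), Pi.add_apply, ← add_mul, pow_mul', ← sq_abs (u x)]
  refine mul_le_mul_of_nonneg_right ?_ h3.le
  have h4 : 0 ≤ |u x| * (1 + ‖x‖) ^ q := by positivity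
  nlinarith [sq_nonneg (|u x| - (1 + ‖x‖) ^ q)]

theorem int_u_mul (hE : Module.finrank ℝ E = m + 1) (hW : Tube0 W c K)
    (h1 : AEStronglyMeasurable u (sig m W)) (h2 : Integrable (fun x => u x ^ 2 * rho x) (sig m W))
    {f : E → ℝ} (hf : Continuous f) (hb : PB f) :
    Integrable (fun x => u x * f x * rho x) (sig m W) := by
  obtain ⟨C, p, -, h⟩ := hb
  refine ((int_u hE hW h1 h2 p).const_mul C).mono'
    ((h1.mul hf.aestronglyMeasurable).mul cont_rho.aestronglyMeasurable)
    (Eventually.of_forall fun x => ?_)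
  rw [norm_mul, norm_mul, Real.norm_of_nonneg (rho_pos x).le, Real.norm_eq_abs]
  have h3 := mul_le_mul_of_nonneg_right (mul_le_mul_of_nonneg_left (h x) (abs_nonneg (u x)))
    (rho_pos x).le
  linarith

theorem lim_eq (hE : Module.finrank ℝ E = m + 1) (hW : Tube0 W c K) (hp : ∀ j, Continuous (psi j))
    (hpb : ∀ j, PB (psi j)) (hu : Weak m W psi u mu) {ζ : E → ℝ} {z : ℕ → E → ℝ}
    (hz : ∀ n, WEq m W psi u mu (z n)) {C : ℝ} {q : ℕ} (hζ : ContDiff ℝ 2 ζ)
    (hb : ∀ n y, JB (z n) y (C * (1 + ‖y‖) ^ q) (C * (1 + ‖y‖) ^ q) (C * (1 + ‖y‖) ^ q))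
    (h0 : ∀ x, Tendsto (fun n => z n x) atTop (𝓝 (ζ x)))
    (h1 : ∀ x, Tendsto (fun n => fderiv ℝ (z n) x) atTop (𝓝 (fderiv ℝ ζ x)))
    (h2 : ∀ x, Tendsto (fun n => fderiv ℝ (fderiv ℝ (z n)) x) atTop
      (𝓝 (fderiv ℝ (fderiv ℝ ζ) x))) : WEq m W psi u mu ζ := by
  have hc : ∀ n, ContDiff ℝ 2 (z n) := fun n => contDiff_iff_contDiffAt.2 fun y => (hb n y).cd
  have l1 : Tendsto (fun n => ∫ x, u x * jac W (z n) x * rho x ∂(sig m W)) atTop
      (𝓝 (∫ x, u x * jac W ζ x * rho x ∂(sig m W))) := by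
    refine tendsto_integral_of_dominated_convergence _ (fun n =>
      (hu.meas.mul (hW.continuous_jac (hc n)).aestronglyMeasurable).mul
        cont_rho.aestronglyMeasurable) ((int_u hE hW hu.meas hu.int (q + 1)).const_mul
      ((Module.finrank ℝ E + K ^ 2 + 1 + Module.finrank ℝ E * K ^ 2) * C))
      (fun n => Eventually.of_forall fun x => ?_) (Eventually.of_forall fun x =>
        ((tendsto_jac hζ.contDiffAt (fun n => (hb n x).cd) (h0 x) (h1 x) (h2 x)).const_mul
          _).mul_const _)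
    rw [norm_mul, norm_mul, Real.norm_of_nonneg (rho_pos x).le, Real.norm_eq_abs, Real.norm_eq_abs]
    refine (mul_le_mul_of_nonneg_right (mul_le_mul_of_nonneg_left (jac_le hW (hb n x))
      (abs_nonneg (u x))) (rho_pos x).le).trans (le_of_eq ?_)
    ring
  have l2 : ∀ j, Tendsto (fun n => ∫ x, psi j x * z n x * rho x ∂(sig m W)) atTop
      (𝓝 (∫ x, psi j x * ζ x * rho x ∂(sig m W))) := fun j => by
    obtain ⟨C', p, hC', h⟩ := hpb j
    refine tendsto_integral_of_dominated_convergence _ (fun n =>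
      (((hp j).mul (hc n).continuous).mul cont_rho).aestronglyMeasurable)
      ((int_rho hE hW (p + q)).const_mul (C' * C)) (fun n => Eventually.of_forall fun x => ?_)
      (Eventually.of_forall fun x => ((h0 x).const_mul _).mul_const _)
    rw [norm_mul, norm_mul, Real.norm_of_nonneg (rho_pos x).le]
    refine (mul_le_mul_of_nonneg_right (mul_le_mul (h x) (hb n x).b0 (norm_nonneg _)
      (by positivity)) (rho_pos x).le).trans (le_of_eq ?_)
    ring
  exact tendsto_nhds_unique (l1.congr hz)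
    (tendsto_finsetSum _ fun j _ => (l2 j).const_mul (mu j))

section mollify

variable {F : Type*} [NormedAddCommGroup F] [NormedSpace ℝ F] [CompleteSpace F]

/-- the mollifiers -/
noncomputable def mo (E : Type*) [NormedAddCommGroup E] (n : ℕ) : ContDiffBump (0 : E) :=
  ⟨1 / ((n : ℝ) + 1) / 2, 1 / ((n : ℝ) + 1), by positivity, half_lt_self (by positivity)⟩

/-- the mollified function -/
noncomputable def mol (n : ℕ) (g : E → F) : E → F :=
  (mo E n).normed volume ⋆[ContinuousLinearMap.lsmul ℝ ℝ, volume] g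

theorem tendsto_mol {g : E → F} (hg : Continuous g) (x : E) :
    Tendsto (fun n => mol n g x) atTop (𝓝 (g x)) :=
  ContDiffBump.convolution_tendsto_right_of_continuous (φ := mo E)
    tendsto_one_div_add_atTop_nhds_zero_nat hg x

theorem norm_mol_le {g : E → F} (hg : Continuous g) {B : ℝ} (hB : ∀ x, ‖g x‖ ≤ B) (n : ℕ)
    (x : E) : ‖mol n g x‖ ≤ 3 * B := by
  have h1 : dist (mol n g x) (g x) ≤ B + B :=
    ContDiffBump.dist_normed_convolution_le hg.aestronglyMeasurable fun y _ =>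
      (dist_le_norm_add_norm _ _).trans (add_le_add (hB y) (hB x))
  have h2 := norm_le_norm_add_norm_sub' (mol n g x) (g x)
  rw [dist_eq_norm] at h1
  linarith [hB x]

theorem fderiv_mol {g : E → F} (hg : ContDiff ℝ 1 g) (hc : HasCompactSupport g) (n : ℕ) :
    fderiv ℝ (mol n g) = mol n (fderiv ℝ g) := by
  funext x
  exact (hc.hasFDerivAt_convolution_right (ContinuousLinearMap.lsmul ℝ ℝ)
    (mo E n).integrable_normed.locallyIntegrable hg x).fderiv

theorem contDiff_mol {g : E → F} (hg : Continuous g) (n : ℕ) : ContDiff ℝ (⊤ : ℕ∞) (mol n g) :=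
  (mo E n).hasCompactSupport_normed.contDiff_convolution_left _ (mo E n).contDiff_normed
    hg.locallyIntegrable

theorem compact_mol {g : E → F} (hc : HasCompactSupport g) (n : ℕ) :
    HasCompactSupport (mol n g) := (mo E n).hasCompactSupport_normed.convolution _ hc

end mollify

theorem exists_JB {g : E → ℝ} (hg : ContDiff ℝ 2 g) (hc : HasCompactSupport g) :
    ∃ B, ∀ x, JB g x B B B := by
  have d1 : ContDiff ℝ 1 (fderiv ℝ g) := hg.fderiv_right (by norm_num)
  obtain ⟨B0, h0⟩ := hg.continuous.bounded_above_of_compact_support hc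
  obtain ⟨B1, h1⟩ := d1.continuous.bounded_above_of_compact_support (hc.fderiv ℝ)
  obtain ⟨B2, h2⟩ := (d1.continuous_fderiv one_ne_zero).bounded_above_of_compact_support
    ((hc.fderiv ℝ).fderiv ℝ)
  exact ⟨max B0 (max B1 B2), fun x => ⟨hg.contDiffAt, (h0 x).trans (le_max_left _ _),
    (h1 x).trans ((le_max_left _ _).trans (le_max_right _ _)),
    (h2 x).trans ((le_max_right _ _).trans (le_max_right _ _))⟩⟩

theorem weq_compact (hE : Module.finrank ℝ E = m + 1) (hW : Tube0 W c K)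
    (hp : ∀ j, Continuous (psi j)) (hpb : ∀ j, PB (psi j)) (hu : Weak m W psi u mu) {g : E → ℝ}
    (hg : ContDiff ℝ 2 g) (hc : HasCompactSupport g) : WEq m W psi u mu g := by
  have d1 : ContDiff ℝ 1 (fderiv ℝ g) := hg.fderiv_right (by norm_num)
  have d2 := d1.continuous_fderiv one_ne_zero
  have e1 := fderiv_mol (hg.of_le (by norm_num)) hc
  have e2 := fderiv_mol d1 (hc.fderiv ℝ)
  obtain ⟨B, hB⟩ := exists_JB hg hc
  refine lim_eq hE hW hp hpb hu (z := fun n => mol n g) (C := 3 * B) (q := 0)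
    (fun n => hu.eq _ (contDiff_mol hg.continuous n) (compact_mol hc n)) hg (fun n y => ?_)
    (tendsto_mol hg.continuous) (fun x => ?_) fun x => ?_
  · rw [pow_zero, mul_one]
    refine ⟨((contDiff_mol hg.continuous n).of_le (by norm_cast)).contDiffAt,
      norm_mol_le hg.continuous (fun x => (hB x).b0) n y, ?_, ?_⟩
    · rw [e1]
      exact norm_mol_le d1.continuous (fun x => (hB x).b1) n y
    · rw [e1, e2]
      exact norm_mol_le d2 (fun x => (hB x).b2) n y
  · simp only [e1]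
    exact tendsto_mol d1.continuous x
  · simp only [e1, e2]
    exact tendsto_mol d2 x

/-- The weak equation holds for `C²` functions whose jets have polynomial growth. -/
theorem weq_poly (hE : Module.finrank ℝ E = m + 1) (hW : Tube0 W c K)
    (hp : ∀ j, Continuous (psi j)) (hpb : ∀ j, PB (psi j)) (hu : Weak m W psi u mu) {ζ : E → ℝ}
    {C : ℝ} {q : ℕ}
    (hb : ∀ y, JB ζ y (C * (1 + ‖y‖) ^ q) (C * (1 + ‖y‖) ^ q) (C * (1 + ‖y‖) ^ q)) :
    WEq m W psi u mu ζ := by
  have hζ : ContDiff ℝ 2 ζ := contDiff_iff_contDiffAt.2 fun y => (hb y).cd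
  obtain ⟨B, hB⟩ := exists_JB (g := H552.bump E) (H552.bump E).contDiff
    (H552.bump E).hasCompactSupport
  have hB0 := (hB 0).n0
  have hpos : ∀ n : ℕ, (0 : ℝ) < 1 / ((n : ℝ) + 1) := fun n => by positivity
  have hle : ∀ n : ℕ, |1 / ((n : ℝ) + 1)| ≤ 1 := fun n => by
    rw [abs_of_pos (hpos n), div_le_one (by positivity)]
    linarith [Nat.cast_nonneg (α := ℝ) n]
  have j1 : ∀ (n : ℕ) y, JB (fun y : E => H552.bump E ((1 / ((n : ℝ) + 1)) • y)) y B B B :=
    fun n y => by
      have h1 := JB.comp (f := fun y : E => (1 / ((n : ℝ) + 1)) • y) (hB _)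
        ((JB.id' y).cmul (1 / ((n : ℝ) + 1)))
      refine h1.mono le_rfl (mul_le_of_le_one_right hB0 (by rw [mul_one]; exact hle n)) ?_
      rw [mul_zero, mul_zero, add_zero, mul_one]
      exact mul_le_of_le_one_right hB0 (pow_le_one₀ (abs_nonneg _) (hle n))
  have ev : ∀ x : E, ∀ᶠ n : ℕ in atTop,
      (fun y : E => H552.bump E ((1 / ((n : ℝ) + 1)) • y) * ζ y) =ᶠ[𝓝 x] ζ := fun x => by
    have h1 : Tendsto (fun n : ℕ => 1 / ((n : ℝ) + 1) * (‖x‖ + 1)) atTop (𝓝 (0 * (‖x‖ + 1))) :=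
      tendsto_one_div_add_atTop_nhds_zero_nat.mul_const _
    rw [zero_mul] at h1
    filter_upwards [h1.eventually (gt_mem_nhds one_pos)] with n hn
    filter_upwards [ball_mem_nhds x one_pos] with y hy
    rw [(H552.bump E).one_of_mem_closedBall, one_mul]
    rw [mem_closedBall, dist_zero_right, norm_smul, Real.norm_of_nonneg (hpos n).le]
    have h2 : ‖y‖ ≤ ‖x‖ + 1 := by
      have := norm_le_norm_add_norm_sub' y x
      rw [mem_ball, dist_eq_norm] at hy
      linarith
    exact (mul_le_mul_of_nonneg_left h2 (hpos n).le).trans hn.le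
  refine lim_eq hE hW hp hpb hu (C := 4 * B * C) (q := q)
    (z := fun n y => H552.bump E ((1 / ((n : ℝ) + 1)) • y) * ζ y)
    (fun n => weq_compact hE hW hp hpb hu
      (contDiff_iff_contDiffAt.2 fun y => ((j1 n y).mul (hb y)).cd) ?_) hζ (fun n y => ?_)
    (fun x => tendsto_const_nhds.congr' ((ev x).mono fun n h => h.eq_of_nhds.symm))
    (fun x => tendsto_const_nhds.congr' ((ev x).mono fun n h => h.fderiv_eq.symm))
    fun x => tendsto_const_nhds.congr' ((ev x).mono fun n h => h.fderiv.fderiv_eq.symm)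
  · exact ((H552.bump E).hasCompactSupport.comp_smul (hpos n).ne').mul_right
  · have h1 := mul_nonneg hB0 (hb y).n0
    refine ((j1 n y).mul (hb y)).mono ?_ ?_ ?_ <;> nlinarith

end Nd

open Nd in
/-- duality -/
theorem dualStmt : DualStmt := by
  intro J _ W psi c K hW hp hpb hS u mu hu h0
  have := hW.sig_locFin finrank_E3
  have h1 : Integrable (fun x => u x * rho x) (sig 2 W) := by
    simpa using int_u_mul finrank_E3 hW hu.meas hu.int (f := fun _ => 1) continuous_const
      (PB.of_bound (C := 1) fun _ => by simp)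
  have h2 := ae_eq_zero_of_integral_contDiff_smul_eq_zero h1.locallyIntegrable fun f hf hfc => by
    obtain ⟨ζ, d, C, q, hb, he, ho⟩ := hS f hf hfc
    obtain ⟨B, hB⟩ := hf.continuous.bounded_above_of_compact_support hfc
    have h3 : WEq 2 W psi u mu ζ := weq_poly finrank_E3 hW hp hpb hu hb
    have h4 : ∀ j, ∫ x, psi j x * ζ x * rho x ∂(sig 2 W) = 0 := fun j => by
      simpa only [mul_comm (ζ _)] using ho j
    have h5 : ∫ x, u x * jac W ζ x * rho x ∂(sig 2 W) =
        ∫ x, (u x * f x * rho x + ∑ j, d j * (u x * psi j x * rho x)) ∂(sig 2 W) := by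
      refine integral_congr_ae (hW.ae_zero.mono fun x hx => ?_)
      simp only [he x hx, mul_add, add_mul, Finset.mul_sum, Finset.sum_mul]
      congr 1
      exact Finset.sum_congr rfl fun j _ => by ring
    have i1 := fun j => (int_u_mul finrank_E3 hW hu.meas hu.int (hp j) (hpb j)).const_mul (d j)
    rw [WEq, h5, integral_add (int_u_mul finrank_E3 hW hu.meas hu.int hf.continuous
      (PB.of_bound hB)) (integrable_finsetSum _ fun j _ => i1 j),
      integral_finsetSum _ fun j _ => i1 j] at h3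
    simp only [integral_const_mul, h0, h4, mul_zero, Finset.sum_const_zero, add_zero] at h3
    rw [← h3]
    congr 1
    funext x
    rw [smul_eq_mul]
    ring
  filter_upwards [h2] with x hx
  exact (mul_eq_zero.1 hx).resolve_right (rho_pos x).ne'

end Vale.Agent.P218N.D6
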