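import Vale.Agent.P218N.D6.RicF
import Vale.Agent.P218N.D6.Lin
import Vale.Agent.P218N.D6.Loj
import Vale.Agent.P218N.D6.Nd
import Vale.Agent.P218N.D6.NdD

/-! Block D6: the model attached to the truncated solutions. -/

open MeasureTheory Set Filter Topology Metric
open scoped RealInnerProductSpace ContDiff

namespace Vale.Agent.P218N.D6

open Vale.Agent.P218.H313 Vale.Agent.P218N.H Vale.Agent.P218N.G Vale.Agent.P218F

variable {ι J : Type} [Fintype ι] [DecidableEq ι] [Fintype J] {w : E3 → ℝ} {D : EndData w}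
  {n : E3 → E3} {κ : Type} {ψ : κ → R2 → E3} {U : κ → Set R2} {s1 : ℝ} {σ : E3 → ℝ}
  {χ : Fin D.b → E3 → ℝ} {G : Fin D.b → ℝ × (ι → ℝ) → E3 →L[ℝ] E3} {I : Finset ι}
  {c r κ' C A : ℝ} {q R0 : ℕ} {u : ℕ → (ι → ℂ) → E3 → ℂ} {lam : ℕ → (ι → ℂ) → J → ℂ}
  {F : ℕ → (ι → ℂ) → ℂ} {Ψ : J → E3 → ℝ} {lag : ℕ → (ι → ℝ) → E3 → ℝ}

/-- **Block D6.** The truncated solutions give a model. -/
theorem Red.model (h : Red D n ψ U s1 σ χ G I c r κ' C A q R0 u lam F Ψ lag) :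
    ∃ (V : (ι → ℝ) → E3 → ℝ) (V' : (ι → ℝ) →ₗ[ℝ] (E3 → ℝ)) (psi : J → E3 → ℝ)
      (lam' : (ι → ℝ) → J → ℝ) (c' K : ℝ) (q' : ℕ) (β : ℝ),
      Model 2 V V' psi lam' c' K q' β ∧ ∀ x, V 0 x = 0 ↔ w x = 0 := by
  obtain ⟨K, _, 𝒜, T, Rm, L, ε, δ, M, c1, κ1, C1, f0, θ, N, R1, hm, hl, hc⟩ := h.exists_ctx
  obtain ⟨Z, V, α, c', M', q', -, hf⟩ := hm.exists_fam h.shr.smooth.continuous
  obtain ⟨Q, h1⟩ := hc.ric hm hf
  obtain ⟨K', h2⟩ := lojStmt _ _ _ _ _ _ _ _ _ _ _ _ _ _ _ _ _ _ _ _ _ _ _ _ _ _ _ _ _ _ _ _ _ _ _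
    hm hc hf
  obtain ⟨h3, h4, h5⟩ := linStmt _ _ _ _ _ _ _ _ _ _ _ _ _ _ _ _ _ _ _ hm hl hf
  obtain ⟨B, B1, h6, -⟩ := hc.psi_bd hf
  have hM := hf.dif.one_le
  have hC := hc.C0
  have hK := abs_nonneg K'
  have hz : ∀ x, V (0, x) = 0 ↔ w x = 0 := fun x => by simpa only [hf.Z0] using hf.zero 0 x
  have wm := wt_mono (E := E3) (K' := M' + 1 + B + C1 + |K'|) (by linarith)
    (show M' ≤ _ by linarith) (Nat.le_add_left q' Q)
  have jV : ∀ z, JB V z 1 _ _ := fun z => (hf.jV z).mono le_rfl (wm _) (wm _)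
  have hL : ∀ᶠ a in 𝓝 (0 : ι → ℝ), ‖-L a‖ ≤ C1 * ‖a‖ := mem_of_superset (ball_mem_nhds 0 hm.δ0)
    fun a ha => (norm_neg _).trans_le (hc.lipL a (mem_ball_zero_iff.1 ha))
  have hP : PreModel (fun a y => V (a, y)) (vel0 V) (psiV n V Ψ) (fun a => -L a) c'
      (M' + 1 + B + C1 + |K'|) (Q + q') := ⟨.of_forall fun a => tube_mono (hf.tube a) (by linarith),
    fam_c2 (fam_cd jV), fam_strict jV, fam_dcont jV, fam_db jV, hc.psi_cont hf,
    fun j x => (h6 j x).trans ((by linarith : B ≤ _).trans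
      (le_mul_of_one_le_right (by linarith) (one_le_pow₀ (by simp)))),
    squeeze_zero_norm' hL (Continuous.tendsto' (by fun_prop) _ _ (by simp)),
    hL.mono fun a ha => ha.trans (by gcongr; linarith), fun η hη => (h1 η hη).mono fun a ha x hx =>
      (ha x hx).trans (by
        rw [norm_neg, mul_assoc η, mul_assoc η]
        exact add_le_add (mul_le_mul_of_nonneg_right (by linarith) (sq_nonneg _))
          (mul_le_mul_of_nonneg_left (wt_mono (norm_nonneg _) le_rfl (by omega) x) hη.le)), h3, h4⟩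
  have h0 : 0 < θ := by linarith [hc.θ0]
  exact ⟨_, _, _, _, _, _, _, θ⁻¹, ⟨hP.tube, hP.c2, hP.strict, hP.dcont, hP.db, hP.pcont, hP.pb,
    hP.lam0, hP.ric, hP.indep, hP.inj, fun u mu a1 a2 a3 => ndStmt ι J w _ _ _ _ _ _ _ h.shr hz hP
      (dualStmt J _ _ _ _ (hf.tube 0) hP.pcont (fun j => .of_le (hP.pb j)) h5) hl.card u mu
      ⟨a1, a2, a3⟩, (one_lt_inv₀ h0).2 hc.θ1, h2.mono fun a ha => ha.trans (by
        rw [norm_neg]
        exact mul_le_mul_of_nonneg_right (by linarith [le_abs_self K']) (by positivity))⟩, hz⟩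

end Vale.Agent.P218N.D6
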