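import Vale.Agent.P218N.D6.Fam
import Vale.Agent.P218N.D6.Area

/-! Bounds up to polynomial weights for families, and the data `Ctx` used in the last step. -/

open MeasureTheory Set Filter Topology Metric
open scoped RealInnerProductSpace

namespace Vale.Agent.P218N.D6

open Vale.Agent.P218.H313 Vale.Agent.P218N.H Vale.Agent.P218N.G Vale.Agent.P218F

set_option linter.unusedSectionVars false
set_option maxSynthPendingDepth 3

section calc'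

variable {𝓘 X Y Z U : Type*} [NormedAddCommGroup X] [NormedSpace ℝ X] [NormedAddCommGroup Y]
  [NormedSpace ℝ Y] [NormedAddCommGroup Z] [NormedSpace ℝ Z] [NormedAddCommGroup U]
  [NormedSpace ℝ U]

/-- `f ≤ C W ^ Q g` -/
def PO (W : 𝓘 → E3) (f g : 𝓘 → ℝ) : Prop :=
  ∃ (C : ℝ) (Q : ℕ), 0 ≤ C ∧ ∀ i, f i ≤ C * (1 + ‖W i‖) ^ Q * g i

variable {W : 𝓘 → E3} {f f' g g' d : 𝓘 → ℝ}

namespace PO

theorem of_le (h : ∀ i, f i ≤ g i) : PO W f g := ⟨1, 0, zero_le_one, by simpa using h⟩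

theorem refl : PO W f f := of_le fun _ => le_rfl

theorem const (c : ℝ) : PO W (fun _ => c) fun _ => 1 :=
  ⟨|c|, 0, abs_nonneg c, fun _ => by simpa using le_abs_self c⟩

theorem wt (c : ℝ) (q : ℕ) : PO W (fun i => c * (1 + ‖W i‖) ^ q) fun _ => 1 :=
  ⟨|c|, q, abs_nonneg c, fun _ => by
    rw [mul_one]
    exact mul_le_mul_of_nonneg_right (le_abs_self c) (by positivity)⟩

theorem trans (h : PO W f g) (h' : PO W g g') : PO W f g' := by
  obtain ⟨C, Q, h0, h1⟩ := h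
  obtain ⟨C', Q', h0', h1'⟩ := h'
  exact ⟨C * C', Q + Q', by positivity, fun i => (h1 i).trans
    ((mul_le_mul_of_nonneg_left (h1' i) (by positivity)).trans (le_of_eq (by ring)))⟩

theorem le_trans (h : ∀ i, f i ≤ g i) (h' : PO W g g') : PO W f g' := (of_le h).trans h'

theorem add (hg : ∀ i, 0 ≤ g i) (h : PO W f g) (h' : PO W f' g) :
    PO W (fun i => f i + f' i) g := by
  obtain ⟨C, Q, h0, h1⟩ := h
  obtain ⟨C', Q', h0', h1'⟩ := h'
  refine ⟨C + C', Q + Q', by positivity, fun i => (add_le_add (h1 i) (h1' i)).trans ?_⟩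
  rw [add_mul, add_mul]
  exact add_le_add (mul_le_mul_of_nonneg_right (wt_mono h0 le_rfl (by omega) _) (hg i))
    (mul_le_mul_of_nonneg_right (wt_mono h0' le_rfl (by omega) _) (hg i))

theorem mul (hf : ∀ i, 0 ≤ f i) (hf' : ∀ i, 0 ≤ f' i) (h : PO W f g) (h' : PO W f' g') :
    PO W (fun i => f i * f' i) fun i => g i * g' i := by
  obtain ⟨C, Q, h0, h1⟩ := h
  obtain ⟨C', Q', h0', h1'⟩ := h'
  exact ⟨C * C', Q + Q', by positivity, fun i => (mul_le_mul (h1 i) (h1' i) (hf' i)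
    ((hf i).trans (h1 i))).trans (le_of_eq (by ring))⟩

theorem mul_left (hf : ∀ i, 0 ≤ f i) (hf' : ∀ i, 0 ≤ f' i) (h : PO W f fun _ => 1)
    (h' : PO W f' g) : PO W (fun i => f i * f' i) g := by simpa using mul hf hf' h h'

theorem cmul (c : ℝ) (hc : 0 ≤ c) (h : PO W f g) : PO W (fun i => c * f i) g := by
  obtain ⟨C, Q, h0, h1⟩ := h
  exact ⟨c * C, Q, by positivity, fun i =>
    (mul_le_mul_of_nonneg_left (h1 i) hc).trans (le_of_eq (by ring))⟩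

end PO

/-- two bounded families at distance `d` -/
structure NR (W : 𝓘 → E3) (d : 𝓘 → ℝ) (x y : 𝓘 → Y) : Prop where
  d0 : ∀ i, 0 ≤ d i
  l : PO W (fun i => ‖x i‖) fun _ => 1
  r : PO W (fun i => ‖y i‖) fun _ => 1
  s : PO W (fun i => ‖x i - y i‖) d

namespace NR

variable {x y x' y' : 𝓘 → Y}

theorem add (h : NR W d x y) (h' : NR W d x' y') :
    NR W d (fun i => x i + x' i) fun i => y i + y' i :=
  ⟨h.d0, .le_trans (fun _ => norm_add_le _ _) (.add (fun _ => zero_le_one) h.l h'.l),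
    .le_trans (fun _ => norm_add_le _ _) (.add (fun _ => zero_le_one) h.r h'.r),
    .le_trans (fun _ => by rw [add_sub_add_comm]; exact norm_add_le _ _) (.add h.d0 h.s h'.s)⟩

theorem map (h : NR W d x y) (F : Y → Z) {c : ℝ} (hc : 0 ≤ c) (h0 : ∀ u, ‖F u‖ ≤ c * (‖u‖ + 1))
    (h1 : ∀ u v, ‖F u - F v‖ ≤ c * ‖u - v‖) : NR W d (fun i => F (x i)) fun i => F (y i) :=
  ⟨h.d0, .le_trans (fun _ => h0 _) (.cmul c hc (.add (fun _ => zero_le_one) h.l .refl)),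
    .le_trans (fun _ => h0 _) (.cmul c hc (.add (fun _ => zero_le_one) h.r .refl)),
    .le_trans (fun _ => h1 _ _) (.cmul c hc h.s)⟩

theorem lin (h : NR W d x y) (L : Y →L[ℝ] Z) : NR W d (fun i => L (x i)) fun i => L (y i) :=
  h.map L (norm_nonneg L) (fun u => (L.le_opNorm u).trans (by gcongr; linarith))
    fun u v => by rw [← map_sub]; exact L.le_opNorm _

theorem sub (h : NR W d x y) (h' : NR W d x' y') :
    NR W d (fun i => x i - x' i) fun i => y i - y' i := by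
  simpa [sub_eq_add_neg] using h.add (h'.lin (-ContinuousLinearMap.id ℝ Y))

theorem norm (h : NR W d x y) : NR W d (fun i => ‖x i‖) fun i => ‖y i‖ :=
  h.map _ zero_le_one (fun u => by simp) fun u v => by simpa using abs_norm_sub_norm_le u v

theorem app {x y : 𝓘 → Y →L[ℝ] Z} (h : NR W d x y) (e : Y) :
    NR W d (fun i => x i e) fun i => y i e := h.lin (ContinuousLinearMap.apply ℝ Z e)

theorem bil {x' y' : 𝓘 → Z} (B : Y → Z → U) (h0 : ∀ u v, ‖B u v‖ ≤ ‖u‖ * ‖v‖)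
    (h1 : ∀ a b a' b', B a b - B a' b' = B (a - a') b + B a' (b - b')) (h : NR W d x y)
    (h' : NR W d x' y') : NR W d (fun i => B (x i) (x' i)) fun i => B (y i) (y' i) :=
  have n : ∀ (z : 𝓘 → Y) i, 0 ≤ ‖z i‖ := fun _ _ => norm_nonneg _
  have n' : ∀ (z : 𝓘 → Z) i, 0 ≤ ‖z i‖ := fun _ _ => norm_nonneg _
  ⟨h.d0, .le_trans (fun _ => h0 _ _) (.mul_left (n _) (n' _) h.l h'.l),
    .le_trans (fun _ => h0 _ _) (.mul_left (n _) (n' _) h.r h'.r),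
    .le_trans (fun _ => by
      rw [h1]
      exact norm_add_le_of_le ((h0 _ _).trans_eq (mul_comm _ _)) (h0 _ _))
      (.add h.d0 (.mul_left (n' _) (n _) h'.l h.s) (.mul_left (n _) (n' _) h.r h'.s))⟩

theorem smul {x y : 𝓘 → ℝ} (h : NR W d x y) (h' : NR W d x' y') :
    NR W d (fun i => x i • x' i) fun i => y i • y' i :=
  bil (· • ·) norm_smul_le (fun _ _ _ _ => by rw [sub_smul, smul_sub]; abel) h h'

theorem mul {x y x' y' : 𝓘 → ℝ} (h : NR W d x y) (h' : NR W d x' y') :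
    NR W d (fun i => x i * x' i) fun i => y i * y' i := h.smul h'

theorem inner {x y x' y' : 𝓘 → E3} (h : NR W d x y) (h' : NR W d x' y') :
    NR W d (fun i => ⟪x i, x' i⟫) fun i => ⟪y i, y' i⟫ :=
  bil _ abs_real_inner_le_norm (fun _ _ _ _ => by rw [inner_sub_left, inner_sub_right]; ring) h h'

theorem crs {x y x' y' : 𝓘 → E3} (h : NR W d x y) (h' : NR W d x' y') :
    NR W d (fun i => crs (x i) (x' i)) fun i => crs (y i) (y' i) := bil _ norm_crs_le crs_sub h h'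

theorem shrV {x y : 𝓘 → E3} {L L' : 𝓘 → R2 →L[ℝ] E3} {Q Q' : 𝓘 → R2 →L[ℝ] R2 →L[ℝ] E3}
    (h0 : NR W d x y) (h1 : NR W d L L') (h2 : NR W d Q Q') :
    NR W d (fun i => shrV (x i) (L i) (Q i)) fun i => shrV (y i) (L' i) (Q' i) := by
  have a := h1.app (1, 0)
  have b := h1.app (0, 1)
  have c := ((((b.inner b).smul ((h2.app (1, 0)).app (1, 0))).sub
    (((a.inner b).lin ((2 : ℝ) • ContinuousLinearMap.id ℝ ℝ)).smul
      ((h2.app (1, 0)).app (0, 1)))).add ((a.inner a).smul ((h2.app (0, 1)).app (0, 1)))).add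
    (((((a.inner a).mul (b.inner b)).sub ((a.inner b).mul (a.inner b))).lin
      ((2⁻¹ : ℝ) • ContinuousLinearMap.id ℝ ℝ)).smul h0)
  simpa only [D6.shrV, sq, div_eq_inv_mul, smul_apply, ContinuousLinearMap.id_apply,
    smul_eq_mul] using c

theorem ar {X X' : 𝓘 → R2 → E3} {v : 𝓘 → R2}
    (h : NR W d (fun i => fderiv ℝ (X i) (v i)) fun i => fderiv ℝ (X' i) (v i)) :
    NR W d (fun i => ar (X i) (v i)) fun i => ar (X' i) (v i) := by
  simpa only [ar_eq] using ((h.app (1, 0)).crs (h.app (0, 1))).norm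

theorem dS {X X' : 𝓘 → R2 → E3} {v : 𝓘 → R2} {N N' : 𝓘 → E3}
    (h : NR W d (fun i => fderiv ℝ (X i) (v i)) fun i => fderiv ℝ (X' i) (v i))
    (h' : NR W d N N') : NR W d (fun i => dS (X i) (N i) (v i)) fun i => dS (X' i) (N' i) (v i) := by
  simpa only [D6.dS, sq] using (((h.app (1, 0)).crs (h.app (0, 1))).inner h').mul (h.ar.mul h.ar)

end NR

theorem rho_le_one (x : E3) : ‖rho x‖ ≤ 1 := by
  rw [rho, Real.norm_eq_abs, Real.abs_exp, Real.exp_le_one_iff]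
  nlinarith [sq_nonneg ‖x‖]

theorem rho_lip (x y : E3) : ‖rho x - rho y‖ ≤ 1 * ‖x - y‖ := by
  refine convex_univ.norm_image_sub_le_of_norm_hasFDerivWithin_le (fun z _ =>
    (((hasStrictFDerivAt_norm_sq z).hasFDerivAt.neg.mul_const (4⁻¹ : ℝ)).exp).hasFDerivWithinAt)
    (fun z _ => ?_) trivial trivial
  have h1 := Real.add_one_le_exp (‖z‖ ^ 2 * 4⁻¹)
  rw [← Nat.cast_smul_eq_nsmul ℝ]
  simp only [norm_smul, norm_neg, Real.norm_eq_abs, Pi.neg_apply, neg_mul,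
    Real.exp_neg, innerSL_apply_norm]
  rw [abs_inv, Real.abs_exp, inv_mul_le_iff₀ (Real.exp_pos _), abs_of_pos (by norm_num),
    abs_of_pos (by norm_num)]
  push_cast
  nlinarith [sq_nonneg (‖z‖ - 1)]

theorem NR.rho {x y : 𝓘 → E3} (h : NR W d x y) : NR W d (fun i => rho (x i)) fun i => rho (y i) :=
  h.map _ zero_le_one (fun u => (rho_le_one u).trans (by simp)) rho_lip

/-- bounds for the jets of a family -/
def JP (W : 𝓘 → E3) (g : 𝓘 → ℝ) (F : 𝓘 → X → Y) (v : 𝓘 → X) : Prop :=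
  ∃ b : 𝓘 → ℝ, (∀ i, JB (F i) (v i) (b i) (b i) (b i)) ∧ PO W b g

namespace JP

variable {F F' : 𝓘 → X → Y} {v : 𝓘 → X}

theorem of {a0 a1 a2 : 𝓘 → ℝ} (hg : ∀ i, 0 ≤ g i) (h : ∀ i, JB (F i) (v i) (a0 i) (a1 i) (a2 i))
    (h0 : PO W a0 g) (h1 : PO W a1 g) (h2 : PO W a2 g) : JP W g F v :=
  ⟨fun i => a0 i + a1 i + a2 i, fun i => (h i).mono (by linarith [(h i).n1, (h i).n2])
    (by linarith [(h i).n0, (h i).n2]) (by linarith [(h i).n0, (h i).n1]),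
    .add hg (.add hg h0 h1) h2⟩

theorem mono (h : JP W g F v) (h' : PO W g g') : JP W g' F v :=
  h.imp fun _ h => ⟨h.1, h.2.trans h'⟩

theorem congr (h : JP W g F v) (e : ∀ i, F' i =ᶠ[𝓝 (v i)] F i) : JP W g F' v :=
  h.imp fun _ h => ⟨fun i => (h.1 i).congr (e i), h.2⟩

theorem add (hg : ∀ i, 0 ≤ g i) (h : JP W g F v) (h' : JP W g F' v) :
    JP W g (fun i y => F i y + F' i y) v := by
  obtain ⟨b, h0, h1⟩ := h
  obtain ⟨b', h0', h1'⟩ := h'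
  exact ⟨_, fun i => (h0 i).add (h0' i), .add hg h1 h1'⟩

theorem sub (hg : ∀ i, 0 ≤ g i) (h : JP W g F v) (h' : JP W g F' v) :
    JP W g (fun i y => F i y - F' i y) v := by
  obtain ⟨b, h0, h1⟩ := h
  obtain ⟨b', h0', h1'⟩ := h'
  exact ⟨_, fun i => (h0 i).sub (h0' i), .add hg h1 h1'⟩

theorem bilin {F' : 𝓘 → X → Z} (B : Y →L[ℝ] Z →L[ℝ] U) (hB : ‖B‖ ≤ 1) (h : JP W g F v)
    (h' : JP W g' F' v) : JP W (fun i => g i * g' i) (fun i y => B (F i y) (F' i y)) v := by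
  obtain ⟨b, h0, h1⟩ := h
  obtain ⟨b', h0', h1'⟩ := h'
  refine ⟨fun i => 4 * (b i * b' i), fun i => ?_,
    .cmul 4 (by norm_num) (.mul (fun i => (h0 i).n0) (fun i => (h0' i).n0) h1 h1')⟩
  have := mul_nonneg (h0 i).n0 (h0' i).n0
  exact (JB.bilin B hB (h0 i) (h0' i)).mono (by linarith) (by linarith) (by linarith)

theorem smul {F : 𝓘 → X → ℝ} (h : JP W g F v) (h' : JP W (fun _ => 1) F' v) :
    JP W g (fun i y => F i y • F' i y) v := by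
  simpa using bilin (ContinuousLinearMap.lsmul ℝ ℝ) ContinuousLinearMap.opNorm_lsmul_le h h'

theorem app {F : 𝓘 → X → Y →L[ℝ] Z} (h : JP W (fun _ => 1) F v) (h' : JP W g F' v) :
    JP W g (fun i y => F i y (F' i y)) v := by
  simpa using bilin (ContinuousLinearMap.id ℝ (Y →L[ℝ] Z)) ContinuousLinearMap.norm_id_le h h'

theorem comp {G : 𝓘 → Y → Z} (h : JP W g G fun i => F i (v i)) (h' : JP W (fun _ => 1) F v) :
    JP W g (fun i y => G i (F i y)) v := by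
  obtain ⟨b, h0, h1⟩ := h
  obtain ⟨b', h0', h1'⟩ := h'
  have n := fun i => (h0' i).n0
  have n1 : ∀ i, 0 ≤ b' i + 1 := fun i => by linarith [n i]
  have a := PO.add (fun _ => zero_le_one) h1' .refl
  refine ⟨fun i => (b' i + 1) * ((b' i + 1) * b i), fun i => ?_, .mul_left n1
    (fun i => mul_nonneg (n1 i) (h0 i).n0) a (.mul_left n1 (fun i => (h0 i).n0) a h1)⟩
  have := mul_nonneg (h0 i).n0 (n i)
  have := mul_nonneg this (n i)
  have := (h0 i).n0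
  exact ((h0 i).comp (h0' i)).mono (by nlinarith) (by nlinarith) (by nlinarith)

theorem cd (h : JP W g F v) (i : 𝓘) : ContDiffAt ℝ 2 (F i) (v i) := (h.choose_spec.1 i).cd

theorem b0 (h : JP W g F v) : PO W (fun i => ‖F i (v i)‖) g :=
  .le_trans (fun i => (h.choose_spec.1 i).b0) h.choose_spec.2

theorem b1 (h : JP W g F v) : PO W (fun i => ‖fderiv ℝ (F i) (v i)‖) g :=
  .le_trans (fun i => (h.choose_spec.1 i).b1) h.choose_spec.2

theorem b2 (h : JP W g F v) : PO W (fun i => ‖fderiv ℝ (fderiv ℝ (F i)) (v i)‖) g :=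
  .le_trans (fun i => (h.choose_spec.1 i).b2) h.choose_spec.2

/-- the jets of two close families are close -/
theorem nr (hd : ∀ i, 0 ≤ d i) (h : JP W (fun _ => 1) F v) (h' : JP W (fun _ => 1) F' v)
    (hs : JP W d (fun i y => F i y - F' i y) v) :
    NR W d (fun i => F i (v i)) (fun i => F' i (v i)) ∧
    NR W d (fun i => fderiv ℝ (F i) (v i)) (fun i => fderiv ℝ (F' i) (v i)) ∧
    NR W d (fun i => fderiv ℝ (fderiv ℝ (F i)) (v i)) fun i => fderiv ℝ (fderiv ℝ (F' i)) (v i) := by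
  have e : ∀ i, (fderiv ℝ fun y => F i y - F' i y) =ᶠ[𝓝 (v i)]
      fun y => fderiv ℝ (F i) y - fderiv ℝ (F' i) y := fun i =>
    ((JB.ev (h.cd i)).and (JB.ev (h'.cd i))).mono fun y hy => (hy.1.fun_sub hy.2).fderiv
  refine ⟨⟨hd, h.b0, h'.b0, hs.b0⟩, ⟨hd, h.b1, h'.b1, .le_trans (fun i => ?_) hs.b1⟩,
    hd, h.b2, h'.b2, .le_trans (fun i => ?_) hs.b2⟩
  · rw [(e i).eq_of_nhds]
  · rw [(e i).fderiv_eq, ((JB.of_cd (h.cd i)).d.has.fun_sub (JB.of_cd (h'.cd i)).d.has).fderiv]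

theorem mc {F F' : 𝓘 → R2 → E3} {v : 𝓘 → R2} (hd : ∀ i, 0 ≤ d i) (h : JP W (fun _ => 1) F v)
    (h' : JP W (fun _ => 1) F' v) (hs : JP W d (fun i y => F i y - F' i y) v) :
    PO W (fun i => |Mc (F i) (v i) - Mc (F' i) (v i)|) d ∧
    PO W (fun i => |rho (F i (v i)) * ar (F i) (v i) - rho (F' i (v i)) * ar (F' i) (v i)|) d := by
  obtain ⟨h0, h1, h2⟩ := nr hd h h' hs
  exact ⟨(((h1.app (1, 0)).crs (h1.app (0, 1))).inner (h0.shrV h1 h2)).s, (h0.rho.mul h1.ar).s⟩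

end JP

end calc'

variable {ι J : Type} [Fintype ι] [DecidableEq ι] [Fintype J] {w : E3 → ℝ} {n : E3 → E3} {K : Type}
  [Fintype K]

/-- admissible truncation numbers -/
def Adm (I : Finset ι) (c : ℝ) (R1 : ℕ) (x : ι → ℝ) (R : ℕ) : Prop :=
  R1 ≤ R ∧ ∀ i ∈ I, |x i| * R ≤ c

/-- the surface of the truncation `R` -/
noncomputable def XR (n : E3 → E3) (Rm : E3 → E3 →L[ℝ] E3) (u : E3 → ℝ) (p : E3) : E3 :=
  p + u p • n p + Rm p (p + u p • n p)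

/-- The glued heights `T x` and multipliers `L x`, compared with the truncations `u R x`, `l R x`,
`F R x` (real parts at real points). -/
structure Ctx (𝒜 : Atlas w n K) (T : (ι → ℝ) → E3 → ℝ) (Rm : (ι → ℝ) → E3 → E3 →L[ℝ] E3)
    (L : (ι → ℝ) → J → ℝ) (σ : E3 → ℝ) (I : Finset ι) (c κ C A δ f0 θ : ℝ) (q N R1 : ℕ)
    (u : ℕ → (ι → ℝ) → E3 → ℝ) (l : ℕ → (ι → ℝ) → J → ℝ) (F : ℕ → (ι → ℝ) → ℝ)
    (Ψ : J → E3 → ℝ) (lag : ℕ → (ι → ℝ) → E3 → ℝ) : Prop where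
  c0 : 0 < c
  κ0 : 0 < κ
  C0 : 0 ≤ C
  A0 : 0 < A
  θ0 : 1 / 2 ≤ θ
  θ1 : θ < 1
  σc : Continuous σ
  nc : Continuous n
  Ψc : ∀ j, Continuous (Ψ j)
  Ψs : ∀ j, HasCompactSupport (Ψ j)
  geo : ∀ R, R1 ≤ R → ∀ p, w p = 0 →
    (σ p < R / 4 → ‖p‖ ^ 2 ≤ 3 * R) ∧ ((R : ℝ) / 8 ≤ σ p → (R : ℝ) ≤ 8 * ‖p‖ ^ 2)
  lipL : ∀ x, ‖x‖ < δ → ‖L x‖ ≤ C * ‖x‖
  nearL : ∀ x, ‖x‖ < δ → ∀ R, Adm I c R1 x R → ‖L x - l R x‖ ≤ C * Real.exp (-(κ * R))
  nearT : ∀ x, ‖x‖ < δ → ∀ R, Adm I c R1 x R → ∀ k, ∀ v ∈ 𝒜.O k, σ (𝒜.φ k v) < R / 4 →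
    JB (fun v => T x (𝒜.φ k v) - u R x (𝒜.φ k v)) v (C * Real.exp (-(κ * R)))
      (C * Real.exp (-(κ * R))) (C * Real.exp (-(κ * R)))
  eq : ∀ x, ‖x‖ < δ → ∀ R, Adm I c R1 x R → ∀ k, ∀ v ∈ 𝒜.O k, σ (𝒜.φ k v) < R / 4 →
    |Mc (fun v => XR n (Rm x) (u R x) (𝒜.φ k v)) v -
      (∑ j, l R x j * Ψ j (𝒜.φ k v)) * dS (𝒜.φ k) (n (𝒜.φ k v)) v|
      ≤ C * ‖l R x‖ * (1 + ‖𝒜.φ k v‖) ^ q *
        (|u R x (𝒜.φ k v)| + ‖fderiv ℝ (fun v => u R x (𝒜.φ k v)) v‖ + ‖x‖)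
  lagc : ∀ x, ‖x‖ < δ → ∀ R, Adm I c R1 x R → ∀ k, ∀ v ∈ 𝒜.O k, σ (𝒜.φ k v) < R / 4 →
    lag R x (𝒜.φ k v) * ar (𝒜.φ k) v =
      rho (XR n (Rm x) (u R x) (𝒜.φ k v)) * ar (fun v => XR n (Rm x) (u R x) (𝒜.φ k v)) v
  area : ∀ x, ‖x‖ < δ → ∀ R, Adm I c R1 x R →
    |A * ∫ p in {p | σ p < R / 8}, lag R x p ∂(sig 2 w) - F R x| ≤ C * Real.exp (-(κ * R))
  lim : Tendsto (fun R => F R 0) atTop (𝓝 f0)
  con : ∀ x, ‖x‖ < δ → ∀ R, Adm I c R1 x R →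
    (∀ i ∈ I, |x i| ^ N ≤ C * (‖L x‖ + Real.exp (-(κ * R)))) ∧
      |F R x - f0| ^ θ ≤ C * (‖L x‖ + Real.exp (-(κ * R)))

end Vale.Agent.P218N.D6
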