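import Vale.Agent.P218N.D6.Defs
import Vale.Agent.P218N.End.GeoA

/-! Block D6: the area element, and the shrinker quantity in a parametrisation. -/

open Filter Topology
open scoped RealInnerProductSpace

namespace Vale.Agent.P218N.D6

open Vale.Agent.P218 Vale.Agent.P218.H313 Vale.Agent.P218N.H Vale.Agent.P218N.G Vale.Agent.P218GA
  Vale.Agent.P218N.End

set_option maxSynthPendingDepth 3

theorem crs_zero (a b : E3) : crs a b 0 = a 1 * b 2 - a 2 * b 1 := rfl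

theorem crs_one (a b : E3) : crs a b 1 = a 2 * b 0 - a 0 * b 2 := rfl

theorem crs_two (a b : E3) : crs a b 2 = a 0 * b 1 - a 1 * b 0 := rfl

theorem inner_crs_left (a b : E3) : ⟪crs a b, a⟫ = 0 := by
  simp only [inner3, crs_zero, crs_one, crs_two]
  ring

theorem inner_crs_right (a b : E3) : ⟪crs a b, b⟫ = 0 := by
  simp only [inner3, crs_zero, crs_one, crs_two]
  ring

theorem norm_crs_sq (a b : E3) : ‖crs a b‖ ^ 2 = gram a b := by
  rw [← real_inner_self_eq_norm_sq]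
  simp only [gram, inner3, crs_zero, crs_one, crs_two]
  ring

theorem gram_eq (a b : E3) : gram a b = ‖a‖ ^ 2 * ‖b‖ ^ 2 - ⟪a, b⟫ ^ 2 := by
  simp only [gram, real_inner_self_eq_norm_sq]

theorem par_eq_norm_crs (a b : E3) : par a b = ‖crs a b‖ := by
  rw [par, ← gram_eq, ← norm_crs_sq, Real.sqrt_sq (norm_nonneg _)]

theorem par_sq (a b : E3) : par a b ^ 2 = gram a b := by rw [par_eq_norm_crs, norm_crs_sq]

theorem norm_crs_le (a b : E3) : ‖crs a b‖ ≤ ‖a‖ * ‖b‖ := by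
  refine (pow_le_pow_iff_left₀ (norm_nonneg _) (by positivity) two_ne_zero).1 ?_
  rw [norm_crs_sq, gram_eq, mul_pow]
  exact sub_le_self _ (sq_nonneg _)

theorem crs_sub (a b a' b' : E3) : crs a b - crs a' b' = crs (a - a') b + crs a' (b - b') := by
  ext i
  fin_cases i <;> simp [crs] <;> ring

theorem norm_apply_fst (L : R2 →L[ℝ] E3) : ‖L (1, 0)‖ ≤ ‖L‖ := L.unit_le_opNorm _ (by simp)

theorem norm_apply_snd (L : R2 →L[ℝ] E3) : ‖L (0, 1)‖ ≤ ‖L‖ := L.unit_le_opNorm _ (by simp)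

theorem ar_eq (X : R2 → E3) (v : R2) :
    ar X v = ‖crs (fderiv ℝ X v (1, 0)) (fderiv ℝ X v (0, 1))‖ := par_eq_norm_crs _ _

theorem ar_nonneg (X : R2 → E3) (v : R2) : 0 ≤ ar X v := Real.sqrt_nonneg _

theorem ar_le (X : R2 → E3) (v : R2) : ar X v ≤ ‖fderiv ℝ X v‖ ^ 2 := by
  rw [ar_eq, sq]
  exact (norm_crs_le _ _).trans
    (mul_le_mul (norm_apply_fst _) (norm_apply_snd _) (norm_nonneg _) (norm_nonneg _))

theorem norm_crs_sub_le (L L' : R2 →L[ℝ] E3) :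
    ‖crs (L (1, 0)) (L (0, 1)) - crs (L' (1, 0)) (L' (0, 1))‖ ≤ (‖L‖ + ‖L'‖) * ‖L - L'‖ := by
  rw [crs_sub, add_mul, mul_comm ‖L‖]
  refine norm_add_le_of_le ((norm_crs_le _ _).trans ?_) ((norm_crs_le _ _).trans ?_)
  · exact mul_le_mul (norm_apply_fst (L - L')) (norm_apply_snd _) (norm_nonneg _) (norm_nonneg _)
  · exact mul_le_mul (norm_apply_fst _) (norm_apply_snd (L - L')) (norm_nonneg _) (norm_nonneg _)

theorem ar_lip (X Y : R2 → E3) (v : R2) : |ar X v - ar Y v| ≤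
    (‖fderiv ℝ X v‖ + ‖fderiv ℝ Y v‖) * ‖fderiv ℝ X v - fderiv ℝ Y v‖ := by
  rw [ar_eq, ar_eq]
  exact (abs_norm_sub_norm_le _ _).trans (norm_crs_sub_le _ _)

theorem ar_ge {X : R2 → E3} {v : R2} {m : ℝ} (hm : 0 ≤ m)
    (h : ∀ u, m * ‖u‖ ≤ ‖fderiv ℝ X v u‖) : m ^ 2 ≤ ar X v := by
  rcases hm.eq_or_lt with rfl | hm0
  · simpa using ar_nonneg X v
  set a := fderiv ℝ X v (1, 0)
  set b := fderiv ℝ X v (0, 1)
  have h1 : m ≤ ‖a‖ := by simpa using h (1, 0)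
  have h2 := h (-⟪a, b⟫, ‖a‖ ^ 2)
  have h3 : fderiv ℝ X v (-⟪a, b⟫, ‖a‖ ^ 2) = (-⟪a, b⟫) • a + ‖a‖ ^ 2 • b := by
    rw [← map_smul, ← map_smul, ← map_add]
    simp
  have h4 : ‖(-⟪a, b⟫) • a + ‖a‖ ^ 2 • b‖ = ‖a‖ * ar X v := by
    rw [← sq_eq_sq₀ (norm_nonneg _) (mul_nonneg (norm_nonneg _) (ar_nonneg _ _)), mul_pow, ar,
      par_sq, gram_eq, norm_add_sq_real, norm_smul, norm_smul, real_inner_smul_left,
      real_inner_smul_right, mul_pow, mul_pow, Real.norm_eq_abs, Real.norm_eq_abs, sq_abs, sq_abs]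
    ring
  have h5 : ‖a‖ ^ 2 ≤ ‖((-⟪a, b⟫, ‖a‖ ^ 2) : R2)‖ :=
    (le_abs_self _).trans (norm_snd_le ((-⟪a, b⟫, ‖a‖ ^ 2) : R2))
  rw [h3, h4] at h2
  have h6 : ‖a‖ * (m * ‖a‖) ≤ ‖a‖ * ar X v := by nlinarith
  nlinarith [le_of_mul_le_mul_left h6 (hm0.trans_le h1)]

theorem ar_pos {X : R2 → E3} {v : R2} (h : Function.Injective (fderiv ℝ X v)) : 0 < ar X v :=
  (pos_iff_pos_of_mul_pos (isJac_prod.pos _ h)).1 (cH_pos' 2)

theorem ricStmt : RicStmt := by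
  intro W c K X v hW hX hi h0
  have hz : W (X v) = 0 := h0.self_of_nhds
  have hc : |W (X v)| < c := by rw [hz, abs_zero]; exact hW.cpos
  have hν := hW.eik _ hc
  have e0 : (fun u => W (X u)) =ᶠ[𝓝 v] fun _ => 0 := h0
  have d1 : ∀ a, ⟪grad W (X v), fderiv ℝ X v a⟫ = 0 := fun a => by
    have h1 := ((hW.diff (X v)).hasFDerivAt.comp v
      (hX.differentiableAt two_ne_zero).hasFDerivAt).fderiv
    have h2 : fderiv ℝ (W ∘ X) v = 0 := (e0.fderiv_eq (𝕜 := ℝ)).trans (by simp)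
    rw [inner_grad]
    exact congrArg (fun L : R2 →L[ℝ] ℝ => L a) (h1.symm.trans h2)
  have d2 : ∀ a b, ⟪grad W (X v), fderiv ℝ (fderiv ℝ X) v a b⟫ =
      -⟪fderiv ℝ X v b, fderiv ℝ (grad W) (X v) (fderiv ℝ X v a)⟫ := fun a b => by
    have h1 := fderiv2_comp (hW.smooth.contDiffAt (x := X v)) hX a b
    have h2 : fderiv ℝ (fderiv ℝ fun u => W (X u)) v = 0 := by
      simpa using (e0.fderiv (𝕜 := ℝ)).fderiv_eq (𝕜 := ℝ)
    rw [h2, ← inner_fderiv_grad hW.smooth, ← inner_grad, real_inner_comm] at h1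
    simp only [zero_apply] at h1
    linarith
  have hg : ar X v ^ 2 = gram (fderiv ℝ X v (1, 0)) (fderiv ℝ X v (0, 1)) := par_sq _ _
  have hg0 : gram (fderiv ℝ X v (1, 0)) (fderiv ℝ X v (0, 1)) ≠ 0 :=
    hg ▸ (pow_pos (ar_pos hi) 2).ne'
  have h1 := eq_smul_of_orth hg0 hν (d1 _) (d1 _) (inner_crs_left _ _) (inner_crs_right _ _)
  have h2 := gram_mul_tr hg0 hν (d1 _) (d1 _) (fderiv ℝ (grad W) (X v))
  rw [hW.hess_grad hc, inner_zero_right,
    ← hess_symm hW.smooth (X v) (fderiv ℝ X v (1, 0)) (fderiv ℝ X v (0, 1)),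
    real_inner_comm (fderiv ℝ X v (0, 1)) (fderiv ℝ (grad W) (X v) _)] at h2
  constructor
  · have h3 := congrArg (fun y => ⟪y, shrV (X v) (fderiv ℝ X v) (fderiv ℝ (fderiv ℝ X) v)⟫) h1
    simp only [real_inner_smul_left] at h3
    rw [Mc, h3, dS, hg, ricE, hz, shrV]
    simp only [inner_add_right, inner_sub_right, real_inner_smul_right, d2,
      real_inner_comm (grad W (X v)) (X v)]
    unfold gram at h2 ⊢
    linear_combination ⟪crs (fderiv ℝ X v (1, 0)) (fderiv ℝ X v (0, 1)), grad W (X v)⟫ * h2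
  · have h3 := congrArg norm h1
    rw [norm_smul, hν, mul_one, ← ar_eq, Real.norm_eq_abs] at h3
    rw [dS, abs_mul, ← h3, abs_of_nonneg (sq_nonneg _)]
    ring

end Vale.Agent.P218N.D6
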