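import Vale.Agent.P218N.D6.Ctx

/-! Block D6: the approximate equation of the tube functions. -/

open MeasureTheory Set Filter Topology Metric
open scoped RealInnerProductSpace ContDiff

namespace Vale.Agent.P218N.D6

open Vale.Agent.P218.H313 Vale.Agent.P218N.H Vale.Agent.P218N.G Vale.Agent.P218F

set_option linter.unusedSectionVars false
set_option maxSynthPendingDepth 3

theorem le_of_eta {x b t : ℝ} (h : ∀ η, 0 < η → x ≤ b * (t + η)) : x ≤ b * t :=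
  ge_of_tendsto (f := fun η => b * (t + η)) (x := 𝓝[>] 0) (tendsto_nhdsWithin_of_tendsto_nhds
    (Continuous.tendsto' (by fun_prop) _ _ (by simp))) (eventually_nhdsWithin_of_forall h)

theorem ricE_le {W : E3 → ℝ} {c K : ℝ} (h : Tube0 W c K) {y : E3} (hy : W y = 0) :
    |ricE W y| ≤ 4 * K := by
  have h1 := (abs_tr_le _).trans (mul_le_mul_of_nonneg_left (h.b2 y) (Nat.cast_nonneg _))
  rw [finrank_euclideanSpace_fin] at h1
  have h2 := h.bx y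
  rw [ricE, hy, abs_le] at *
  push_cast at h1
  constructor <;> linarith [h.K_nonneg]

theorem NR.refl {𝓘 Y : Type*} [NormedAddCommGroup Y] {W : 𝓘 → E3} {d : 𝓘 → ℝ} {x : 𝓘 → Y}
    (hd : ∀ i, 0 ≤ d i) (h : PO W (fun i => ‖x i‖) fun _ => 1) : NR W d x x :=
  ⟨hd, h, h, .of_le (by simpa using hd)⟩

theorem JB.lip_slice {P X Y : Type*} [NormedAddCommGroup P] [NormedSpace ℝ P]
    [NormedAddCommGroup X] [NormedSpace ℝ X] [NormedAddCommGroup Y] [NormedSpace ℝ Y]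
    {g : P × X → Y} {S : Set P} {b0 b1 b2 : ℝ} {x : X} {a : P} (hS : Convex ℝ S)
    (h : ∀ a ∈ S, JB g (a, x) b0 b1 b2) (ha : a ∈ S) (h0 : 0 ∈ S) : ‖g (a, x) - g (0, x)‖ ≤ b1 * ‖a‖
      ∧ ‖fderiv ℝ (fun y => g (a, y)) x - fderiv ℝ (fun y => g (0, y)) x‖ ≤ b2 * ‖a‖ := by
  obtain ⟨h1, h2⟩ := JB.lip (hS.prod (convex_singleton x)) (fun z hz => by
    obtain ⟨a, y⟩ := z
    obtain rfl : y = x := hz.2
    exact h a hz.1) (mk_mem_prod ha rfl) (mk_mem_prod h0 rfl)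
  simp only [Prod.mk_sub_mk, sub_zero, sub_self, Prod.norm_mk, norm_zero,
    max_eq_left (norm_nonneg a)] at h1 h2
  refine ⟨h1, ?_⟩
  rw [show fderiv ℝ (fun y => g (a, y)) x = _ from ((h a ha).has.comp x
    (hasFDerivAt_prodMk_right a x)).fderiv, show fderiv ℝ (fun y => g (0, y)) x = _ from
    ((h 0 h0).has.comp x (hasFDerivAt_prodMk_right 0 x)).fderiv, ← ContinuousLinearMap.sub_comp]
  exact (ContinuousLinearMap.opNorm_comp_le _ _).trans ((mul_le_of_le_one_right (norm_nonneg _)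
    (ContinuousLinearMap.norm_inr_le_one ..)).trans h2)

variable {ι J : Type} [Fintype ι] [DecidableEq ι] [Fintype J] {w : E3 → ℝ} {n : E3 → E3} {K : Type}
  [Fintype K] {𝒜 : Atlas w n K} {T : (ι → ℝ) → E3 → ℝ} {Rm : (ι → ℝ) → E3 → E3 →L[ℝ] E3}
  {L : (ι → ℝ) → J → ℝ} {σ : E3 → ℝ} {I : Finset ι} {c κ C A δ f0 θ : ℝ} {q N R1 : ℕ}
  {u : ℕ → (ι → ℝ) → E3 → ℝ} {l : ℕ → (ι → ℝ) → J → ℝ} {F : ℕ → (ι → ℝ) → ℝ} {Ψ : J → E3 → ℝ}
  {lag : ℕ → (ι → ℝ) → E3 → ℝ} {ε M : ℝ} {q1 : ℕ} {Z : (ι → ℝ) × E3 → E3} {V : (ι → ℝ) × E3 → ℝ}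
  {α c' M' : ℝ} {q' : ℕ}

theorem Fam.near (hf : Fam w n T Rm Z V α c' M' q') (a : ι → ℝ) (p : E3) :
    ‖Z (a, p) - p‖ ≤ M' * (1 + ‖p‖) ^ q' * ‖a‖ ∧ ‖fderiv ℝ (fun y => Z (a, y)) p -
      ContinuousLinearMap.id ℝ E3‖ ≤ M' * (1 + ‖p‖) ^ q' * ‖a‖ ∧ ‖grad (fun y => V (a, y)) (Z (a, p))
      - grad (fun y => V (0, y)) p‖ ≤ (M' * M' + M') * (1 + ‖p‖) ^ q' * ‖a‖ := by
  obtain ⟨h1, h2⟩ := JB.lip_slice (b0 := M' * (1 + ‖p‖) ^ q') (b1 := M' * (1 + ‖p‖) ^ q')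
    (b2 := M' * (1 + ‖p‖) ^ q') convex_univ (fun a _ => hf.dif.jb (a, p)) (a := a) trivial trivial
  simp only [hf.Z0, fderiv_fun_id] at h1 h2
  refine ⟨h1, h2, ?_⟩
  · have h3 := (convex_univ.norm_image_sub_le_of_norm_fderiv_le (fun y _ =>
      (hf.tube a).grad_cd.differentiable one_ne_zero y) (fun y _ => (hf.tube a).b2 y) (x := p)
      (y := Z (a, p)) trivial trivial).trans (mul_le_mul_of_nonneg_left h1 (hf.tube a).K_nonneg)
    have h4 : ‖grad (fun y => V (a, y)) p - grad (fun y => V (0, y)) p‖ ≤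
        M' * (1 + ‖p‖) ^ q' * ‖a‖ := by
      simp only [(hess_slice (fam_cd hf.jV) _ 0).1, gy, ← map_sub]
      exact (norm_gL_le _).trans (fam_lip hf.jV a p)
    linarith [norm_sub_le_norm_sub_add_norm_sub (grad (fun y => V (a, y)) (Z (a, p)))
      (grad (fun y => V (a, y)) p) (grad (fun y => V (0, y)) p)]

theorem Fam.dS_eq (hf : Fam w n T Rm Z V α c' M' q') {k : K} {v : R2} (hv : v ∈ 𝒜.O k) (y : E3) :
    dS (𝒜.φ k) y v = ⟪y, grad (fun y => V (0, y)) (𝒜.φ k v)⟫ *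
      dS (𝒜.φ k) (grad (fun y => V (0, y)) (𝒜.φ k v)) v := by
  have h0 : ∀ p, w p = 0 → V (0, p) = 0 := fun p hp => by simpa [hf.Z0] using (hf.zero 0 p).2 hp
  have h1 := (((hf.tube 0).diff _).hasFDerivAt.comp v (𝒜.jφ k v hv).has).unique
    ((hasFDerivAt_const 0 v).congr_of_eventuallyEq ((Atlas.mem_ev hv).mono fun y => h0 _))
  have h2 : ∀ e, ⟪grad (fun y => V (0, y)) (𝒜.φ k v), fderiv ℝ (𝒜.φ k) v e⟫ = 0 := fun e =>
    (inner_grad _ _ _).trans (congrArg (fun L : R2 →L[ℝ] ℝ => L e) h1)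
  have h3 := End.eq_smul_of_orth (par_sq _ _ ▸ (pow_pos (ar_pos (𝒜.dinj k v hv)) 2).ne')
    ((hf.tube 0).eik _ (by simpa [h0 _ (𝒜.mem k v hv)] using (hf.tube 0).cpos)) (h2 _) (h2 _)
    (inner_crs_left _ _) (inner_crs_right _ _)
  rw [dS, dS]
  conv_lhs => rw [h3, real_inner_smul_left, real_inner_comm y]
  ring

section near

variable {𝓘 : Type} {a : 𝓘 → ι → ℝ} {R : 𝓘 → ℕ} {k : 𝓘 → K} {v : 𝓘 → R2}
  (hv : ∀ i, v i ∈ 𝒜.O (k i))
include hv

theorem Atlas.po_sc : PO (fun i => 𝒜.φ (k i) (v i)) (fun i => 𝒜.C * 𝒜.sc (k i) (v i)) fun _ => 1 :=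
  .cmul _ 𝒜.Cpos.le (.le_trans (fun i => by simpa using 𝒜.scle _ _ (hv i)) (.wt 𝒜.C 1))

theorem Atlas.jpφ : JP (fun i => 𝒜.φ (k i) (v i)) (fun _ => 1) (fun i => 𝒜.φ (k i)) v :=
  .of (fun _ => zero_le_one) (fun i => 𝒜.jφ _ _ (hv i)) (.le_trans (fun i => by simp) (.wt 1 1))
    (Atlas.po_sc hv) (Atlas.po_sc hv)

theorem Atlas.jpn : JP (fun i => 𝒜.φ (k i) (v i)) (fun _ => 1) (fun i y => n (𝒜.φ (k i) y)) v :=
  ⟨_, fun i => 𝒜.jn _ _ (hv i), Atlas.po_sc hv⟩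

variable (hm : Mid 𝒜 T Rm ε δ M q1) (hc : Ctx 𝒜 T Rm L σ I c κ C A δ f0 θ q N R1 u l F Ψ lag)
  (hf : Fam w n T Rm Z V α c' M' q') (ha : ∀ i, ‖a i‖ < δ) (ha' : ∀ i, ‖a i‖ ≤ α)
  (hR : ∀ i, Adm I c R1 (a i) (R i)) (hs : ∀ i, σ (𝒜.φ (k i) (v i)) < R i / 4)
include hm hc hf ha ha' hR hs

/-- the surface of the family is exponentially close to the surface of the truncation -/
theorem Ctx.close : let W := fun i => 𝒜.φ (k i) (v i)
    let X := fun i y => Z (a i, 𝒜.φ (k i) y)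
    let X' := fun i y => XR n (Rm (a i)) (u (R i) (a i)) (𝒜.φ (k i) y)
    JP W (fun _ => 1) X v ∧ JP W (fun _ => 1) X' v ∧
      JP W (fun i => Real.exp (-(κ * R i))) (fun i y => X i y - X' i y) v := by
  intro W X X'
  have o : ∀ _ : 𝓘, (0 : ℝ) ≤ 1 := fun _ => zero_le_one
  have jR : JP W (fun _ => 1) (fun i y => Rm (a i) (𝒜.φ (k i) y)) v := .comp (.of o (fun i =>
    (hm.sR _ (ha i) _).mono le_rfl (div_le_self hm.ε0 (by simp)) (div_le_self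
    (by linarith [hm.M1]) (one_le_pow₀ (by simp)))) (.const _) (.const _) (.const _)) (Atlas.jpφ hv)
  have jX : ∀ g : 𝓘 → E3 → ℝ, JP W (fun _ => 1) (fun i y => g i (𝒜.φ (k i) y)) v →
      JP W (fun _ => 1) (fun i y => XR n (Rm (a i)) (g i) (𝒜.φ (k i) y)) v := fun g h =>
    have h1 := (Atlas.jpφ hv).add o (h.smul (Atlas.jpn hv))
    h1.add o (jR.app h1)
  have jT : JP W (fun _ => 1) (fun i y => T (a i) (𝒜.φ (k i) y)) v :=
    ⟨_, fun i => hm.sT _ (ha i) _ _ (hv i), .const _⟩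
  have jD : JP W (fun i => Real.exp (-(κ * R i)))
      (fun i y => T (a i) (𝒜.φ (k i) y) - u (R i) (a i) (𝒜.φ (k i) y)) v :=
    ⟨_, fun i => hc.nearT _ (ha i) _ (hR i) _ _ (hv i) (hs i), .cmul _ hc.C0 .refl⟩
  have e : ∀ i, X i =ᶠ[𝓝 (v i)] fun y => XR n (Rm (a i)) (T (a i)) (𝒜.φ (k i) y) := fun i =>
    (Atlas.mem_ev (hv i)).mono fun y hy => hf.onS _ (ha' i) _ hy
  have jN := jD.smul (Atlas.jpn hv)
  refine ⟨(jX _ jT).congr e, jX _ ((jT.sub o (jD.mono (.of_le fun i => Real.exp_le_one_iff.2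
    (neg_nonpos.2 (mul_nonneg hc.κ0.le (Nat.cast_nonneg _)))))).congr fun i => by simp),
    (jN.add (fun i => (Real.exp_pos _).le) (jR.app jN)).congr fun i => (e i).mono fun y hy => ?_⟩
  simp only [hy, X', XR, sub_smul, map_add, map_sub]
  abel

theorem Ctx.ric_near : PO (fun i => 𝒜.φ (k i) (v i)) (fun i => |ricE (fun y => V (a i, y))
    (Z (a i, 𝒜.φ (k i) (v i))) + ∑ j, L (a i) j * psiV n V Ψ j (𝒜.φ (k i) (v i))|)
    fun i => ‖L (a i)‖ * ‖a i‖ + Real.exp (-(κ * R i)) := by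
  obtain ⟨jX, jX', jD⟩ := Ctx.close hv hm hc hf ha ha' hR hs
  have hC := hc.C0
  set W := fun i => 𝒜.φ (k i) (v i)
  set e := fun i => Real.exp (-(κ * R i))
  have e0 : ∀ i, 0 ≤ e i := fun i => (Real.exp_pos _).le
  have e1 : ∀ i, e i ≤ 1 := fun i =>
    Real.exp_le_one_iff.2 (neg_nonpos.2 (mul_nonneg hc.κ0.le (Nat.cast_nonneg _)))
  have g0 : ∀ i, 0 ≤ ‖L (a i)‖ * ‖a i‖ + e i := fun i => add_nonneg (by positivity) (e0 i)
  have ge : PO W e fun i => ‖L (a i)‖ * ‖a i‖ + e i := .of_le fun i => by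
    simp only [le_add_iff_nonneg_left]; positivity
  choose B hB using fun j => (hc.Ψc j).bounded_above_of_compact_support (hc.Ψs j)
  obtain ⟨B, B1, hB⟩ : ∃ B, 0 ≤ B ∧ ∀ (m : J → ℝ) p, |∑ j, m j * Ψ j p| ≤ B * ‖m‖ :=
    ⟨∑ j, B j, Finset.sum_nonneg fun j _ => (norm_nonneg _).trans (hB j 0), fun m p => by
      rw [Finset.sum_mul]
      refine (Finset.abs_sum_le_sum_abs _ _).trans (Finset.sum_le_sum fun j _ => ?_)
      rw [abs_mul, mul_comm]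
      exact mul_le_mul (hB j p) (norm_le_pi_norm m j) (abs_nonneg _)
        ((norm_nonneg _).trans (hB j 0))⟩
  have n0 := fun i => norm_nonneg (a i)
  have nφ := NR.refl n0 (Atlas.jpφ hv).b1
  have nν : NR W (fun i => ‖a i‖) (fun i => grad (fun y => V (a i, y)) (Z (a i, W i)))
      fun i => grad (fun y => V (0, y)) (W i) :=
    ⟨n0, .le_trans (fun i => (hf.tube _).b1 _) (.const _), .le_trans (fun i => (hf.tube _).b1 _)
      (.const _), _, _, by nlinarith [hf.dif.one_le], fun i => (hf.near _ _).2.2⟩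
  have dX : ∀ i, fderiv ℝ (fun y => Z (a i, 𝒜.φ (k i) y)) (v i) =
      (fderiv ℝ (fun y => Z (a i, y)) (W i)).comp (fderiv ℝ (𝒜.φ (k i)) (v i)) := fun i =>
    (HasFDerivAt.comp (g := fun y => Z (a i, y)) _ (hf.dif.jb (a i, _)).slice.has
      (𝒜.jφ _ _ (hv i)).has).fderiv
  have nX : NR W (fun i => ‖a i‖) (fun i => fderiv ℝ (fun y => Z (a i, 𝒜.φ (k i) y)) (v i))
      fun i => fderiv ℝ (𝒜.φ (k i)) (v i) := by
    have a1 : NR W (fun i => ‖a i‖) (fun i => fderiv ℝ (fun y => Z (a i, y)) (W i))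
        fun _ => ContinuousLinearMap.id ℝ E3 := ⟨n0, .le_trans (fun i => hf.dif.up _ _) (.const _),
      .const _, _, _, by linarith [hf.dif.one_le], fun i => (hf.near _ _).2.1⟩
    simpa only [dX, ContinuousLinearMap.id_comp] using NR.bil ContinuousLinearMap.comp
      ContinuousLinearMap.opNorm_comp_le (fun _ _ _ _ => by
        simp [ContinuousLinearMap.sub_comp, ContinuousLinearMap.comp_sub]) a1 nφ
  have p1 := (JP.mc e0 jX jX' jD).1.trans ge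
  have p2 : PO W (fun i => C * ‖l (R i) (a i)‖ * (1 + ‖W i‖) ^ q * (|u (R i) (a i) (W i)| +
      ‖fderiv ℝ (fun y => u (R i) (a i) (𝒜.φ (k i) y)) (v i)‖ + ‖a i‖))
      fun i => ‖L (a i)‖ * ‖a i‖ + e i := by
    have a1 : PO W (fun i => C * ‖l (R i) (a i)‖ * (1 + ‖W i‖) ^ q) fun i => ‖L (a i)‖ + e i :=
      ⟨C * (C + 1), q, by positivity, fun i => by
        refine (mul_le_mul_of_nonneg_right (mul_le_mul_of_nonneg_left (show _ ≤ (C + 1) *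
          (‖L (a i)‖ + e i) from ?_) hC) (by positivity)).trans (le_of_eq (by ring))
        nlinarith [hc.nearL _ (ha i) _ (hR i), norm_le_norm_add_norm_sub (L (a i)) (l (R i) (a i)),
          e0 i, norm_nonneg (L (a i))]⟩
    have a2 : PO W (fun i => |u (R i) (a i) (W i)| + ‖fderiv ℝ (fun y => u (R i) (a i)
        (𝒜.φ (k i) y)) (v i)‖ + ‖a i‖) fun i => ‖a i‖ + e i := by
      refine ⟨2 * M + 2 * C + 1, q1, by linarith [hm.M1], fun i => ?_⟩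
      obtain ⟨b1, b2⟩ := JB.lip_slice (convex_ball 0 δ) (fun x hx => hm.jT x
        (mem_ball_zero_iff.1 hx) _ _ (hv i)) (mem_ball_zero_iff.2 (ha i)) (mem_ball_self hm.δ0)
      have b3 : (fun y => T 0 (𝒜.φ (k i) y)) =ᶠ[𝓝 (v i)] fun _ => 0 :=
        mem_of_superset ((𝒜.op _).mem_nhds (hv i)) (hm.T0 _)
      simp only [b3.eq_of_nhds, b3.fderiv_eq, fderiv_fun_const, Pi.zero_apply, sub_zero] at b1 b2
      have b4 := hc.nearT _ (ha i) _ (hR i) _ _ (hv i) (hs i)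
      have b5 := (J1.add (f := fun y => T (a i) (𝒜.φ (k i) y))
        ⟨(hm.sT _ (ha i) _ _ (hv i)).j1.cd, b1, b2⟩ b4.neg.j1).congr
        (f := fun y => u (R i) (a i) (𝒜.φ (k i) y)) (.of_forall fun y => by simp)
      have b6 : 1 ≤ (1 + ‖W i‖) ^ q1 := one_le_pow₀ (by simp)
      have b7 := mul_le_mul_of_nonneg_right b6 (add_nonneg (n0 i) (e0 i))
      have b8 := mul_nonneg (mul_nonneg (zero_le_one.trans hm.M1) (zero_le_one.trans b6)) (e0 i)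
      have b9 := mul_le_mul_of_nonneg_left b7 hC
      nlinarith [b5.b0, b5.b1, Real.norm_eq_abs (u (R i) (a i) (W i)), mul_nonneg hC (n0 i), e0 i]
    refine (PO.mul (fun _ => by positivity) (fun _ => by positivity) a1 a2).trans
      ⟨C * δ + δ + 1, 0, by have := hm.δ0; positivity, fun i => ?_⟩
    have b1 := (hc.lipL _ (ha i)).trans (mul_le_mul_of_nonneg_left (ha i).le hC)
    have b2 := mul_nonneg (show 0 ≤ C * δ + δ by have := hm.δ0; positivity)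
      (mul_nonneg (norm_nonneg (L (a i))) (n0 i))
    nlinarith [mul_le_mul_of_nonneg_right b1 (e0 i), mul_le_mul_of_nonneg_right (ha i).le (e0 i),
      mul_le_mul_of_nonneg_right (e1 i) (e0 i)]
  have p3 : PO W (fun i => |∑ j, (L (a i) - l (R i) (a i)) j * Ψ j (W i)| *
      |dS (𝒜.φ (k i)) (n (W i)) (v i)|) fun i => ‖L (a i)‖ * ‖a i‖ + e i := by
    simpa using (PO.mul (fun _ => abs_nonneg _) (fun _ => abs_nonneg _) ((PO.le_trans
      (fun i => hB _ _) (.cmul _ B1 (.le_trans (fun i => hc.nearL _ (ha i) _ (hR i))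
      (.cmul _ hC .refl)))).trans ge) (nφ.dS (NR.refl n0 (Atlas.jpn hv).b0)).l)
  have p4 : PO W (fun i => |⟪n (W i), grad (fun y => V (0, y)) (W i)⟫| * (|∑ j, L (a i) j * Ψ j (W i)|
      * |dS (fun y => Z (a i, 𝒜.φ (k i) y)) (grad (fun y => V (a i, y)) (Z (a i, W i))) (v i) -
        dS (𝒜.φ (k i)) (grad (fun y => V (0, y)) (W i)) (v i)|)) fun i => ‖L (a i)‖ * ‖a i‖ + e i :=
    .mul_left (fun _ => abs_nonneg _) (fun _ => by positivity)
      ((NR.refl n0 (Atlas.jpn hv).b0).inner nν).r ((PO.mul (fun _ => abs_nonneg _)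
      (fun _ => abs_nonneg _) (.le_trans (fun i => hB _ _) (.cmul _ B1 .refl)) (nX.dS nν).s).trans
      (.of_le fun i => le_add_of_nonneg_right (e0 i)))
  refine .le_trans (fun i => ?_) (.cmul ((2 * 𝒜.C) ^ 6) (by have := 𝒜.Cpos; positivity)
    (.add g0 (.add g0 (.add g0 p1 p2) p3) p4))
  have hA := 𝒜.Cpos
  have a1 : ∀ y, 1 / (2 * 𝒜.C) * ‖y‖ ≤ ‖fderiv ℝ (fun y => Z (a i, 𝒜.φ (k i) y)) (v i) y‖ :=
    fun y => by
      rw [dX, ← one_div_mul_one_div, mul_assoc]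
      exact (mul_le_mul_of_nonneg_left (Atlas.lowφ (hv i) y) (by norm_num)).trans (hf.dif.low _ _ _)
  obtain ⟨a2, a3⟩ := ricStmt _ _ _ _ (v i) (hf.tube (a i)) (jX.cd i) ((injective_iff_map_eq_zero
    _).2 fun y hy => norm_le_zero_iff.1 (nonpos_of_mul_nonpos_right (by simpa [hy] using a1 y)
    (show 0 < 1 / (2 * 𝒜.C) by positivity))) ((Atlas.mem_ev (hv i)).mono fun y => (hf.zero _ _).2)
  have a4 := pow_le_pow_left₀ (by positivity) (ar_ge (by positivity) a1) 3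
  rw [← a3, ← pow_mul, one_div_pow, div_le_iff₀' (by positivity)] at a4
  have a5 := hc.eq _ (ha i) _ (hR i) _ _ (hv i) (hs i)
  refine (le_mul_of_one_le_left (abs_nonneg _) a4).trans ?_
  rw [mul_assoc, ← abs_mul, ← abs_mul, ← abs_mul, ← abs_mul]
  refine mul_le_mul_of_nonneg_left (le_trans (le_of_eq (congrArg abs ?_)) (abs_add_le _ _ |>.trans
    (add_le_add_left (abs_add_le _ _ |>.trans (add_le_add_left ((abs_neg _).le.trans
    ((abs_add_le _ _).trans (add_le_add_right a5 _))) _)) _))) (by positivity)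
  simp only [psiV, ← mul_assoc, ← Finset.sum_mul, Pi.sub_apply, sub_mul, Finset.sum_sub_distrib,
    hf.dS_eq (hv i) (n _), W] at a2 ⊢
  linear_combination a2

end near

theorem abs_sum_le {m f : J → ℝ} {b : ℝ} (h : ∀ j, |f j| ≤ b) :
    |∑ j, m j * f j| ≤ Fintype.card J * b * ‖m‖ := by
  refine (Finset.abs_sum_le_sum_abs _ _).trans ((Finset.sum_le_card_nsmul _ _ (‖m‖ * b)
    fun j _ => ?_).trans (le_of_eq (by simp; ring)))
  rw [abs_mul]
  exact mul_le_mul (norm_le_pi_norm m j) (h j) (abs_nonneg _) (norm_nonneg _)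

variable (hm : Mid 𝒜 T Rm ε δ M q1) (hc : Ctx 𝒜 T Rm L σ I c κ C A δ f0 θ q N R1 u l F Ψ lag)
  (hf : Fam w n T Rm Z V α c' M' q')
include hc hf

theorem Ctx.psi_cont (j : J) : Continuous (psiV n V Ψ j) :=
  (hc.Ψc j).mul (hc.nc.inner (hf.tube 0).grad_cd.continuous)

theorem Ctx.psi_bd : ∃ B, 1 ≤ B ∧ (∀ j y, |psiV n V Ψ j y| ≤ B) ∧ ∀ η, 0 < η → ∃ b, 0 < b ∧
    ∀ j y y', |psiV n V Ψ j y - psiV n V Ψ j y'| ≤ η + b * ‖y - y'‖ := by
  have h1 : ∀ j, HasCompactSupport (psiV n V Ψ j) := fun j => (hc.Ψs j).mul_right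
  choose B hB using fun j => (hc.psi_cont hf j).bounded_above_of_compact_support (h1 j)
  obtain ⟨B', B1, h2⟩ := exists_unif B
  have h3 := fun j y => (hB j y).trans (h2 j)
  refine ⟨B', B1, h3, fun η hη => ?_⟩
  choose d d0 hd using fun j => Metric.uniformContinuous_iff.1
    ((h1 j).uniformContinuous_of_continuous (hc.psi_cont hf j)) η hη
  obtain ⟨D, D1, h4⟩ := exists_unif fun j => 1 / d j
  refine ⟨2 * B' * D, by positivity, fun j y y' => ?_⟩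
  rcases lt_or_ge (dist y y') (d j) with a | a
  · exact (hd j a).le.trans (le_add_of_nonneg_right (by positivity))
  · have a1 := (div_le_iff₀ (d0 j)).1 (h4 j)
    rw [dist_eq_norm] at a
    have a2 := mul_le_mul_of_nonneg_left (a1.trans (mul_le_mul_of_nonneg_left a (by linarith)))
      (show 0 ≤ 2 * B' by linarith)
    exact (norm_sub_le_of_le (h3 j y) (h3 j y')).trans (by linarith)

include hm

theorem Ctx.ric_foot : ∃ Q : ℕ, ∀ η, 0 < η → ∀ᶠ a in 𝓝 (0 : ι → ℝ), ∀ p, w p = 0 →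
    |ricE (fun y => V (a, y)) (Z (a, p)) + ∑ j, L a j * psiV n V Ψ j p| ≤
      η * (1 + ‖p‖) ^ Q * ‖L a‖ := by
  obtain ⟨C1, Q, c1, h1⟩ := Ctx.ric_near (𝓘 := {i : (ι → ℝ) × ℕ × K × R2 // i.2.2.2 ∈ 𝒜.O i.2.2.1 ∧
    ‖i.1‖ < δ ∧ ‖i.1‖ ≤ α ∧ Adm I c R1 i.1 i.2.1 ∧ σ (𝒜.φ i.2.2.1 i.2.2.2) < i.2.1 / 4})
    (fun i => i.2.1) hm hc hf (fun i => i.2.2.1) (fun i => i.2.2.2.1) (fun i => i.2.2.2.2.1)
    fun i => i.2.2.2.2.2
  obtain ⟨C2, c2, h2⟩ := hc.sel hm.δ0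
  obtain ⟨B, B1, hB, -⟩ := hc.psi_bd hf
  refine ⟨Q + 2 * (N + 2), fun η hη => ?_⟩
  have hC := hc.C0
  have hδ := hm.δ0
  have hM := hf.dif.one_le
  set s := η / (2 * (C1 + 1)) with hs
  have s0 : 0 < s := by positivity
  obtain ⟨R2, h3⟩ := eventually_atTop.1 (ev_exp hc.κ0 (show 0 < s / C2 by positivity) (N + 1))
  set B0 := 4 * M' + Fintype.card J * B * (C * δ)
  obtain ⟨m, h4⟩ := exists_nat_ge (B0 * C2 * 8 ^ (N + 2) / η)
  filter_upwards [h2 (R2 + m), closedBall_mem_nhds 0 hf.α0, closedBall_mem_nhds 0 s0] with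
    a ⟨ha, hR⟩ a1 a2 p hp
  rw [mem_closedBall_zero_iff] at a1 a2
  refine le_of_eta fun η' hη' => ?_
  obtain ⟨R, r1, r2, r3⟩ := hR η' hη'
  have hW : 1 ≤ 1 + ‖p‖ := by simp
  have hL := norm_nonneg (L a)
  set t := ‖L a‖ + η' with ht
  have t0 : 0 < t := by positivity
  by_cases h : σ p < R / 4
  · obtain ⟨k, v, hv, rfl⟩ := 𝒜.exists_chart hp
    refine (h1 ⟨(a, R, k, v), hv, ha, a1, r2, h⟩).trans ?_
    have b1 := mul_le_mul_of_nonneg_right r3 (Real.exp_pos (-(κ * R))).le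
    have b2 := mul_le_mul_of_nonneg_left ((le_div_iff₀ (by linarith)).1 (h3 R (by omega))) t0.le
    have b3 := mul_le_mul (show ‖L a‖ ≤ t by linarith) a2 (norm_nonneg _) t0.le
    have b4 : C1 * (2 * s) ≤ η := by
      rw [hs, mul_div_assoc', mul_div_assoc', div_le_iff₀ (by positivity)]
      nlinarith
    calc _ ≤ C1 * (1 + ‖𝒜.φ k v‖) ^ Q * (2 * s * t) := by gcongr; linarith
      _ = C1 * (2 * s) * (1 + ‖𝒜.φ k v‖) ^ Q * t := by ring
      _ ≤ _ := by gcongr; omega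
  · have b1 : (R : ℝ) ≤ 8 * (1 + ‖p‖) ^ 2 := ((hc.geo R r2.1 p hp).2 (by
      linarith [Nat.cast_nonneg (α := ℝ) R])).trans (by gcongr; simp)
    have b2 : |ricE (fun y => V (a, y)) (Z (a, p)) + ∑ j, L a j * psiV n V Ψ j p| ≤ B0 :=
      (abs_add_le _ _).trans (add_le_add (ricE_le (hf.tube a) ((hf.zero a p).2 hp))
        ((abs_sum_le (hB · p)).trans (by gcongr; exact (hc.lipL a ha).trans (by gcongr))))
    have b3 : B0 * C2 * 8 ^ (N + 2) ≤ R * η := ((div_le_iff₀ hη).1 h4).trans (by gcongr; omega)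
    refine b2.trans (le_of_mul_le_mul_right (a := 8 ^ (N + 2)) ?_ (by positivity))
    calc B0 * 8 ^ (N + 2) ≤ B0 * 8 ^ (N + 2) * (C2 * t * R ^ (N + 1)) :=
          le_mul_of_one_le_right (by positivity) r3
      _ = B0 * C2 * 8 ^ (N + 2) * (t * R ^ (N + 1)) := by ring
      _ ≤ R * η * (t * R ^ (N + 1)) := by gcongr
      _ = η * R ^ (N + 2) * t := by ring
      _ ≤ η * (8 * (1 + ‖p‖) ^ 2) ^ (N + 2) * t := by gcongr
      _ = η * (1 + ‖p‖) ^ (2 * (N + 2)) * t * 8 ^ (N + 2) := by rw [mul_pow, ← pow_mul]; ring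
      _ ≤ _ := by gcongr; omega

theorem Ctx.ric : ∃ Q : ℕ, ∀ η : ℝ, 0 < η → ∀ᶠ a in 𝓝 (0 : ι → ℝ), ∀ y,
    |V (a, y)| < c' → |ricE (fun y => V (a, y)) y - ∑ j, -L a j * psiV n V Ψ j y| ≤
      (M' + 1) * V (a, y) ^ 2 + η * ‖L a‖ * (1 + ‖y‖) ^ Q := by
  obtain ⟨Q, h1⟩ := hc.ric_foot hm hf
  obtain ⟨-, -, -, h2⟩ := hc.psi_bd hf
  have hM := hf.dif.one_le
  have hc' := (hf.tube 0).cpos
  have hC := hc.C0
  set D := 3 * M' * (1 + c')
  set m : ℝ := (Fintype.card J : ℝ)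
  have m0 : 0 ≤ m := Nat.cast_nonneg _
  have d0 : 0 < D := by positivity
  refine ⟨Q + q', fun η hη => ?_⟩
  obtain ⟨s, s0, hs⟩ : ∃ s, 0 < s ∧ s * ((2 + m + M') * D ^ (Q + q')) = η :=
    ⟨η / ((2 + m + M') * D ^ (Q + q')), by positivity, div_mul_cancel₀ _ (by positivity)⟩
  obtain ⟨b, b0, h3⟩ := h2 s s0
  filter_upwards [h1 s s0, ball_mem_nhds 0 hm.δ0, closedBall_mem_nhds 0
    (show 0 < s / ((m * b) ^ 2 * C + m * b + 1) by positivity)] with a a1 a2 a3 y hy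
  rw [mem_closedBall_zero_iff, le_div_iff₀ (by positivity)] at a3
  obtain ⟨p, hp, e, a4⟩ := hf.ric a y hy
  have a5 : 1 + ‖p‖ ≤ D * (1 + ‖y‖) := (hf.dif.norm_le a p).trans (by
    rw [mul_assoc _ (1 + c')]
    gcongr
    nlinarith [norm_le_norm_add_norm_sub y (Z (a, p)), norm_nonneg y])
  have a6 := (norm_sub_le_norm_sub_add_norm_sub y (Z (a, p)) p).trans (add_le_add e.le
    (hf.near a p).1)
  have a7 := abs_sum_le (m := L a) fun j => (h3 j y p).trans (add_le_add_right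
    (mul_le_mul_of_nonneg_left a6 b0.le) _)
  have a8 := hc.lipL a (mem_ball_zero_iff.1 a2)
  have hL := norm_nonneg (L a)
  have ha := norm_nonneg a
  have hW : 1 ≤ 1 + ‖p‖ := by simp
  set P := (1 + ‖p‖) ^ (Q + q')
  have p0 : 1 ≤ P := one_le_pow₀ hW
  have p1 : (1 + ‖p‖) ^ Q ≤ P := pow_le_pow_right₀ hW (by omega)
  have p2 : (1 + ‖p‖) ^ q' ≤ P := pow_le_pow_right₀ hW (by omega)
  have p3 : s * (2 + m + M') * ‖L a‖ * P ≤ η * ‖L a‖ * (1 + ‖y‖) ^ (Q + q') := by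
    refine (mul_le_mul_of_nonneg_left (pow_le_pow_left₀ (by positivity) a5 _)
      (by positivity)).trans (le_of_eq ?_)
    rw [← hs, mul_pow]
    ring
  have b1 : s * (1 + ‖p‖) ^ Q * ‖L a‖ ≤ s * P * ‖L a‖ := by gcongr
  have b2 : m * s * ‖L a‖ * 1 ≤ m * s * ‖L a‖ * P := by gcongr
  have b3 : m * b * ‖a‖ * (M' * (1 + ‖p‖) ^ q' * ‖L a‖) ≤ s * (M' * P * ‖L a‖) := by
    gcongr
    nlinarith [mul_nonneg ha (show 0 ≤ (m * b) ^ 2 * C by positivity)]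
  have b4 : (m * b) ^ 2 * ‖L a‖ * ‖L a‖ * 1 ≤ s * ‖L a‖ * P := by
    gcongr
    nlinarith [mul_le_mul_of_nonneg_left a8 (sq_nonneg (m * b)), mul_nonneg ha (mul_nonneg m0 b0.le)]
  have b5 : m * b * ‖L a‖ * |V (a, y)| ≤ |V (a, y)| ^ 2 + (m * b * ‖L a‖) ^ 2 := by
    linarith [sq_nonneg (|V (a, y)| - m * b * ‖L a‖), sq_nonneg |V (a, y)|,
      sq_nonneg (m * b * ‖L a‖)]
  have b6 := a1 p hp
  simp only [neg_mul, Finset.sum_neg_distrib, sub_neg_eq_add, mul_sub, Finset.sum_sub_distrib]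
    at a7 ⊢
  rw [← sq_abs (V (a, y))] at a4 ⊢
  rw [abs_le] at a4 a7 b6 ⊢
  constructor <;> linarith

end Vale.Agent.P218N.D6
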