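import Vale.Agent.P218N.D6.Stm2
import Vale.Agent.P218N.D6.Atl3

/-! Block D6: the field of linear maps. -/

open Set Filter Topology Metric
open scoped RealInnerProductSpace ContDiff

namespace Vale.Agent.P218N.D6

open Vale.Agent.P218N.H

set_option maxSynthPendingDepth 3

theorem JB.lip {X Y : Type*} [NormedAddCommGroup X] [NormedSpace ℝ X] [NormedAddCommGroup Y]
    [NormedSpace ℝ Y] {g : X → Y} {S : Set X} {b0 b1 b2 : ℝ} (hS : Convex ℝ S)
    (h : ∀ z ∈ S, JB g z b0 b1 b2) {z z' : X} (hz : z ∈ S) (hz' : z' ∈ S) :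
    ‖g z - g z'‖ ≤ b1 * ‖z - z'‖ ∧ ‖fderiv ℝ g z - fderiv ℝ g z'‖ ≤ b2 * ‖z - z'‖ :=
  ⟨hS.norm_image_sub_le_of_norm_hasFDerivWithin_le (fun y hy => (h y hy).has.hasFDerivWithinAt)
    (fun y hy => (h y hy).b1) hz' hz, hS.norm_image_sub_le_of_norm_hasFDerivWithin_le
    (fun y hy => (h y hy).d.has.hasFDerivWithinAt) (fun y hy => (h y hy).b2) hz' hz⟩

theorem exists_unif {α : Type*} [Finite α] (c : α → ℝ) : ∃ C, 1 ≤ C ∧ ∀ j, c j ≤ C := by
  obtain ⟨C, h⟩ := Finite.exists_le c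
  exact ⟨max C 1, le_max_right _ _, fun j => (h j).trans (le_max_left _ _)⟩

theorem rotStmt : RotStmt := by
  intro ι _ _ w D n κ ψ U s1 χ G r s2 Rb K0 _ idx 𝒜 ε hr hε hχ hχe hG G0 ad
  choose χ' c1 e1 j1 using fun j => chiStmt w D j (χ j) s1 (hχ j) (hχe j)
  obtain ⟨C, hC, h1⟩ := exists_unif c1
  have j2 : ∀ j y, JB (χ' j) y C (C / (1 + ‖y‖)) (C / (1 + ‖y‖) ^ 2) := fun j y =>
    (j1 j y).mono (h1 j) (by gcongr; exact h1 j) (by gcongr; exact h1 j)
  choose c2 _ j3 using fun j => exists_jb_compact (g := G j) ((isCompact_closedBall 0 C).prod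
    (isCompact_closedBall 0 (r / 2))) fun z hz => hG j z.1 z.2
      ((mem_closedBall_zero_iff.1 hz.2).trans_lt (by linarith))
  obtain ⟨B, hB, h2⟩ := exists_unif c2
  replace j3 := fun j z hz => (j3 j z hz).mono (h2 j) (h2 j) (h2 j)
  have m : ∀ {t : ℝ} {x : ι → ℝ}, ‖t‖ ≤ C → ‖x‖ ≤ r / 2 →
      (t, x) ∈ closedBall (0 : ℝ) C ×ˢ closedBall (0 : ι → ℝ) (r / 2) := fun ht hx =>
    ⟨mem_closedBall_zero_iff.2 ht, mem_closedBall_zero_iff.2 hx⟩
  have j4 : ∀ j t x, ‖t‖ ≤ C → ‖x‖ ≤ r / 2 → JB (fun t => G j (t, x)) t (B * ‖x‖) (B * ‖x‖) B :=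
    fun j t x ht hx => by
      have m0 := m ht (show ‖(0 : ι → ℝ)‖ ≤ r / 2 by rw [norm_zero]; positivity)
      obtain ⟨a1, a2⟩ := JB.lip ((convex_closedBall _ _).prod (convex_closedBall _ _)) (j3 j)
        (m ht hx) m0
      have a3 := ((j3 j _ m0).has.comp t (hasFDerivAt_prodMk_left t 0)).unique
        ((hasFDerivAt_const 0 t).congr_of_eventuallyEq (.of_forall (G0 j)))
      refine ⟨(j3 j _ (m ht hx)).slice'.cd, by simpa [G0] using a1, ?_, (j3 j _ (m ht hx)).slice'.b2⟩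
      rw [show fderiv ℝ (fun t => G j (t, x)) t = _ from
        ((j3 j _ (m ht hx)).has.comp t (hasFDerivAt_prodMk_left t x)).fderiv, ← sub_zero
        (ContinuousLinearMap.comp _ _), ← a3, ← ContinuousLinearMap.sub_comp]
      refine (ContinuousLinearMap.opNorm_comp_le _ _).trans ((mul_le_of_le_one_right
        (norm_nonneg _) (ContinuousLinearMap.norm_inl_le_one ..)).trans (by simpa using a2))
  set N : ℝ := (Fintype.card (Fin D.b) : ℝ) with hNd
  have hN : 0 ≤ N := Nat.cast_nonneg _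
  have hNB : 0 ≤ N * B := by positivity
  have hd : ∀ {x : ι → ℝ}, ‖x‖ < min (r / 2) (ε / (N * B * C + 1)) → N * (B * ‖x‖) * C ≤ ε ∧
      N * (B * ‖x‖) ≤ ε := fun {x} hx => by
    have a1 := (lt_div_iff₀ (by positivity)).1 (hx.trans_le (min_le_right _ _))
    have a2 := mul_nonneg hNB (norm_nonneg x)
    constructor <;> nlinarith [norm_nonneg x]
  refine ⟨fun x y => ∑ j, G j (χ' j y, x), min (r / 2) (ε / (N * B * C + 1)),
    N * B * ((C + 1) ^ 2 + C) + ε + 1, by positivity, by simp only [le_add_iff_nonneg_left]; positivity,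
    fun x hx y => ?_, fun x hx y => ?_, fun y => by simp [G0], fun x hx k v hv => ?_,
    fun x p hp => by simp only [rotF, e1 _ p hp]⟩
  · have hW : 1 ≤ 1 + ‖y‖ := by simp
    refine (JB.sum' fun j => JB.comp (f := fun z : (ι → ℝ) × E3 => (χ' j z.2, z.1)) (x := (x, y))
      (j3 j _ (m (j2 j y).b0 (hx.le.trans (min_le_left _ _)))) ((((j2 j y).mono le_rfl
      (div_le_self (by linarith) hW) (div_le_self (by linarith) (one_le_pow₀ hW))).comp_snd).prodMk
      (JB.fst _))).mono ?_ ?_ ?_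
    · nlinarith [mul_nonneg hNB (show 0 ≤ (C + 1) ^ 2 + C - 1 by nlinarith)]
    · nlinarith [mul_nonneg hNB (show 0 ≤ (C + 1) ^ 2 + C - (C + 1) by nlinarith)]
    · nlinarith
  · refine (JB.sum' fun j => JB.comp (f := χ' j) (j4 j _ x (j2 j y).b0
      (hx.le.trans (min_le_left _ _))) (j2 j y)).mono (hd hx).2 ?_ ?_
    · rw [← mul_assoc, ← mul_div_assoc]
      gcongr
      exact (hd hx).1
    · rw [div_pow, ← mul_div_assoc, ← mul_div_assoc, ← add_div, ← mul_div_assoc]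
      gcongr
      nlinarith [(hd hx).1, mul_nonneg hNB (show 0 ≤ C by linarith)]
  · rcases k with e | k
    · rw [ad.eO] at hv
      rw [Filter.EventuallyEq.fderiv_eq (f := fun _ => ∑ j, G j (if e = .inr j then 1 else 0, x)),
        fderiv_fun_const]
      · rfl
      filter_upwards [(isOpen_lt continuous_const continuous_fst).mem_nhds hv] with u hu
      refine Finset.sum_congr rfl fun j _ => ?_
      rw [e1 _ _ (𝒜.mem _ u (by rwa [ad.eO])), ad.eφ, hχe j e u (ad.s12.trans_lt hu)]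
    · rw [ad.kxi]
      exact map_zero _

end Vale.Agent.P218N.D6
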