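import Vale.Agent.P218N.D6.Foot
import Vale.Agent.P218N.D6.Jet
import Vale.Agent.P218N.G.Model
import Vale.Agent.P218N.H.Surf

/-! The truncated signed distance of a family of level sets. -/

open Set Filter Topology Metric
open scoped RealInnerProductSpace

namespace Vale.Agent.P218N.D6

open Vale.Agent.P218 Vale.Agent.P218.H313 Vale.Agent.P218.H63 Vale.Agent.P218N.G

set_option linter.unusedSectionVars false
set_option maxSynthPendingDepth 3

theorem Theta_far {a : ℝ} (ha : 0 < a) {s : ℝ} (hs : 2 * a ≤ s) :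
    Theta a ha s = Theta a ha (2 * a) := by
  have h := (convex_Icc (2 * a) s).norm_image_sub_le_of_norm_hasDerivWithin_le (C := 0)
    (fun t _ => (hasDerivAt_Theta ha t).hasDerivWithinAt)
    (fun t ht => by rw [bmp_zero ha (ht.1.trans (le_abs_self _)), norm_zero])
    (left_mem_Icc.2 hs) (right_mem_Icc.2 hs)
  simpa [sub_eq_zero] using h

theorem norm_bmp_le {a : ℝ} (ha : 0 < a) (s : ℝ) : ‖bmp a ha s‖ ≤ 1 := by
  rw [Real.norm_eq_abs, abs_of_nonneg (bmp a ha).nonneg]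
  exact (bmp a ha).le_one

theorem exists_Theta {a : ℝ} (ha : 0 < a) :
    ∃ K, 0 ≤ K ∧ ∀ s, J1 (bmp a ha) s 1 K ∧ JB (Theta a ha) s (2 * a) 1 K := by
  obtain ⟨K, hK, h⟩ := exists_deriv_bmp_le ha
  have h1 : ∀ s, J1 (bmp a ha) s 1 K := fun s => ⟨(bmp a ha).contDiff.contDiffAt,
    norm_bmp_le ha s, by rw [← norm_deriv_eq_norm_fderiv]; exact h s⟩
  refine ⟨K, hK, fun s => ⟨h1 s, ?_⟩⟩
  have h2 := J1.bilin (ContinuousLinearMap.lsmul ℝ ℝ) ContinuousLinearMap.opNorm_lsmul_le (h1 s)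
    (JB.const (ContinuousLinearMap.id ℝ ℝ) s).j1
  refine (JB.of_d (Theta_le ha s) (Eventually.of_forall fun y => ?_) h2).mono le_rfl (by simp)
    (by simp)
  refine (hasDerivAt_Theta ha y).hasFDerivAt.congr_fderiv ?_
  ext
  simp

variable {P E : Type*} [NormedAddCommGroup P] [NormedSpace ℝ P] [FiniteDimensional ℝ P]
  [NormedAddCommGroup E] [InnerProductSpace ℝ E] [FiniteDimensional ℝ E]

theorem J1.inv_norm {u : E} (hu : 1 ≤ ‖u‖) : J1 (fun u : E => ‖u‖⁻¹) u 1 1 := by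
  have h0 : ‖u‖ ≠ 0 := by positivity
  have h1 : J1 (fun s : ℝ => s⁻¹) ‖u‖ 1 1 := ⟨contDiffAt_inv ℝ h0, by
    rw [norm_inv, norm_norm]; exact inv_le_one_of_one_le₀ hu, by
    rw [← norm_deriv_eq_norm_fderiv, deriv_inv, norm_neg, norm_inv, norm_pow, norm_norm]
    exact inv_le_one_of_one_le₀ (one_le_pow₀ hu)⟩
  simpa using h1.comp (contDiffAt_norm ℝ (norm_ne_zero_iff.1 h0))
    (norm_fderiv_le_of_lipschitz ℝ lipschitzWith_one_norm)

/-- the joint second derivative controls the Hessian of the slices -/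
theorem hess_slice {V : P × E → ℝ} (hV : ContDiff ℝ 2 V) (a : P) (y : E) :
    grad (fun y => V (a, y)) = (fun y => gy V (a, y)) ∧
    fderiv ℝ (grad fun y => V (a, y)) y =
      (gL P E).comp ((fderiv ℝ (fderiv ℝ V) (a, y)).comp (ContinuousLinearMap.inr ℝ P E)) := by
  have h1 : grad (fun y => V (a, y)) = fun y => gy V (a, y) :=
    funext fun y => grad_slice (hV.differentiable (by simp) _)
  refine ⟨h1, ?_⟩
  rw [h1]
  exact ((gL P E).hasFDerivAt.comp y (hasFDerivAt_slice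
    ((hV.fderiv_right (m := 1) (by norm_num)).differentiable (by simp) _))).fderiv

namespace Lev

variable {f : P × E → ℝ} {M : ℝ} {q : ℕ} (h : Lev f M q)
include h

theorem j1_nd {z : P × E} (hz : f z = 0) :
    J1 (nd f) z (M * (1 + ‖z.2‖) ^ q) (2 * (M * (1 + ‖z.2‖) ^ q) ^ 2) := by
  have h1 : J1 (fderiv ℝ f) z _ _ := ⟨h.cd_fderiv.contDiffAt, h.d1 z hz, h.d2 z hz⟩
  have h2 : J1 (gy f) z _ _ := ((JB.clm (gL P E) _).j1.comp h1.cd h1.b1)
  have h3 := J1.bilin (ContinuousLinearMap.lsmul ℝ ℝ) ContinuousLinearMap.opNorm_lsmul_le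
    ((J1.inv_norm (h.low z hz)).comp h2.cd h2.b1) h1
  have h4 : 1 ≤ M * (1 + ‖z.2‖) ^ q :=
    one_le_mul_of_one_le_of_one_le h.one_le (one_le_pow₀ (by linarith [norm_nonneg z.2]))
  refine J1.mono h3 (by simp) ?_
  have := mul_le_mul_of_nonneg_right (opNorm_gL_le (P := P) (E := E)) (by positivity :
    0 ≤ M * (1 + ‖z.2‖) ^ q * (M * (1 + ‖z.2‖) ^ q))
  nlinarith

theorem t_le {z : P × E} (hz : z ∈ tub f M) : |(ft f M z).2| * M ≤ 1 / 4 := by
  have := (ft_foot hz).2.1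
  rw [lt_div_iff₀ (by linarith [h.pos])] at this
  linarith

theorem dist_ft {z : P × E} (hz : z ∈ tub f M) : ‖z.2 - (ft f M z).1‖ = |(ft f M z).2| := by
  obtain ⟨h1, -, h2⟩ := ft_foot hz
  rw [sub_eq_of_eq_add' h2, norm_smul, h.norm_nn h1, mul_one, Real.norm_eq_abs]

theorem wt_le {z : P × E} (hz : z ∈ tub f M) :
    M * (1 + ‖(ft f M z).1‖) ^ q ≤ M * 2 ^ q * (1 + ‖z.2‖) ^ q := by
  have h1 := norm_sub_norm_le (ft f M z).1 z.2
  rw [norm_sub_rev, h.dist_ft hz] at h1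
  have h2 := h.t_le hz
  have h3 := h.one_le
  rw [mul_assoc, ← mul_pow]
  gcongr
  nlinarith [abs_nonneg (ft f M z).2, norm_nonneg z.2]

theorem dq_le {z : P × E} (hz : z ∈ tub f M) (u : P × E) : ‖(fderiv ℝ (ft f M) z u).1‖ ≤
    2 * (‖u.2‖ + |(fderiv ℝ (ft f M) z u).2| +
      ‖fderiv ℝ (nn f) (z.1, (ft f M z).1) (u.1, 0)‖) := by
  have h0 := (ft_foot hz).1
  have h1 := (h.dft hz u).2
  set d := fderiv ℝ (ft f M) z u
  set A := fderiv ℝ (nn f) (z.1, (ft f M z).1)
  have h2 : d.1 = u.2 - d.2 • nn f (z.1, (ft f M z).1) - (ft f M z).2 • A (u.1, 0)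
      - (ft f M z).2 • A (0, d.1) := by
    have : A (u.1, d.1) = A (u.1, 0) + A (0, d.1) := by rw [← map_add]; simp
    rw [h1, this, smul_add]
    abel
  have h3 := (norm_sub_le _ _).trans (add_le_add_left ((norm_sub_le _ _).trans
    (add_le_add_left (norm_sub_le u.2 (d.2 • nn f (z.1, (ft f M z).1)))
      ‖(ft f M z).2 • A (u.1, 0)‖)) ‖(ft f M z).2 • A (0, d.1)‖)
  rw [← h2] at h3
  simp only [norm_smul, Real.norm_eq_abs, h.norm_nn h0] at h3
  have h4 := mul_le_mul_of_nonneg_left (h.norm_dnn h0 d.1) (abs_nonneg (ft f M z).2)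
  have h5 := h.t_le hz
  have h6 : |(ft f M z).2| ≤ 1 := by nlinarith [h.one_le, abs_nonneg (ft f M z).2]
  have h7 := mul_le_of_le_one_left (norm_nonneg (A (u.1, 0))) h6
  nlinarith [norm_nonneg d.1]

theorem hasFDerivAt_t {z : P × E} (hz : z ∈ tub f M) :
    HasFDerivAt (fun z => (ft f M z).2) (nd f (z.1, (ft f M z).1)) z :=
  ((h.cd_ft hz).differentiableAt one_ne_zero).hasFDerivAt.snd.congr_fderiv
    (ContinuousLinearMap.ext fun u => (h.dft hz u).1)

theorem jb_t {z : P × E} (hz : z ∈ tub f M) : JB (fun z => (ft f M z).2) z 1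
    (M * 2 ^ q * (1 + ‖z.2‖) ^ q) (16 * (M * 2 ^ q * (1 + ‖z.2‖) ^ q) ^ 4) := by
  have h0 := (ft_foot hz).1
  have hw := h.wt_le hz
  set W := M * 2 ^ q * (1 + ‖z.2‖) ^ q
  have hW : 1 ≤ W := le_trans (one_le_mul_of_one_le_of_one_le h.one_le
    (one_le_pow₀ (by linarith [norm_nonneg (ft f M z).1]))) hw
  have h1 : J1 (nd f) (z.1, (ft f M z).1) W (2 * W ^ 2) :=
    (h.j1_nd h0).mono hw (by have := h.pos; gcongr)
  have h2 := (JB.clm (gL P E) _).j1.comp h1.cd h1.b1
  have hd := ((h.cd_ft hz).differentiableAt one_ne_zero).hasFDerivAt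
  have h3 : ‖fderiv ℝ (fun z : P × E => (z.1, (ft f M z).1)) z‖ ≤ 8 * W ^ 2 := by
    rw [((hasFDerivAt_fst (𝕜 := ℝ) (p := z)).prodMk hd.fst).fderiv]
    refine ContinuousLinearMap.opNorm_le_bound _ (by positivity) fun u => ?_
    have a1 := h.dq_le hz u
    have a2 : |(fderiv ℝ (ft f M) z u).2| ≤ W * ‖u‖ := by
      rw [(h.dft hz u).1]
      exact (nd f _).le_of_opNorm_le h1.b0 u
    have a3 : ‖fderiv ℝ (nn f) (z.1, (ft f M z).1) (u.1, 0)‖ ≤ 1 * (2 * W ^ 2) * ‖u‖ :=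
      (ContinuousLinearMap.le_of_opNorm_le _ (h2.b1.trans
        (mul_le_mul_of_nonneg_right opNorm_gL_le (by positivity))) _).trans
        (mul_le_mul_of_nonneg_left (by simpa using norm_fst_le u) (by positivity))
    have a4 : ‖u‖ ≤ W ^ 2 * ‖u‖ := le_mul_of_one_le_left (norm_nonneg _) (one_le_pow₀ hW)
    have a5 : W * ‖u‖ ≤ W ^ 2 * ‖u‖ := mul_le_mul_of_nonneg_right (by nlinarith) (norm_nonneg _)
    refine max_le ((norm_fst_le u).trans (by nlinarith [norm_nonneg u])) ?_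
    change ‖(fderiv ℝ (ft f M) z u).1‖ ≤ _
    nlinarith [norm_snd_le u]
  refine (JB.of_d ?_ ((h.tub_nhds hz).mono fun y hy => h.hasFDerivAt_t hy)
    (J1.comp (f := fun z : P × E => (z.1, (ft f M z).1)) h1
      (contDiffAt_fst.prodMk (h.cd_ft hz).fst) h3)).mono le_rfl le_rfl (le_of_eq (by ring))
  rw [Real.norm_eq_abs]
  nlinarith [h.t_le hz, h.one_le, abs_nonneg (ft f M z).2]

theorem al_pos : 0 < 1 / (32 * M) := by
  have := h.pos
  positivity

/-- the truncated signed distance -/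
noncomputable def sd (z : P × E) : ℝ := Theta _ h.al_pos (ft f M z).2

theorem ft_far {z : P × E} (hz : ∀ v, Foot f M z v → 1 / (8 * M) < |v.2|) :
    (0 < f z → 2 * (1 / (32 * M)) ≤ (ft f M z).2) ∧
      (f z < 0 → 2 * (1 / (32 * M)) ≤ -(ft f M z).2) := by
  have hM := h.one_le
  have h0 : 2 * (1 / (32 * M)) ≤ 1 / (8 * M) := by
    rw [mul_one_div, div_le_div_iff₀ (by positivity) (by positivity)]
    linarith
  have h1 : 1 / (8 * M) ≤ 1 := by
    rw [div_le_one (by positivity)]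
    linarith
  by_cases ht : z ∈ tub f M
  · obtain ⟨a1, a2, a3⟩ := h.foot_sign (ft_foot ht)
    have a4 := hz _ (ft_foot ht)
    constructor <;> intro hf
    · rw [abs_of_nonneg (not_lt.1 fun a => (a2 a).not_gt hf)] at a4
      linarith
    · rw [abs_of_nonpos (not_lt.1 fun a => (a1 a).not_gt hf)] at a4
      linarith
  · have ht' : ¬∃ v, Foot f M z v := ht
    rw [ft, dif_neg ht']
    constructor <;> intro hf
    · rw [if_pos hf]
      linarith
    · rw [if_neg hf.not_gt]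
      linarith

theorem far {z : P × E} (hz : z ∉ tub f M) :
    ∀ᶠ y in 𝓝 z, ∀ v, Foot f M y v → 1 / (8 * M) < |v.2| := by
  have hc := h.cd.continuous
  have hg := h.cd_gy.continuous
  have h1 := ((isCompact_sphere (0 : E) 1).prod (isCompact_closedBall (0 : ℝ)
    (1 / (8 * M)))).eventually_forall_of_forall_eventually (x₀ := z)
    (P := fun y k => ¬(f (y.1, y.2 - k.2 • k.1) = 0 ∧
      gy f (y.1, y.2 - k.2 • k.1) = ‖gy f (y.1, y.2 - k.2 • k.1)‖ • k.1)) fun k hk => by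
      refine ((isClosed_eq (by fun_prop) continuous_const).inter
        (isClosed_eq (by fun_prop) (by fun_prop))).isOpen_compl.mem_nhds ?_
      rintro ⟨a1, a2⟩
      simp only [mem_ofPred_eq] at a1 a2
      refine hz ⟨(z.2 - k.2 • k.1, k.2), a1, ?_, ?_⟩
      · refine lt_of_le_of_lt (mem_closedBall_zero_iff.1 hk.2) ?_
        exact one_div_lt_one_div_of_lt (by linarith [h.pos]) (by linarith [h.pos])
      · rw [nn_eq, a2, norm_smul, norm_norm, mem_sphere_zero_iff_norm.1 hk.1, mul_one, smul_smul,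
          smul_smul, mul_assoc, inv_mul_cancel₀ (norm_ne_zero_iff.2 (h.gy_ne a1))]
        simp
  filter_upwards [h1] with y hy v hv
  refine not_le.1 fun hle => hy (nn f (y.1, v.1), v.2)
    ⟨mem_sphere_zero_iff_norm.2 (h.norm_nn hv.1), by simpa using hle⟩ ?_
  simp only [sub_eq_of_eq_add hv.2.2]
  exact ⟨hv.1, h.gy_eq hv.1⟩

theorem sd_const {z : P × E} (hz : z ∉ tub f M) : h.sd =ᶠ[𝓝 z] fun _ => h.sd z := by
  have h0 : f z ≠ 0 := fun a => hz ⟨_, h.foot_self a⟩
  have h1 := (h.ft_far (h.far hz).self_of_nhds)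
  rcases h0.lt_or_gt with a | a
  · filter_upwards [h.far hz, h.cd.continuous.continuousAt.eventually_lt continuousAt_const a]
      with y a1 a2
    have a3 := Theta_far h.al_pos ((h.ft_far a1).2 a2)
    have a4 := Theta_far h.al_pos (h1.2 a)
    rw [Theta_neg] at a3 a4
    exact neg_injective (a3.trans a4.symm)
  · filter_upwards [h.far hz, continuousAt_const.eventually_lt h.cd.continuous.continuousAt a]
      with y a1 a2
    exact (Theta_far h.al_pos ((h.ft_far a1).1 a2)).trans (Theta_far h.al_pos (h1.1 a)).symm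

theorem abs_sd_le (z : P × E) : |h.sd z| ≤ 1 := by
  refine (Theta_le _ _).trans ?_
  rw [mul_one_div, div_le_one (by linarith [h.pos])]
  linarith [h.one_le]

theorem exists_jb : ∃ K, 0 ≤ K ∧ ∀ z : P × E,
    JB h.sd z 1 (K * (1 + ‖z.2‖) ^ (4 * q)) (K * (1 + ‖z.2‖) ^ (4 * q)) := by
  obtain ⟨K, hK, h1⟩ := exists_Theta h.al_pos
  have hM := h.pos
  refine ⟨(K + 16) * (M * 2 ^ q) ^ 4, by positivity, fun z => ?_⟩
  by_cases hz : z ∈ tub f M
  · have hW : 1 ≤ M * 2 ^ q * (1 + ‖z.2‖) ^ q := one_le_mul_of_one_le_of_one_le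
      (one_le_mul_of_one_le_of_one_le h.one_le (one_le_pow₀ one_le_two))
      (one_le_pow₀ (by linarith [norm_nonneg z.2]))
    have e : (K + 16) * (M * 2 ^ q) ^ 4 * (1 + ‖z.2‖) ^ (4 * q)
        = (K + 16) * (M * 2 ^ q * (1 + ‖z.2‖) ^ q) ^ 4 := by ring
    have a1 := pow_le_pow_right₀ hW (show 1 ≤ 4 by norm_num)
    have a2 := pow_le_pow_right₀ hW (show 2 ≤ 4 by norm_num)
    rw [e]
    refine (((h1 _).2.comp (h.jb_t hz)).val (h.abs_sd_le z)).mono le_rfl ?_ ?_
    · nlinarith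
    · nlinarith
  · exact (((JB.const (h.sd z) z).congr (h.sd_const hz)).val (h.abs_sd_le z)).mono le_rfl
      (by positivity) (by positivity)

theorem cd_sd : ContDiff ℝ 2 h.sd := by
  obtain ⟨K, -, h1⟩ := h.exists_jb
  exact contDiff_iff_contDiffAt.2 fun z => (h1 z).cd

theorem small {z : P × E} (hz : |h.sd z| < 1 / (32 * M)) :
    z ∈ tub f M ∧ |(ft f M z).2| < 1 / (32 * M) ∧ h.sd z = (ft f M z).2 := by
  have h1 : |(ft f M z).2| < 1 / (32 * M) := not_le.1 fun a => (Theta_ge _ a).not_gt hz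
  refine ⟨by_contra fun ht => ?_, h1, Theta_eq _ h1.le⟩
  have ht' : ¬∃ v, Foot f M z v := ht
  rw [ft, dif_neg ht', lt_div_iff₀ (by linarith [h.pos])] at h1
  split_ifs at h1 <;> simp only [abs_neg, abs_one] at h1 <;> linarith [h.one_le]

theorem sd_zero (z : P × E) : h.sd z = 0 ↔ f z = 0 := by
  refine ⟨fun a => ?_, fun a => ?_⟩
  · obtain ⟨a1, -, a2⟩ := h.small (z := z) (by simpa only [a, abs_zero] using h.al_pos)
    exact (h.foot_sign (ft_foot a1)).2.2 (a2.symm.trans a)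
  · rw [sd, h.ft_eq (h.foot_self a)]
    exact Theta_eq _ (by simpa using h.al_pos.le)

theorem fderiv_sd {z : P × E} (hz : z ∈ tub f M) :
    fderiv ℝ h.sd z = bmp _ h.al_pos (ft f M z).2 • nd f (z.1, (ft f M z).1) :=
  ((hasDerivAt_Theta _ _).comp_hasFDerivAt z (h.hasFDerivAt_t hz)).fderiv

theorem fderiv_sd_zero {z : P × E} (hz : f z = 0) : fderiv ℝ h.sd z = nd f z := by
  rw [h.fderiv_sd ⟨_, h.foot_self hz⟩, h.ft_eq (h.foot_self hz),
    bmp_one _ (by simpa using h.al_pos.le), one_smul]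

theorem gy_sd {z : P × E} (hz : z ∈ tub f M) :
    gy h.sd z = bmp _ h.al_pos (ft f M z).2 • nn f (z.1, (ft f M z).1) := by
  rw [gy, h.fderiv_sd hz, map_smul]
  rfl

theorem hasFDerivAt_nn {a : P} {y : E} (hz : (a, y) ∈ tub f M) :
    HasFDerivAt (fun y => nn f (a, (ft f M (a, y)).1))
      (((fderiv ℝ (nn f) (a, (ft f M (a, y)).1)).comp (ContinuousLinearMap.inr ℝ P E)).comp
        ((ContinuousLinearMap.fst ℝ E ℝ).comp
          ((fderiv ℝ (ft f M) (a, y)).comp (ContinuousLinearMap.inr ℝ P E)))) y :=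
  HasFDerivAt.comp (g := fun p => nn f (a, p)) y
    (hasFDerivAt_slice ((h.cd_nn (ft_foot hz).1).differentiableAt one_ne_zero))
    (hasFDerivAt_slice ((h.cd_ft hz).differentiableAt one_ne_zero)).fst

theorem dt_slice {z : P × E} (hz : z ∈ tub f M) (v : E) :
    (fderiv ℝ (ft f M) z (0, v)).2 = ⟪nn f (z.1, (ft f M z).1), v⟫ :=
  (h.dft hz _).1.trans (inner_gL _ _).symm

theorem j1_nn {a : P} {y : E} (hz : (a, y) ∈ tub f M) :
    J1 (fun y => nn f (a, (ft f M (a, y)).1)) y 1 (8 * M) := by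
  have h0 := (ft_foot hz).1
  have hM := h.pos
  refine ⟨ContDiffAt.comp (g := nn f) y (h.cd_nn h0) (contDiffAt_const.prodMk
    ((h.cd_ft hz).comp y (contDiffAt_const.prodMk contDiffAt_id)).fst), (h.norm_nn h0).le, ?_⟩
  rw [(h.hasFDerivAt_nn hz).fderiv]
  refine ContinuousLinearMap.opNorm_le_bound _ (by positivity) fun v => ?_
  have a1 := h.dq_le hz (0, v)
  rw [h.dt_slice hz, Prod.mk_zero_zero, map_zero, norm_zero] at a1
  have a2 := abs_real_inner_le_norm (nn f (a, (ft f M (a, y)).1)) v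
  rw [h.norm_nn h0] at a2
  refine (h.norm_dnn h0 _).trans ?_
  change 2 * M * ‖(fderiv ℝ (ft f M) (a, y) (0, v)).1‖ ≤ _
  nlinarith

theorem slice_ev {a : P} {y : E} {p : P × E → Prop} (hp : ∀ᶠ z in 𝓝 (a, y), p z) :
    ∀ᶠ x in 𝓝 y, p (a, x) := (Continuous.prodMk_right a).continuousAt.eventually hp

theorem exists_tube : ∃ K, ∀ a, Tube0 (fun y => h.sd (a, y)) (1 / (32 * M)) K := by
  obtain ⟨K, hK, h1⟩ := exists_Theta h.al_pos
  have hM := h.one_le
  refine ⟨K + 8 * M, fun a => ?_⟩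
  have e := (hess_slice h.cd_sd a 0).1
  have key : ∀ y, J1 (fun y => gy h.sd (a, y)) y 1 (K + 8 * M) ∧ |⟪y, gy h.sd (a, y)⟫| ≤ M + 1 := by
    intro y
    by_cases hz : (a, y) ∈ tub f M
    · have h0 := (ft_foot hz).1
      have a1 : ‖fderiv ℝ (fun y => (ft f M (a, y)).2) y‖ ≤ 1 := by
        rw [(hasFDerivAt_slice (h.hasFDerivAt_t hz).differentiableAt).fderiv,
          (h.hasFDerivAt_t hz).fderiv]
        refine ContinuousLinearMap.opNorm_le_bound _ zero_le_one fun v => ?_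
        refine (congrArg abs (inner_gL (nd f (a, (ft f M (a, y)).1)) v).symm).le.trans
          ((abs_real_inner_le_norm _ _).trans ?_)
        exact mul_le_mul_of_nonneg_right (h.norm_nn h0).le (norm_nonneg _)
      have a2 := J1.bilin (ContinuousLinearMap.lsmul ℝ ℝ) ContinuousLinearMap.opNorm_lsmul_le
        ((h1 _).1.comp ((h.cd_ft hz).comp y (contDiffAt_const.prodMk contDiffAt_id)).snd a1)
        (h.j1_nn hz)
      refine ⟨(a2.congr ((h.slice_ev (h.tub_nhds hz)).mono fun x hx => h.gy_sd hx)).mono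
        (by simp) (by simp), ?_⟩
      have a3 := h.rad _ h0
      have a4 := h.t_le hz
      have a5 : ⟪y, nn f (a, (ft f M (a, y)).1)⟫
          = ⟪(ft f M (a, y)).1, nn f (a, (ft f M (a, y)).1)⟫ + (ft f M (a, y)).2 := by
        refine (congrArg (fun x => ⟪x, nn f (a, (ft f M (a, y)).1)⟫) (ft_foot hz).2.2).trans ?_
        rw [inner_add_left, real_inner_smul_left, real_inner_self_eq_norm_sq, h.norm_nn h0]
        simp
      rw [h.gy_sd hz, real_inner_smul_right, abs_mul, a5]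
      refine (mul_le_of_le_one_left (abs_nonneg _) (norm_bmp_le _ _)).trans
        ((abs_add_le _ _).trans (add_le_add a3 ?_))
      nlinarith [abs_nonneg (ft f M (a, y)).2]
    · have a1 : (fun y => gy h.sd (a, y)) =ᶠ[𝓝 y] fun _ => 0 :=
        (h.slice_ev ((h.sd_const hz).fderiv (𝕜 := ℝ))).mono fun x hx => by simp [gy, hx]
      refine ⟨(JB.zero a1).j1.mono zero_le_one (by positivity), ?_⟩
      rw [a1.eq_of_nhds, inner_zero_right, abs_zero]
      positivity
  refine ⟨h.al_pos, h.cd_sd.comp (contDiff_prodMk_right a), fun y => (h.abs_sd_le _).trans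
    (by linarith), fun y => ?_, fun y => ?_, fun y => ?_, fun y hy => ?_⟩ <;> rw [e]
  · exact (key y).1.b0.trans (by linarith)
  · exact (key y).1.b1
  · exact (key y).2.trans (by linarith)
  · obtain ⟨a1, a2, -⟩ := h.small hy
    simp only [h.gy_sd a1, bmp_one _ a2.le, one_smul, h.norm_nn (ft_foot a1).1]

theorem grad_ev {a : P} {y : E} (hy : |h.sd (a, y)| < 1 / (32 * M)) :
    grad (fun y => h.sd (a, y)) =ᶠ[𝓝 y] fun y => nn f (a, (ft f M (a, y)).1) := by
  filter_upwards [h.slice_ev (h.cd_sd.continuous.abs.continuousAt.eventually_lt continuousAt_const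
    hy)] with x hx
  obtain ⟨a1, a2, -⟩ := h.small hx
  simp only [(hess_slice h.cd_sd a 0).1, h.gy_sd a1, bmp_one _ a2.le, one_smul]

/-- the Riccati equation along normal lines -/
theorem riccati {a : P} {y : E} (hy : |h.sd (a, y)| < 1 / (32 * M)) :
    ∃ p, f (a, p) = 0 ∧ ‖y - p‖ = |h.sd (a, y)| ∧
      |ricE (fun y => h.sd (a, y)) y - ricE (fun y => h.sd (a, y)) p|
        ≤ Module.finrank ℝ E * (8 * M) ^ 3 * h.sd (a, y) ^ 2 := by
  obtain ⟨a1, -, a2⟩ := h.small hy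
  obtain ⟨b1, -, b2⟩ := ft_foot a1
  refine ⟨_, b1, a2 ▸ h.dist_ft a1, ?_⟩
  have hp : h.sd (a, (ft f M (a, y)).1) = 0 := (h.sd_zero _).2 b1
  have hp' : |h.sd (a, (ft f M (a, y)).1)| < 1 / (32 * M) := by
    simpa only [hp, abs_zero] using h.al_pos
  have c1 : (a, (ft f M (a, y)).1) ∈ tub f M := ⟨_, h.foot_self b1⟩
  have c2 := h.ft_eq (h.foot_self b1)
  have n1 := (h.j1_nn a1).b1
  have n2 := (h.j1_nn c1).b1
  have d1 := fun v => (h.dft a1 (0, v)).2
  have d2 := fun v => (h.dft c1 (0, v)).2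
  unfold ricE
  rw [(h.grad_ev hy).fderiv_eq, (h.grad_ev hp').fderiv_eq, (h.grad_ev hy).eq_of_nhds,
    (h.grad_ev hp').eq_of_nhds]
  beta_reduce
  rw [hp, a2]
  rw [(h.hasFDerivAt_nn a1).fderiv] at n1 ⊢
  rw [(h.hasFDerivAt_nn c1).fderiv] at n2 ⊢
  simp only [h.dt_slice a1, h.dt_slice c1, c2, zero_smul, add_zero] at d1 d2 n2 ⊢
  have i0 := h.inner_dnn b1
  have i1 := h.norm_nn b1
  simp only at b2 i0 i1
  set p := (ft f M (a, y)).1
  set t := (ft f M (a, y)).2
  set ν := nn f (a, p)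
  set A := (fderiv ℝ (nn f) (a, p)).comp (ContinuousLinearMap.inr ℝ P E)
  set D := (ContinuousLinearMap.fst ℝ E ℝ).comp
    ((fderiv ℝ (ft f M) (a, y)).comp (ContinuousLinearMap.inr ℝ P E))
  set D0 := (ContinuousLinearMap.fst ℝ E ℝ).comp
    ((fderiv ℝ (ft f M) (a, p)).comp (ContinuousLinearMap.inr ℝ P E))
  have e0 : ∀ v, D0 v = v - ⟪ν, v⟫ • ν := fun v => eq_sub_of_add_eq (d2 v).symm
  have e1 : ∀ v, D0 (A v) = A v := fun v => by
    rw [e0, show ⟪ν, A v⟫ = 0 from i0 _, zero_smul, sub_zero]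
  have e2 : A.comp D0 = A.comp D + t • (A.comp D0).comp (A.comp D) := by
    ext v
    have e3 : D0 v = D v + t • A (D v) := by
      rw [e0, sub_eq_iff_eq_add, add_right_comm]
      exact d1 v
    simp only [ContinuousLinearMap.comp_apply, add_apply, smul_apply, e1]
    rw [e3, map_add, map_smul]
  set B := A.comp D
  set B0 := A.comp D0
  have e3 : tr (B0.comp B) = tr (B.comp B) + t * tr ((B0.comp B).comp B) := by
    conv_lhs => rw [e2]
    rw [ContinuousLinearMap.add_comp, ContinuousLinearMap.smul_comp, tr_add, tr_smul]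
  have e4 : tr B0 = tr B + t * tr (B0.comp B) := by
    conv_lhs => rw [e2]
    rw [tr_add, tr_smul]
  have e5 : ⟪y, ν⟫ = ⟪p, ν⟫ + t := by
    refine (congrArg (fun x => ⟪x, ν⟫) b2).trans ?_
    rw [inner_add_left, real_inner_smul_left, real_inner_self_eq_norm_sq, i1]
    simp
  have e6 : |tr ((B0.comp B).comp B)| ≤ Module.finrank ℝ E * (8 * M) ^ 3 := by
    refine (abs_tr_le _).trans (mul_le_mul_of_nonneg_left ?_ (Nat.cast_nonneg _))
    refine (ContinuousLinearMap.opNorm_comp_le _ _).trans ((mul_le_mul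
      ((ContinuousLinearMap.opNorm_comp_le _ _).trans (mul_le_mul n2 n1 (norm_nonneg _)
        (by linarith [h.pos]))) n1 (norm_nonneg _) (by nlinarith [h.pos])).trans (le_of_eq ?_))
    ring
  rw [e4, e3, e5, show ∀ x y z u s : ℝ, x - 1 / 2 * (y + t) + (z + 1 / 2) * t -
    (x + t * (z + t * u) - 1 / 2 * y + s * 0) = -(u * t ^ 2) from fun _ _ _ _ _ => by ring,
    abs_neg, abs_mul, abs_sq]
  exact mul_le_mul_of_nonneg_right e6 (sq_nonneg _)

end Lev

section fam

variable [MeasurableSpace E] [BorelSpace E] {V : P × E → ℝ} {K c : ℝ} {q : ℕ}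

/-- the derivative of the family at `a = 0` -/
noncomputable def vel0 (V : P × E → ℝ) : P →ₗ[ℝ] (E → ℝ) where
  toFun b y := fderiv ℝ V (0, y) (b, 0)
  map_add' b b' := funext fun y => by
    rw [Pi.add_apply, ← map_add]
    simp
  map_smul' t b := funext fun y => by
    rw [Pi.smul_apply, ← map_smul]
    simp

theorem fam_c2 (hV : ContDiff ℝ 2 V) : C2Lim (𝓝 (0 : P)) (fun a y => V (a, y)) fun y => V (0, y) := by
  intro R ε hε
  have h1 := hV.continuous
  have h2 := hV.continuous_fderiv two_ne_zero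
  have h3 := (hV.fderiv_right (m := 1) (by norm_num)).continuous_fderiv one_ne_zero
  simp only [fun a y => (hess_slice hV a y).2]
  simp only [fun a => (hess_slice hV a 0).1, gy]
  have := (isCompact_closedBall (0 : E) R).eventually_forall_of_forall_eventually (x₀ := (0 : P))
    (P := fun a x => |V (a, x) - V (0, x)| < ε ∧
      ‖gL P E (fderiv ℝ V (a, x)) - gL P E (fderiv ℝ V (0, x))‖ < ε ∧
      ‖(gL P E).comp ((fderiv ℝ (fderiv ℝ V) (a, x)).comp (ContinuousLinearMap.inr ℝ P E)) -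
       (gL P E).comp ((fderiv ℝ (fderiv ℝ V) (0, x)).comp (ContinuousLinearMap.inr ℝ P E))‖ < ε)
    fun x _ => by
      refine Eventually.and ?_ (Eventually.and ?_ ?_) <;>
        exact ContinuousAt.eventually_lt (by fun_prop) continuousAt_const (by simpa using hε)
  exact this.mono fun a ha x hx => (ha x (mem_closedBall_zero_iff.2 hx)).imp le_of_lt
    (And.imp le_of_lt le_of_lt)

variable (hV : ∀ z : P × E, JB V z c (K * (1 + ‖z.2‖) ^ q) (K * (1 + ‖z.2‖) ^ q))
include hV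

theorem fam_cd : ContDiff ℝ 2 V := contDiff_iff_contDiffAt.2 fun z => (hV z).cd

theorem fam_dcont (b : P) : Continuous (vel0 V b) := by
  have h2 := (fam_cd hV).continuous_fderiv two_ne_zero
  change Continuous fun y => fderiv ℝ V (0, y) (b, 0)
  fun_prop

theorem fam_db (b : P) (y : E) : |vel0 V b y| ≤ K * ‖b‖ * (1 + ‖y‖) ^ q :=
  ((fderiv ℝ V (0, y)).le_of_opNorm_le (hV (0, y)).b1 (b, 0)).trans (le_of_eq (by simp; ring))

theorem fam_lip (a : P) (y : E) :
    ‖fderiv ℝ V (a, y) - fderiv ℝ V (0, y)‖ ≤ K * (1 + ‖y‖) ^ q * ‖a‖ := by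
  have := (convex_univ.prod (convex_singleton y)).norm_image_sub_le_of_norm_hasFDerivWithin_le
    (fun z _ => (hV z).d.has.hasFDerivWithinAt) (C := K * (1 + ‖y‖) ^ q)
    (fun z hz => (show z.2 = y from hz.2) ▸ (hV z).b2) (x := (0, y)) (y := (a, y))
    ⟨trivial, rfl⟩ ⟨trivial, rfl⟩
  simpa using this

theorem fam_strict (ε : ℝ) (hε : 0 < ε) : ∀ᶠ p : P × P in 𝓝 0, ∀ x,
    |V (p.2, x) - V (p.1, x) - vel0 V (p.2 - p.1) x| ≤ ε * ‖p.2 - p.1‖ * (1 + ‖x‖) ^ q := by
  have hK : 0 ≤ K := by simpa using (hV 0).n1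
  filter_upwards [closedBall_mem_nhds (0 : P × P) (show 0 < ε / (K + 1) by positivity)] with p hp x
  rw [mem_closedBall_zero_iff] at hp
  have := ((convex_closedBall (0 : P) (ε / (K + 1))).prod
    (convex_singleton x)).norm_image_sub_le_of_norm_hasFDerivWithin_le'
    (fun z _ => (hV z).has.hasFDerivWithinAt) (C := ε * (1 + ‖x‖) ^ q) (φ := fderiv ℝ V (0, x))
    (fun z hz => by
      obtain ⟨a, y⟩ := z
      obtain rfl : y = x := hz.2
      have h1 : ‖a‖ ≤ ε / (K + 1) := mem_closedBall_zero_iff.1 hz.1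
      rw [le_div_iff₀ (by positivity)] at h1
      refine (fam_lip hV a y).trans ?_
      rw [mul_right_comm]
      exact mul_le_mul_of_nonneg_right (by nlinarith [norm_nonneg a]) (by positivity))
    (x := (p.1, x)) (y := (p.2, x))
    ⟨mem_closedBall_zero_iff.2 ((norm_fst_le p).trans hp), rfl⟩
    ⟨mem_closedBall_zero_iff.2 ((norm_snd_le p).trans hp), rfl⟩
  simpa [mul_right_comm, vel0] using this

end fam

end Vale.Agent.P218N.D6
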