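import Vale.Agent.P218N.D6.Stm

/-! Block D6: the cutoffs and the terms of the glued series. -/

open Set Filter Topology Metric

namespace Vale.Agent.P218N.D6.Ser

open Vale.Agent.P218F

set_option maxSynthPendingDepth 3
set_option linter.unusedSectionVars false

variable {ι : Type} [Fintype ι] [DecidableEq ι]

theorem eta_nonneg (s : ℝ) : 0 ≤ eta s := Real.smoothTransition.nonneg _

theorem eta_le_one (s : ℝ) : eta s ≤ 1 := Real.smoothTransition.le_one _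

theorem eta_eq_zero {s : ℝ} (h : 1 ≤ |s|) : eta s = 0 :=
  Real.smoothTransition.zero_of_nonpos (by nlinarith [sq_abs s])

theorem eta_eq_one {s : ℝ} (h : |s| ≤ 1 / 2) : eta s = 1 :=
  Real.smoothTransition.one_of_one_le (by nlinarith [sq_abs s, abs_nonneg s])

theorem eta_anti {s t : ℝ} (h : |s| ≤ |t|) : eta t ≤ eta s :=
  Real.smoothTransition.monotone (by nlinarith [sq_abs s, sq_abs t, abs_nonneg s])

theorem exists_jb_eta : ∃ K : ℝ, ∀ s, JB eta s 1 K K := by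
  have h : ContDiff ℝ 2 eta := Real.smoothTransition.contDiff.comp (by fun_prop)
  have hc : HasCompactSupport eta := HasCompactSupport.intro (isCompact_Icc (a := -1) (b := 1))
    fun s hs => eta_eq_zero (not_lt.1 fun h' => hs ⟨(abs_lt.1 h').1.le, (abs_lt.1 h').2.le⟩)
  obtain ⟨K1, h1⟩ := (hc.fderiv ℝ).exists_bound_of_continuous (h.continuous_fderiv two_ne_zero)
  obtain ⟨K2, h2⟩ := ((hc.fderiv ℝ).fderiv ℝ).exists_bound_of_continuous
    ((h.fderiv_right (m := 1) (by norm_num)).continuous_fderiv one_ne_zero)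
  exact ⟨max K1 K2, fun s => ⟨h.contDiffAt, by
    rw [Real.norm_of_nonneg (eta_nonneg s)]; exact eta_le_one s, (h1 s).trans (le_max_left ..),
    (h2 s).trans (le_max_right ..)⟩⟩

theorem exists_jb_prod (I : Finset ι) : ∃ K : ℝ, 0 ≤ K ∧ ∀ a : ℝ, 0 ≤ a → ∀ x : ι → ℝ,
    JB (fun x : ι → ℝ => ∏ i ∈ I, eta (x i * a)) x 1 (K * a) (K * a ^ 2) := by
  obtain ⟨k, hk⟩ := exists_jb_eta
  have k0 := (hk 0).n1
  induction I using Finset.induction_on with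
  | empty => exact ⟨0, le_rfl, fun a _ x => by simpa using JB.const (1 : ℝ) x⟩
  | insert i I hi ih =>
    obtain ⟨K, K0, hK⟩ := ih
    refine ⟨k + 2 * (k * K) + K, by positivity, fun a ha x => ?_⟩
    simp only [Finset.prod_insert hi]
    have h1 : JB (fun x : ι → ℝ => x i) x ‖x i‖ 1 0 :=
      (JB.clm (ContinuousLinearMap.proj (R := ℝ) (φ := fun _ : ι => ℝ) i) x).mono le_rfl
        (ContinuousLinearMap.opNorm_le_bound _ zero_le_one fun y => by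
          simpa using norm_le_pi_norm y i) le_rfl
    have h2 := (JB.comp (f := fun x : ι → ℝ => x i * a) (hk _) (h1.mul (JB.const a x))).mul
      (hK a ha x)
    rw [Real.norm_of_nonneg ha] at h2
    have : 0 ≤ k * K * a := by positivity
    exact h2.mono (by simp) (by nlinarith) (le_of_eq (by ring))

variable {I : Finset ι} {c c' r κ C θ : ℝ} {R R1 : ℕ} {x : ι → ℝ} {O : Set R2} {W : R2 → ℝ}
  {good : ℕ → R2 → Prop} {s : R2 → ℝ} {e : R2 → R2} {U : ℕ → (ι → ℂ) → R2 → ℂ} {v : R2}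

theorem abs_arg (hc : 0 < c') (t : ℝ) (R : ℕ) : |t * (R + 1) / c'| = |t| * (R + 1) / c' := by
  rw [abs_div, abs_mul, abs_of_pos hc, abs_of_pos (a := (R : ℝ) + 1) (by positivity)]

theorem Th_nonneg : 0 ≤ Th I c' R x := Finset.prod_nonneg fun _ _ => eta_nonneg _

theorem Th_le_one : Th I c' R x ≤ 1 :=
  Finset.prod_le_one (fun _ _ => eta_nonneg _) fun _ _ => eta_le_one _

theorem Th_anti (hc : 0 < c') : Th I c' (R + 1) x ≤ Th I c' R x :=
  Finset.prod_le_prod (fun _ _ => eta_nonneg _) fun i _ => eta_anti (by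
    rw [abs_arg hc, abs_arg hc]
    gcongr
    simp)

theorem Th_ne (hc : 0 < c') (h : Th I c' R x ≠ 0) : ∀ i ∈ I, |x i| * (R + 1) < c' := fun i hi => by
  have h1 := not_le.1 fun h' => Finset.prod_ne_zero_iff.1 h i hi (eta_eq_zero h')
  rwa [abs_arg hc, div_lt_one hc] at h1

theorem Th_one (hc : 0 < c') (h : ∀ i ∈ I, |x i| * (R + 1) ≤ c' / 2) : Th I c' R x = 1 :=
  Finset.prod_eq_one fun i hi => eta_eq_one (by
    rw [abs_arg hc, div_le_iff₀ hc]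
    linarith [h i hi])

theorem Th_ev (hc : 0 < c') (h : ¬∀ i ∈ I, |x i| * (R + 1) ≤ c') :
    ∀ᶠ y in 𝓝 x, Th I c' R y = 0 := by
  simp only [not_forall, not_le] at h
  obtain ⟨i, hi, h⟩ := h
  have hcont : Continuous fun y : ι → ℝ => |y i| * ((R : ℝ) + 1) := by fun_prop
  filter_upwards [hcont.continuousAt.eventually (lt_mem_nhds h)] with y hy
  by_contra h0
  exact lt_asymm hy (Th_ne hc h0 i hi)

theorem norm_re2c (x : ι → ℝ) : ‖re2c x‖ = ‖x‖ := by simp [Pi.norm_def, re2c]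

theorem re2c_zero : re2c (0 : ι → ℝ) = 0 := funext fun _ => by simp [re2c]

theorem dom_succ (hc : 0 < c) (hR : 1 ≤ R) : Dom I c r (R + 1) ⊆ Dom I c r R := fun ξ hξ =>
  ⟨hξ.1, fun i hi => (hξ.2 i hi).trans_le (by
    have : (0 : ℝ) < R := by exact_mod_cast hR
    gcongr
    simp)⟩

theorem ball_sub {ρ : ℝ} (hR : 1 ≤ R) (h0 : 0 < ρ) (h1 : ρ ≤ r / 2) (h2 : ρ ≤ c / 2)
    (hx : ‖x‖ ≤ r / 2) (h : ∀ i ∈ I, |x i| * R ≤ c / 2) :
    ball (re2c x) (ρ / R) ⊆ Dom I c r R := fun ξ hξ => by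
  have hR' : (1 : ℝ) ≤ R := by exact_mod_cast hR
  rw [mem_ball, dist_eq_norm] at hξ
  have h3 := norm_le_norm_add_norm_sub' ξ (re2c x)
  rw [norm_re2c] at h3
  refine ⟨by linarith [div_le_self h0.le hR'], fun i hi => ?_⟩
  have h4 := norm_le_norm_add_norm_sub' (ξ i) (re2c x i)
  have h5 := (norm_le_pi_norm (ξ - re2c x) i).trans_lt hξ
  rw [lt_div_iff₀ (by positivity)] at h5 ⊢
  have h6 : ‖re2c x i‖ = |x i| := by simp [re2c]
  rw [Pi.sub_apply] at h5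
  rw [h6] at h4
  nlinarith [h i hi]

theorem smul_mem {t : ℂ} (hθ : 0 < θ) (hR : 1 ≤ R) (hc : 0 < c) (hr : 0 < r) (ht : ‖t‖ < 1 / θ)
    (hx : ‖x‖ ≤ θ * r) (h : ∀ i ∈ I, |x i| * R ≤ θ * c) : t • re2c x ∈ Dom I c r R := by
  have hR' : (0 : ℝ) < R := by exact_mod_cast hR
  rw [lt_div_iff₀ hθ] at ht
  have t0 := norm_nonneg t
  refine ⟨?_, fun i hi => ?_⟩
  · rw [norm_smul, norm_re2c]
    nlinarith [mul_le_mul_of_nonneg_left hx t0]
  · have h6 : ‖(t • re2c x) i‖ = ‖t‖ * |x i| := by simp [re2c]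
    rw [h6, lt_div_iff₀ hR']
    nlinarith [mul_le_mul_of_nonneg_left (h i hi) t0]

theorem HolJ_mono {V : (ι → ℂ) → R2 → ℂ} {Ω Ω' : Set (ι → ℂ)} (h : HolJ V Ω v) (hs : Ω' ⊆ Ω) :
    HolJ V Ω' v := ⟨h.h0.mono hs, fun e => (h.h1 e).mono hs, fun e e' => (h.h2 e e').mono hs⟩

theorem HolJ_sub {V V' : (ι → ℂ) → R2 → ℂ} {Ω : Set (ι → ℂ)} (h : HolJ V Ω v) (h' : HolJ V' Ω v)
    (hc : ∀ ξ ∈ Ω, ContDiffAt ℝ 2 (V ξ) v) (hc' : ∀ ξ ∈ Ω, ContDiffAt ℝ 2 (V' ξ) v) :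
    HolJ (fun ξ v => V ξ v - V' ξ v) Ω v := by
  refine ⟨h.h0.sub h'.h0, fun e => ((h.h1 e).sub (h'.h1 e)).congr fun ξ hξ => ?_,
    fun e e' => ((h.h2 e e').sub (h'.h2 e e')).congr fun ξ hξ => ?_⟩
  · rw [((JB.of_cd (hc ξ hξ)).has.fun_sub (JB.of_cd (hc' ξ hξ)).has).fderiv]
    rfl
  · have e1 : (fderiv ℝ fun v => V ξ v - V' ξ v) =ᶠ[𝓝 v]
        fun v => fderiv ℝ (V ξ) v - fderiv ℝ (V' ξ) v := by
      filter_upwards [JB.ev (hc ξ hξ), JB.ev (hc' ξ hξ)] with y h1 h2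
      exact (h1.fun_sub h2).fderiv
    rw [e1.fderiv_eq, ((JB.of_cd (hc ξ hξ)).d.has.fun_sub (JB.of_cd (hc' ξ hξ)).d.has).fderiv]
    rfl

/-- the terms of the series -/
noncomputable def tm (I : Finset ι) (c' : ℝ) (U : ℕ → (ι → ℂ) → R2 → ℂ) (R : ℕ)
    (z : (ι → ℝ) × R2) : ℝ :=
  Th I c' R z.1 * (U (R + 1) (re2c z.1) z.2 - U R (re2c z.1) z.2).re

/-- the size of the terms -/
noncomputable def bb (κ : ℝ) (R : ℕ) : ℝ := (R : ℝ) ^ 2 * Real.exp (-κ * R) + 1 / (R : ℝ) ^ 2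

theorem bb_nonneg : 0 ≤ bb κ R := by
  unfold bb
  positivity

theorem summable_bb (hκ : 0 < κ) : Summable (bb κ) :=
  (Real.summable_pow_mul_exp_neg_nat_mul 2 hκ).add (Real.summable_one_div_nat_pow.2 one_lt_two)

theorem jb_prod {X : Type*} [NormedAddCommGroup X] [NormedSpace ℝ X] {f g : X → ℝ} {z : X}
    {K C0 B ρ a : ℝ} (K0 : 0 ≤ K) (C00 : 0 ≤ C0) (ρ0 : 0 < ρ) (ha : ρ ≤ a)
    (hf : JB f z 1 (K * (a / ρ)) (K * (a / ρ) ^ 2))
    (hg : JB g z B (C0 * B / (ρ / a)) (C0 * B / (ρ / a) ^ 2)) {b : ℝ}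
    (hb : (1 + K + 2 * (K * C0) + C0) * ((a / ρ) ^ 2 * B) ≤ b) :
    JB (fun y => f y * g y) z b b b := by
  have a0 : 0 < a := ρ0.trans_le ha
  have B0 := hg.n0
  have e1 : C0 * B / (ρ / a) = C0 * B * (a / ρ) := by field_simp
  have e2 : C0 * B / (ρ / a) ^ 2 = C0 * B * (a / ρ) ^ 2 := by field_simp
  rw [e1, e2] at hg
  have l1 : 1 ≤ a / ρ := (one_le_div ρ0).2 ha
  generalize a / ρ = l at *
  have q1 : B ≤ l * B := le_mul_of_one_le_left B0 l1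
  have q2 : l * B ≤ l ^ 2 * B := by nlinarith
  have q3 := B0.trans (q1.trans q2)
  refine (hf.mul hg).mono (le_trans ?_ hb) (le_trans ?_ hb) (le_trans ?_ hb)
  · nlinarith [mul_nonneg (show 0 ≤ K + 2 * (K * C0) + C0 by positivity) q3]
  · nlinarith [mul_le_mul_of_nonneg_left q2 (add_nonneg K0 C00),
      mul_nonneg (show 0 ≤ 1 + 2 * (K * C0) by positivity) q3]
  · nlinarith

theorem jb_step (h : SerIn I c r κ C R1 O W good s e U) (hC : 0 ≤ C) (hR : R1 ≤ R) (hv : v ∈ O)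
    {ξ : ι → ℂ} (hξ : ξ ∈ Dom I c r (R + 1)) {B : ℝ}
    (hB : B = 2 * C * W v ^ 8 * (Real.exp (-κ * R) + 1 / (R : ℝ) ^ 4)) :
    JB (fun v => U (R + 1) ξ v - U R ξ v) v B B B := by
  have hR' : (1 : ℝ) ≤ R := by exact_mod_cast h.R11.trans hR
  have W1 := h.W1 v hv
  have W8 : 1 ≤ W v ^ 8 := one_le_pow₀ W1
  have p1 : 0 ≤ C * Real.exp (-κ * R) := by positivity
  have p2 : 0 ≤ C * W v ^ 8 * (1 / (R : ℝ) ^ 4) := by positivity
  by_cases hg : good R v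
  · have : C * Real.exp (-(κ * R)) ≤ B := by
      rw [← neg_mul]
      nlinarith
    exact (h.step R hR ξ hξ v hv hg).mono this this this
  · have h3 : 1 ≤ W v ^ 8 * (1 / (R : ℝ) ^ 4) := by
      rw [mul_one_div, one_le_div (by positivity), show W v ^ 8 = (W v ^ 2) ^ 4 by ring]
      exact pow_le_pow_left₀ (by positivity) (h.bad R hR v hv hg) 4
    have : C + C ≤ B := by nlinarith
    exact ((h.jb _ (by omega) ξ hξ v hv).sub
      (h.jb _ hR ξ (dom_succ h.c0 (h.R11.trans hR) hξ) v hv)).mono this this this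

theorem exists_rho (h : SerIn I c r κ C R1 O W good s e U) (hθ : 0 < θ) :
    ∃ ρ : ℝ, 0 < ρ ∧ ρ ≤ 1 ∧ ρ ≤ r / 2 ∧ ρ ≤ θ * c := by
  have c0 := h.c0
  have r0 := h.r0
  exact ⟨min 1 (min (r / 2) (θ * c)), by positivity, min_le_left .., (min_le_right ..).trans
    (min_le_left ..), (min_le_right ..).trans (min_le_right ..)⟩

theorem jb_tm (hH : HolStmt) (h : SerIn I c r κ C R1 O W good s e U) (hθ : 0 < θ)
    (hθ' : θ ≤ 1 / 2) (hC : 0 ≤ C) : ∃ M : ℝ, 0 ≤ M ∧ ∀ R, R1 ≤ R → ∀ x, ‖x‖ ≤ r / 2 → ∀ v ∈ O,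
      JB (tm I (θ * c) U R) (x, v) (M * bb κ R * W v ^ 8) (M * bb κ R * W v ^ 8)
        (M * bb κ R * W v ^ 8) := by
  obtain ⟨C0, C00, hH⟩ := hH ι
  obtain ⟨K, K0, hK⟩ := exists_jb_prod I
  have c0 := h.c0
  have hc' : θ * c ≤ c / 2 := by nlinarith
  obtain ⟨ρ, ρ0, ρ1, ρ2, ρ3⟩ := exists_rho h hθ
  refine ⟨(1 + K + 2 * (K * C0) + C0) * (8 * C / ρ ^ 2), by positivity, fun R hR x hx v hv => ?_⟩
  have W1 := h.W1 v hv
  have b0 : 0 ≤ bb κ R := bb_nonneg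
  by_cases hx' : ∀ i ∈ I, |x i| * (R + 1) ≤ θ * c
  swap
  · refine (JB.zero ?_).mono (by positivity) (by positivity) (by positivity)
    filter_upwards [continuousAt_fst.eventually (Th_ev (x := (x, v).1) (by positivity) hx')]
      with z hz
    simp only [tm, hz, zero_mul]
  have hR' : (1 : ℝ) ≤ R := by exact_mod_cast h.R11.trans hR
  have s1 := ball_sub (I := I) (c := c) (R := R + 1) (by omega) ρ0 ρ2 (ρ3.trans hc') hx
    fun i hi => by simpa using (hx' i hi).trans hc'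
  rw [Nat.cast_add_one] at s1
  have s2 := s1.trans (dom_succ c0 (h.R11.trans hR))
  have hR2 : R1 ≤ R + 1 := by omega
  have j2 := hH (fun ξ v => U (R + 1) ξ v - U R ξ v) x v O (ρ / (R + 1)) _ (C + C)
    (by positivity) ((div_le_self ρ0.le (by simp)).trans ρ1) (h.op.mem_nhds hv)
    (fun v' hv' => HolJ_sub (HolJ_mono (h.hol _ hR2 v' hv') s1) (HolJ_mono (h.hol _ hR v' hv') s2)
      (fun ξ hξ => (h.jb _ hR2 ξ (s1 hξ) v' hv').cd) fun ξ hξ => (h.jb _ hR ξ (s2 hξ) v' hv').cd)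
    (fun ξ hξ v' hv' => (h.jb _ hR2 ξ (s1 hξ) v' hv').sub (h.jb _ hR ξ (s2 hξ) v' hv'))
    fun ξ hξ => jb_step h hC hR hv (s1 hξ) rfl
  have a1 : ((R : ℝ) + 1) / (θ * c) ≤ (R + 1) / ρ := by gcongr
  have j3 : JB (Th I (θ * c) R) (x, v).1 1 (K * ((R + 1) / ρ)) (K * ((R + 1) / ρ) ^ 2) := by
    refine ((hK ((R + 1) / (θ * c)) (by positivity) x).mono le_rfl (by gcongr)
      (by gcongr)).congr (Eventually.of_forall fun y => ?_)
    simp only [Th, mul_div_assoc]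
  refine jb_prod K0 C00 ρ0 (by linarith) j3.comp_fst j2 ?_
  have g1 : (((R : ℝ) + 1) / ρ) ^ 2 ≤ 4 * R ^ 2 / ρ ^ 2 := by
    rw [div_pow]
    gcongr
    nlinarith
  rw [mul_assoc _ (8 * C / ρ ^ 2), mul_assoc _ (8 * C / ρ ^ 2 * _)]
  refine mul_le_mul_of_nonneg_left ((mul_le_mul_of_nonneg_right g1 j2.n0).trans (le_of_eq ?_))
    (by positivity)
  rw [bb]
  field_simp
  ring

theorem jb_first (hH : HolStmt) (h : SerIn I c r κ C R1 O W good s e U) (hC : 0 ≤ C) :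
    ∃ M : ℝ, 0 ≤ M ∧ ∀ x, ‖x‖ ≤ r / 2 → (∀ i ∈ I, |x i| * R1 ≤ c / 2) → ∀ v ∈ O,
      JB (fun z : (ι → ℝ) × R2 => (U R1 (re2c z.1) z.2).re) (x, v) M M M := by
  obtain ⟨C0, C00, hH⟩ := hH ι
  obtain ⟨ρ, ρ0, ρ1, ρ2, ρ3⟩ := exists_rho h one_half_pos
  have hR1 : (1 : ℝ) ≤ R1 := by exact_mod_cast h.R11
  refine ⟨(1 + 0 + 2 * (0 * C0) + C0) * ((R1 / ρ) ^ 2 * C), by positivity, fun x hx hx' v hv => ?_⟩
  have s1 := ball_sub (I := I) (c := c) h.R11 ρ0 ρ2 (by linarith) hx hx'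
  have j2 := hH (U R1) x v O (ρ / R1) C C (by positivity) ((div_le_self ρ0.le hR1).trans ρ1)
    (h.op.mem_nhds hv) (fun v' hv' => HolJ_mono (h.hol _ le_rfl v' hv') s1)
    (fun ξ hξ v' hv' => h.jb _ le_rfl ξ (s1 hξ) v' hv') fun ξ hξ => h.jb _ le_rfl ξ (s1 hξ) v hv
  simpa only [one_mul] using jb_prod le_rfl C00 ρ0 (ρ1.trans hR1)
    ((JB.const (1 : ℝ) (x, v)).mono (by simp) (by simp) (by simp)) j2 le_rfl

end Vale.Agent.P218N.D6.Ser
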