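import Vale.Agent.P218N.D6.Defs

/-! Block D6: the glued series and the frozen truncations (statements). -/

open MeasureTheory Set Filter Topology Metric
open scoped RealInnerProductSpace ContDiff

namespace Vale.Agent.P218N.D6

open Vale.Agent.P218N.H Vale.Agent.P218F

set_option maxSynthPendingDepth 3

variable {ι : Type} [Fintype ι] [DecidableEq ι]

/-- a cutoff: `1` for `|s| ≤ 1 / 2`, `0` for `|s| ≥ 1`, decreasing in `|s|` -/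
noncomputable def eta (s : ℝ) : ℝ := Real.smoothTransition (4 / 3 * (1 - s ^ 2))

/-- the cutoff in the end parameters at the scale `c' / (R + 1)` -/
noncomputable def Th (I : Finset ι) (c' : ℝ) (R : ℕ) (x : ι → ℝ) : ℝ :=
  ∏ i ∈ I, eta (x i * (R + 1) / c')

/-- the glued series -/
noncomputable def ser (I : Finset ι) (c' : ℝ) (R1 : ℕ) (U : ℕ → (ι → ℂ) → ℂ) (x : ι → ℝ) : ℝ :=
  (U R1 (re2c x)).re +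
    ∑' n : ℕ, Th I c' (R1 + n) x * (U (R1 + n + 1) (re2c x) - U (R1 + n) (re2c x)).re

/-- a family of truncations in one chart -/
structure SerIn (I : Finset ι) (c r κ C : ℝ) (R1 : ℕ) (O : Set R2) (W : R2 → ℝ)
    (good : ℕ → R2 → Prop) (s : R2 → ℝ) (e : R2 → R2) (U : ℕ → (ι → ℂ) → R2 → ℂ) : Prop where
  c0 : 0 < c
  r0 : 0 < r
  κ0 : 0 < κ
  R11 : 1 ≤ R1
  op : IsOpen O
  W1 : ∀ v ∈ O, 1 ≤ W v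
  Wc : ContinuousOn W O
  s0 : ∀ v ∈ O, 0 ≤ s v
  bad : ∀ R, R1 ≤ R → ∀ v ∈ O, ¬good R v → (R : ℝ) ≤ W v ^ 2
  mono : ∀ R, ∀ v ∈ O, good R v → good (R + 1) v
  hol : ∀ R, R1 ≤ R → ∀ v ∈ O, HolJ (U R) (Dom I c r R) v
  jb : ∀ R, R1 ≤ R → ∀ ξ ∈ Dom I c r R, ∀ v ∈ O, JB (U R ξ) v C C C
  rad : ∀ R, R1 ≤ R → ∀ ξ ∈ Dom I c r R, ∀ v ∈ O, s v * ‖fderiv ℝ (U R ξ) v (e v)‖ ≤ C
  step : ∀ R, R1 ≤ R → ∀ ξ ∈ Dom I c r (R + 1), ∀ v ∈ O, good R v →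
    JB (fun v => U (R + 1) ξ v - U R ξ v) v (C * Real.exp (-(κ * R))) (C * Real.exp (-(κ * R)))
      (C * Real.exp (-(κ * R)))
  zero : ∀ R, R1 ≤ R → ∀ v ∈ O, U R 0 v = 0

/-- the properties of the glued series `T x v` -/
structure SerOut (I : Finset ι) (c κ C θ C2 δ : ℝ) (R1 : ℕ) (O : Set R2) (W : R2 → ℝ)
    (good : ℕ → R2 → Prop) (s : R2 → ℝ) (e : R2 → R2) (U : ℕ → (ι → ℂ) → R2 → ℂ)
    (T : (ι → ℝ) → R2 → ℝ) : Prop where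
  joint : ∀ x, ‖x‖ < δ → ∀ v ∈ O, JB (fun z : (ι → ℝ) × R2 => T z.1 z.2) (x, v)
    (C2 * W v ^ 8) (C2 * W v ^ 8) (C2 * W v ^ 8)
  small : ∀ x, ‖x‖ < δ → ∀ v ∈ O, JB (T x) v (4 * θ * C) (4 * θ * C) (4 * θ * C)
  rad : ∀ x, ‖x‖ < δ → ∀ v ∈ O, s v * |fderiv ℝ (T x) v (e v)| ≤ C
  near : ∀ x, ‖x‖ < δ → ∀ v ∈ O, ∀ R, R1 ≤ R → (∀ i ∈ I, |x i| * R ≤ θ * c / 2) → good R v →
    JB (fun v => T x v - (U R (re2c x) v).re) v (C2 * Real.exp (-(κ * R)))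
      (C2 * Real.exp (-(κ * R))) (C2 * Real.exp (-(κ * R)))
  zero : ∀ v ∈ O, T 0 v = 0
  der : ∀ v ∈ O, ∀ b, Tendsto (fun R => (fderiv ℂ (fun ξ => U R ξ v) 0 (re2c b)).re) atTop
    (𝓝 (fderiv ℝ (fun x => T x v) 0 b))

/-- the glued series is jointly `C²` -/
def SerStmt : Prop := HolStmt → SchwarzStmt → ∀ (ι : Type) [Fintype ι] [DecidableEq ι]
  (I : Finset ι) (c r κ C θ : ℝ) (R1 : ℕ) (O : Set R2) (W : R2 → ℝ) (good : ℕ → R2 → Prop)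
  (s : R2 → ℝ) (e : R2 → R2) (U : ℕ → (ι → ℂ) → R2 → ℂ), SerIn I c r κ C R1 O W good s e U →
  0 < θ → θ ≤ 1 / 2 → ∃ C2 δ : ℝ, 0 ≤ C2 ∧ 0 < δ ∧
    SerOut I c κ C θ C2 δ R1 O W good s e U fun x v => ser I (θ * c) R1 (fun R ξ => U R ξ v) x

/-- freezing the truncations along the ends -/
def FrzStmt : Prop := ∀ (ι J : Type) [Fintype ι] [DecidableEq ι] [Fintype J] (w : E3 → ℝ)
  (D : EndData w) (n : E3 → E3) (κ : Type) (ψ : κ → R2 → E3) (U : κ → Set R2) (s1 : ℝ)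
  (σ : E3 → ℝ) (χ : Fin D.b → E3 → ℝ) (G : Fin D.b → ℝ × (ι → ℝ) → E3 →L[ℝ] E3) (I : Finset ι)
  (c r κ' C A : ℝ) (q R0 : ℕ) (u : ℕ → (ι → ℂ) → E3 → ℂ) (lam : ℕ → (ι → ℂ) → J → ℂ)
  (F : ℕ → (ι → ℂ) → ℂ) (Ψ : J → E3 → ℝ) (lag : ℕ → (ι → ℝ) → E3 → ℝ) (s2 Rb : ℝ) (K0 : Type)
  [Fintype K0] (idx : K0 → En D ⊕ κ) (𝒜 : Atlas w n (En D ⊕ K0)),
  Red D n ψ U s1 σ χ G I c r κ' C A q R0 u lam F Ψ lag → Adapt D ψ U s1 s2 Rb idx 𝒜 →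
  ∃ (R1 : ℕ) (C1 : ℝ) (uf : ℕ → (ι → ℂ) → E3 → ℂ), R0 ≤ R1 ∧
    (∀ k, SerIn I c r κ' C1 R1 (𝒜.O k) (fun v => 2 * (1 + ‖𝒜.φ k v‖))
      (fun R v => σ (𝒜.φ k v) < R / 4) (𝒜.sc k) (𝒜.xi k) fun R ξ v => uf R ξ (𝒜.φ k v)) ∧
    ∀ R, R1 ≤ R → ∀ p, w p = 0 → (σ p < R / 4 → ∀ ξ, uf R ξ p = u R ξ p - u R 0 p) ∧
      (σ p < R / 4 → ‖p‖ ^ 2 ≤ 3 * R) ∧ ((R : ℝ) / 8 ≤ σ p → (R : ℝ) ≤ 8 * ‖p‖ ^ 2)

end Vale.Agent.P218N.D6
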