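import Vale.Agent.P218N.D6.Nr

/-! Block D6: the choice of the truncation number and the statements of the last steps. -/

open MeasureTheory Set Filter Topology Metric
open scoped RealInnerProductSpace ContDiff

namespace Vale.Agent.P218N.D6

open Vale.Agent.P218.H313 Vale.Agent.P218N.H Vale.Agent.P218N.G Vale.Agent.P218F

set_option linter.unusedSectionVars false
set_option maxSynthPendingDepth 3

variable {ι J : Type} [Fintype ι] [DecidableEq ι] [Fintype J] {w : E3 → ℝ} {n : E3 → E3} {K : Type}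
  [Fintype K]

theorem ev_exp {κ ε : ℝ} (hκ : 0 < κ) (hε : 0 < ε) (N : ℕ) :
    ∀ᶠ R : ℕ in atTop, (R : ℝ) ^ N * Real.exp (-(κ * R)) ≤ ε := by
  have h := ((Real.tendsto_pow_mul_exp_neg_atTop_nhds_zero N).comp
    (tendsto_natCast_atTop_atTop.const_mul_atTop hκ)).eventually
    (ge_mem_nhds (show 0 < κ ^ N * ε by positivity))
  refine h.mono fun R hR => le_of_mul_le_mul_left (le_of_eq_of_le ?_ hR) (pow_pos hκ N)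
  simp only [Function.comp, mul_pow, mul_assoc]

/-- the truncation number can be chosen large, but polynomially small against `1 / ‖L x‖` -/
theorem Ctx.sel {𝒜 : Atlas w n K} {T : (ι → ℝ) → E3 → ℝ} {Rm : (ι → ℝ) → E3 → E3 →L[ℝ] E3}
    {L : (ι → ℝ) → J → ℝ} {σ : E3 → ℝ} {I : Finset ι} {c κ C A δ f0 θ : ℝ} {q N R1 : ℕ}
    {u : ℕ → (ι → ℝ) → E3 → ℝ} {l : ℕ → (ι → ℝ) → J → ℝ} {F : ℕ → (ι → ℝ) → ℝ}
    {Ψ : J → E3 → ℝ} {lag : ℕ → (ι → ℝ) → E3 → ℝ}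
    (h : Ctx 𝒜 T Rm L σ I c κ C A δ f0 θ q N R1 u l F Ψ lag) (hδ : 0 < δ) :
    ∃ C' : ℝ, 1 ≤ C' ∧ ∀ R2 : ℕ, ∀ᶠ x in 𝓝 (0 : ι → ℝ), ‖x‖ < δ ∧ ∀ η, 0 < η → ∃ R, R2 ≤ R ∧
      Adm I c R1 x R ∧ 1 ≤ C' * (‖L x‖ + η) * (R : ℝ) ^ (N + 1) := by
  have hc := h.c0
  have hC := h.C0
  set B := C * (2 / c) ^ N + 1 with hB
  have hB1 : 1 ≤ B := by simp only [hB, le_add_iff_nonneg_left]; positivity
  obtain ⟨R3, h3⟩ := eventually_atTop.1 (ev_exp h.κ0 (show 0 < 1 / (2 * B) by positivity) N)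
  refine ⟨2 * B, by linarith, fun R2 => ?_⟩
  set R4 := R1 + R2 + R3 + 1 with h4
  have p4 : (0 : ℝ) < R4 := by positivity
  filter_upwards [ball_mem_nhds 0 hδ, closedBall_mem_nhds 0 (show 0 < c / R4 by positivity)] with
    x hx hx'
  rw [mem_ball_zero_iff] at hx
  rw [mem_closedBall_zero_iff] at hx'
  refine ⟨hx, fun η hη => ?_⟩
  have hL := norm_nonneg (L x)
  by_cases h0 : ∀ i ∈ I, x i = 0
  · obtain ⟨m, hm⟩ := exists_nat_ge (1 / η)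
    have a1 : (1 : ℝ) ≤ (R4 + m : ℕ) := by exact_mod_cast (by omega)
    have a2 : (m : ℝ) ≤ (R4 + m : ℕ) := by exact_mod_cast (by omega)
    have a3 := le_self_pow₀ a1 (Nat.succ_ne_zero N)
    rw [div_le_iff₀ hη] at hm
    refine ⟨R4 + m, by omega, ⟨by omega, fun i hi => by simp [h0 i hi, hc.le]⟩, ?_⟩
    refine le_trans ?_ (mul_le_mul (show η ≤ _ by nlinarith) (a2.trans a3) (by positivity)
      (by positivity))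
    linarith
  · push Not at h0
    obtain ⟨i1, hi1, e1⟩ := h0
    obtain ⟨i, hi, e⟩ := I.exists_max_image (fun i => |x i|) ⟨i1, hi1⟩
    have a0 : 0 < |x i| := (abs_pos.2 e1).trans_le (e i1 hi1)
    have a1 : R4 ≤ ⌊c / |x i|⌋₊ := Nat.le_floor (by
      rw [le_div_iff₀' a0, ← le_div_iff₀ p4]
      exact (norm_le_pi_norm x i).trans hx')
    have a2 := Nat.floor_le (show 0 ≤ c / |x i| by positivity)
    have a3 := Nat.lt_floor_add_one (c / |x i|)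
    set R := ⌊c / |x i|⌋₊
    have a4 : (1 : ℝ) ≤ R := by exact_mod_cast (by omega)
    rw [le_div_iff₀' a0] at a2
    rw [div_lt_iff₀' a0] at a3
    have ad : Adm I c R1 x R := ⟨by omega, fun j hj =>
      (mul_le_mul_of_nonneg_right (e j hj) (by positivity)).trans a2⟩
    refine ⟨R, by omega, ad, ?_⟩
    have a5 : 1 ≤ 2 / c * R * |x i| := by
      rw [div_mul_eq_mul_div, div_mul_eq_mul_div, le_div_iff₀ hc]
      nlinarith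
    have a6 := one_le_pow₀ (n := N) a5
    have a7 := mul_le_mul_of_nonneg_left ((h.con x hx R ad).1 i hi)
      (show 0 ≤ (2 / c * R) ^ N by positivity)
    rw [mul_pow] at a6
    have a8 := h3 R (by omega)
    rw [le_div_iff₀ (by positivity)] at a8
    have a9 : (R : ℝ) ^ N ≤ R ^ (N + 1) := pow_le_pow_right₀ a4 (by omega)
    have b1 : (2 / c * R) ^ N * (C * (‖L x‖ + Real.exp (-(κ * R)))) ≤
        B * (R ^ N * (‖L x‖ + Real.exp (-(κ * R)))) := by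
      rw [mul_pow, show (2 / c) ^ N * (R : ℝ) ^ N * (C * (‖L x‖ + Real.exp (-(κ * R)))) =
        C * (2 / c) ^ N * (R ^ N * (‖L x‖ + Real.exp (-(κ * R)))) by ring]
      exact mul_le_mul_of_nonneg_right (by linarith) (by positivity)
    have b2 : B * (‖L x‖ * R ^ N) ≤ B * ((‖L x‖ + η) * R ^ (N + 1)) := by gcongr; linarith
    nlinarith

/-- the forcing terms of the model -/
noncomputable def psiV (n : E3 → E3) (V : (ι → ℝ) × E3 → ℝ) (Ψ : J → E3 → ℝ) (j : J) (y : E3) :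
    ℝ := Ψ j y * ⟪n y, grad (fun y => V (0, y)) y⟫

/-- the linear theory -/
structure Lin (𝒜 : Atlas w n K) (T : (ι → ℝ) → E3 → ℝ) (Rm : (ι → ℝ) → E3 → E3 →L[ℝ] E3)
    (Ψ : J → E3 → ℝ) : Prop where
  shr : Shr w
  npos : ∀ p, w p = 0 → 0 < ⟪n p, grad w p⟫
  inj : ∀ b : ι → ℝ, (∀ p, w p = 0 → fderiv ℝ (fun x => T x p) 0 b * ⟪n p, grad w p⟫ +
    ⟪fderiv ℝ (fun x => Rm x p) 0 b p, grad w p⟫ = 0) → b = 0
  indep : ∀ mu : J → ℝ, (∀ p, w p = 0 → ∑ j, mu j * Ψ j p = 0) → mu = 0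
  card : Fintype.card J = Fintype.card ι
  solv : ∀ (W : E3 → ℝ) (c' K : ℝ), Tube0 W c' K → (∀ p, W p = 0 ↔ w p = 0) →
    (∀ p, w p = 0 → grad W p = nuW w p) → ∀ f : E3 → ℝ, ContDiff ℝ (⊤ : ℕ∞) f →
    HasCompactSupport f → ∃ (g : E3 → ℝ) (μ : J → ℝ) (C' : ℝ) (q' : ℕ),
      (∀ k, ∀ v ∈ 𝒜.O k, JB (fun v => g (𝒜.φ k v)) v (C' * (1 + ‖𝒜.φ k v‖) ^ q')
        (C' * (1 + ‖𝒜.φ k v‖) ^ q') (C' * (1 + ‖𝒜.φ k v‖) ^ q')) ∧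
      (∀ ζ : E3 → ℝ, ContDiff ℝ 2 ζ → (∀ p, w p = 0 → ζ p = g p) → ∀ p, w p = 0 →
        jac W ζ p = f p + ∑ j, μ j * (Ψ j p * ⟪n p, nuW w p⟫)) ∧
      ∀ j, ∫ p, g p * (Ψ j p * ⟪n p, nuW w p⟫) * rho p ∂(sig 2 w) = 0

/-- the field of linear maps, extended to the whole space -/
def RotStmt : Prop := ∀ (ι : Type) [Fintype ι] [DecidableEq ι] (w : E3 → ℝ) (D : EndData w)
  (n : E3 → E3) (κ : Type) (ψ : κ → R2 → E3) (U : κ → Set R2) (s1 : ℝ) (χ : Fin D.b → E3 → ℝ)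
  (G : Fin D.b → ℝ × (ι → ℝ) → E3 →L[ℝ] E3) (r s2 Rb : ℝ) (K0 : Type) [Fintype K0]
  (idx : K0 → En D ⊕ κ) (𝒜 : Atlas w n (En D ⊕ K0)) (ε : ℝ), 0 < r → 0 < ε →
  (∀ j, ContDiff ℝ ∞ (χ j)) →
  (∀ j e (v : R2), s1 < v.1 → χ j (endPt D e v) = if e = .inr j then 1 else 0) →
  (∀ j t x, ‖x‖ < r → ContDiffAt ℝ 2 (G j) (t, x)) → (∀ j t, G j (t, 0) = 0) →
  Adapt D ψ U s1 s2 Rb idx 𝒜 →
  ∃ (Rm : (ι → ℝ) → E3 → E3 →L[ℝ] E3) (δ M : ℝ), 0 < δ ∧ 1 ≤ M ∧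
    (∀ x, ‖x‖ < δ → ∀ y, JB (fun z : (ι → ℝ) × E3 => Rm z.1 z.2) (x, y) M M M) ∧
    (∀ x, ‖x‖ < δ → ∀ y, JB (Rm x) y ε (ε / (1 + ‖y‖)) (M / (1 + ‖y‖) ^ 2)) ∧ (∀ y, Rm 0 y = 0) ∧
    (∀ x, ‖x‖ < δ → ∀ k, ∀ v ∈ 𝒜.O k, fderiv ℝ (fun v => Rm x (𝒜.φ k v)) v (𝒜.xi k v) = 0) ∧
    ∀ x p, w p = 0 → rotF G χ x p = ContinuousLinearMap.id ℝ E3 + Rm x p

/-- the Lojasiewicz inequality -/
def LojStmt : Prop := ∀ (ι J : Type) [Fintype ι] [DecidableEq ι] [Fintype J] (w : E3 → ℝ)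
  (n : E3 → E3) (K : Type) [Fintype K] (𝒜 : Atlas w n K) (T : (ι → ℝ) → E3 → ℝ)
  (Rm : (ι → ℝ) → E3 → E3 →L[ℝ] E3) (L : (ι → ℝ) → J → ℝ) (σ : E3 → ℝ) (I : Finset ι)
  (c κ C A δ f0 θ : ℝ) (q N R1 : ℕ) (u : ℕ → (ι → ℝ) → E3 → ℝ) (l : ℕ → (ι → ℝ) → J → ℝ)
  (F : ℕ → (ι → ℝ) → ℝ) (Ψ : J → E3 → ℝ) (lag : ℕ → (ι → ℝ) → E3 → ℝ) (ε M : ℝ) (q1 : ℕ)
  (Z : (ι → ℝ) × E3 → E3) (V : (ι → ℝ) × E3 → ℝ) (α c' M' : ℝ) (q' : ℕ),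
  Mid 𝒜 T Rm ε δ M q1 → Ctx 𝒜 T Rm L σ I c κ C A δ f0 θ q N R1 u l F Ψ lag →
  Fam w n T Rm Z V α c' M' q' → ∃ K' : ℝ, ∀ᶠ a in 𝓝 (0 : ι → ℝ),
    FA (sig 2 fun y => V (a, y)) - FA (sig 2 fun y => V (0, y)) ≤ K' * ‖L a‖ ^ θ⁻¹

/-- the linear properties of the model -/
def LinStmt : Prop := ∀ (ι J : Type) [Fintype ι] [DecidableEq ι] [Fintype J] (w : E3 → ℝ)
  (n : E3 → E3) (K : Type) [Fintype K] (𝒜 : Atlas w n K) (T : (ι → ℝ) → E3 → ℝ)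
  (Rm : (ι → ℝ) → E3 → E3 →L[ℝ] E3) (Ψ : J → E3 → ℝ) (ε δ M : ℝ) (q1 : ℕ)
  (Z : (ι → ℝ) × E3 → E3) (V : (ι → ℝ) × E3 → ℝ) (α c' M' : ℝ) (q' : ℕ),
  Mid 𝒜 T Rm ε δ M q1 → Lin 𝒜 T Rm Ψ → Fam w n T Rm Z V α c' M' q' →
  (∀ mu : J → ℝ, (∀ x, V (0, x) = 0 → ∑ j, mu j * psiV n V Ψ j x = 0) → mu = 0) ∧
  (∀ b, (∀ x, V (0, x) = 0 → vel0 V b x = 0) → b = 0) ∧
  SolvA 2 (fun y => V (0, y)) (psiV n V Ψ)

end Vale.Agent.P218N.D6
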